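import Vale.Agent.P292.C.OmP
import Vale.Agent.P276.B.Pl

/-! P292 C/Av (task). Helper names start with `cav_`. The contact form on the tangent vector.
`av_poly`: `om_poly` with `v = (δ : W[X]) • eu G - X • G'` and `v' = G'`, `a = b = 1` (coefficient `k` of `v i` is `(δ * w i - k) * coeff k`); `om_left` and `om z u u = 0` (`om_anti`, characteristic zero). `av_line`: `q = 0`, value at `0` (`ev_zero`). `av_const`: `q` is constant. `av_con`: `Cn.LC.sh`; for `rev` use `av_const` at `s = 1` for both curves: `ev (rev 2 G) 1 = ev G 1` (`ev_rev`), `der_reflect`, `om_right`. `av_sc`: `Cn.LC.dil`, `Cn.LC.scP`, `om_right`, `om_sc`, `om_mem`. `av_map`: `om_map`. `av_red`: `om_red`, `Place.Red` is a ring congruence (P276 B/Pl). -/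

open Polynomial Set Matrix

set_option linter.unusedSectionVars false

noncomputable section

namespace Vale.Agent.P292

open Vale.Agent.P271 Vale.Agent.P276

variable {K : Type} [Field K] [Algebra ℂ K] {N n m : ℕ} {t : Fin (N + 1) → K} {S : Cn K N}
  {W : Type} [Field W] [Algebra ℂ W]

variable {W' κ : Type} [Field W'] [Algebra ℂ W'] [Field κ] [Algebra ℂ κ] {δ : ℕ}
  {G R₁ R₂ : Fin S.M → W[X]} {O : ValuationSubring W} {A Y : Set W}

theorem cav_self (hS : S.Ok t n m) {z u : Fin S.M → W} (h : S.On z) (h0 : z ≠ 0)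
    (hu : S.Tan z u) : S.om z u u = 0 := by
  have : CharZero W := Algebra.charZero_of_charZero ℂ W
  have h1 := om_anti hS h h0 hu hu
  have h2 : (2 : W) * S.om z u u = 0 := by linear_combination h1
  exact (mul_eq_zero.1 h2).resolve_left two_ne_zero

theorem cav_coeff (p : W[X]) (k : ℕ) : (X * derivative p).coeff k = k * p.coeff k := by
  rcases k with _ | k
  · simp
  · rw [coeff_X_mul, coeff_derivative, mul_comm, Nat.cast_succ]

theorem cav_smul (hS : S.Ok t n m) {z u v : Fin S.M → W} (h : S.On z) (h0 : z ≠ 0)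
    (hu : S.Tan z u) (hv : S.Tan z v) (r : W) : S.om z u (r • v) = r * S.om z u v := by
  have h1 := om_right hS h h0 hu hv hv r 0
  rwa [zero_smul, add_zero, zero_mul, add_zero] at h1

theorem av_poly [IsAlgClosed W] (hS : S.Ok t n m) (h : S.LC δ G) :
    ∃ q : W[X], (∀ k : ℕ, δ < k + 2 → q.coeff k = 0) ∧ ∀ s, q.eval s =
      δ * S.om (S.ev G s) (S.eu (S.ev G s)) (S.ev (fun i => derivative (G i)) s) := by
  have t1 : S.Tan G ((δ : W[X]) • S.eu G + (-X : W[X]) • fun i => derivative (G i)) :=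
    (S.TanS G).add_mem ((S.TanS G).smul_mem _ h.on.eu) ((S.TanS G).smul_mem _ h.on.der')
  obtain ⟨q, h1, -, h2⟩ := om_poly hS h t1 h.on.der' (a := 1) (b := 1) (fun i k hk => by
    have e : ((δ : W[X]) • S.eu G + (-X : W[X]) • fun i => derivative (G i)) i =
        C ((δ * S.w i : ℕ) : W) * G i - X * derivative (G i) := by
      simp only [Pi.add_apply, Pi.smul_apply, smul_eq_mul, Cn.eu, Nat.cast_mul, map_mul,
        map_natCast]
      ring
    rw [e, coeff_sub, coeff_C_mul, cav_coeff, ← sub_mul]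
    have hk' : δ * S.w i ≤ k := by
      have h3 : ((δ * S.w i : ℕ) : ℤ) < k + 1 := by rwa [Nat.cast_mul]
      omega
    rcases hk'.eq_or_lt with e1 | e1
    · rw [e1, sub_self, zero_mul]
    · rw [coeff_eq_zero_of_natDegree_lt ((h.deg i).trans_lt e1), mul_zero]) fun i k hk => by
    have hk' : δ * S.w i < k + 1 := by
      have h3 : ((δ * S.w i : ℕ) : ℤ) < k + 1 := by rwa [Nat.cast_mul]
      omega
    rw [coeff_derivative, coeff_eq_zero_of_natDegree_lt ((h.deg i).trans_lt hk'), zero_mul]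
  refine ⟨q, fun k hk => h1 k (by omega), fun s => ?_⟩
  have e : S.ev ((δ : W[X]) • S.eu G + (-X : W[X]) • fun i => derivative (G i)) s =
      (δ : W) • S.eu (S.ev G s) + (-s) • S.ev (fun i => derivative (G i)) s := by
    funext i
    simp [Cn.ev, Cn.eu]
  rw [h2, e, om_left, cav_self hS (h.ev_on s) (h.prim s) (h.on.der'.ev s), mul_zero, add_zero]

theorem av_line [IsAlgClosed W] (hS : S.Ok t n m) (h : S.LC 1 G) : S.Av G = 0 := by
  obtain ⟨q, h1, h2⟩ := av_poly hS h
  have h3 : q = 0 := Polynomial.ext fun k => h1 k (by omega)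
  have h4 := h2 0
  rw [h3, eval_zero, (ev_zero G).1, (ev_zero G).2, Nat.cast_one, one_mul] at h4
  exact h4.symm

theorem av_const [IsAlgClosed W] (hS : S.Ok t n m) (h : S.LC 2 G) (s : W) :
    S.om (S.ev G s) (S.eu (S.ev G s)) (S.ev (fun i => derivative (G i)) s) = S.Av G := by
  have : CharZero W := Algebra.charZero_of_charZero ℂ W
  obtain ⟨q, h1, h2⟩ := av_poly hS h
  have h3 : q = C (q.coeff 0) := eq_C_of_natDegree_le_zero
    (natDegree_le_iff_coeff_eq_zero.2 fun k hk => h1 k (by omega))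
  have h4 := h2 0
  have h5 := h2 s
  rw [(ev_zero G).1, (ev_zero G).2] at h4
  rw [h3, eval_C] at h4 h5
  exact mul_left_cancel₀ (Nat.cast_ne_zero.2 two_ne_zero) (h5.symm.trans h4)

theorem av_con [IsAlgClosed W] (hS : S.Ok t n m) (h : S.LC 2 G) :
    S.Av (S.rev 2 G) = - S.Av G ∧ ∀ a, S.Av (S.sh a G) = S.Av G := by
  refine ⟨?_, fun a => ?_⟩
  · have e1 : S.ev (S.rev 2 G) 1 = S.ev G 1 := by
      rw [ev_rev h.deg one_ne_zero, inv_one]
      funext i
      simp [Cn.sc]
    have e2 : S.ev (fun i => derivative (S.rev 2 G i)) 1 =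
        (2 : W) • S.eu (S.ev G 1) + (-1 : W) • S.ev (fun i => derivative (G i)) 1 := by
      funext i
      simp only [Cn.ev, Cn.rev, Cn.eu, der_reflect (h.deg i), Pi.add_apply, Pi.smul_apply,
        smul_eq_mul, Nat.cast_mul, Nat.cast_ofNat]
      ring
    have o := h.ev_on 1
    rw [← av_const hS h.rev.1 1, ← av_const hS h 1, e1, e2,
      om_right hS o (h.prim 1) o.eu o.eu (h.on.der'.ev 1), cav_self hS o (h.prim 1) o.eu]
    ring
  · obtain ⟨-, h1, -, -, h2, -⟩ := h.sh a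
    rw [Cn.Av, h1, h2, av_const hS h]

theorem av_sc (hS : S.Ok t n m) (h : S.LC δ G) {r : W} (hr : r ≠ 0) :
    S.Av (dil r G) = r * S.Av G ∧ S.Av (S.scP r G) = r * S.Av G ∧ S.Av G ∈ cl (cf G) := by
  obtain ⟨c1, c2, c3⟩ := h.cv_on
  refine ⟨?_, ?_, ?_⟩
  · obtain ⟨-, h1, -, h2, -⟩ := h.dil hr
    rw [Cn.Av, h1, h2, cav_smul hS c1 c2 c1.eu c3, Cn.Av]
  · obtain ⟨-, h1, -⟩ := h.scP hr
    have e : S.eu (S.sc r (cv G 0)) = S.sc r (S.eu (cv G 0)) := by
      funext i
      simp only [Cn.eu, Cn.sc]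
      ring
    rw [Cn.Av, h1, h1, e, om_sc hS c1 c2 c1.eu c3 hr, Cn.Av]
  · refine cl_le ?_ (om_mem hS c1 c2 c1.eu c3)
    rintro _ ((⟨i, rfl⟩ | ⟨i, rfl⟩) | ⟨i, rfl⟩)
    · exact subset_cl _ ⟨i, 0, rfl⟩
    · exact mul_mem (natCast_mem _ _) (subset_cl _ ⟨i, 0, rfl⟩)
    · exact subset_cl _ ⟨i, 1, rfl⟩

theorem av_map (hS : S.Ok t n m) (h : S.LC δ G) (f : W →ₐ[ℂ] W') :
    S.Av (fun i => (G i).map (f : W →+* W')) = f (S.Av G) := by
  obtain ⟨c1, c2, c3⟩ := h.cv_on
  have e : ∀ k, cv (fun i => (G i).map (f : W →+* W')) k = fun i => f (cv G k i) := fun k =>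
    funext fun i => coeff_map _ _
  have e2 : (S.eu fun i => f (cv G 0 i)) = fun i => f (S.eu (cv G 0) i) := by
    funext i
    simp only [Cn.eu, map_mul, map_natCast]
  rw [Cn.Av, e, e, e2, om_map hS c1 c2 c1.eu c3, Cn.Av]

theorem av_red (hS : S.Ok t n m) (h : S.LC δ G) (P : Place ℂ W κ) {G' : Fin S.M → κ[X]}
    (hr : P.RedP G G') (h0 : cv G' 0 ≠ 0) : P.Red (S.Av G) (S.Av G') := by
  obtain ⟨c1, c2, c3⟩ := h.cv_on
  refine om_red hS P c1 c1.eu c3 (fun i => hr i 0) h0 (fun i => ?_) fun i => hr i 1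
  have h1 := Place.red_algebraMap (P := P) (S.w i : ℂ)
  rw [map_natCast, map_natCast] at h1
  exact h1.mul (hr i 0)

end Vale.Agent.P292
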