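import Vale.Agent.P292.B.Main
import Vale.Agent.P276.E.DerA
import Vale.Agent.P276.B.Pl

/-! P292 C/BD (helper1, frozen): definitions for sections along curves. -/

open Polynomial Set Matrix

noncomputable section

namespace Vale.Agent.P292

open Vale.Agent.P271 Vale.Agent.P276

variable {K : Type} [Field K] [Algebra ℂ K] {N : ℕ} (S : Cn K N) {W : Type} [Field W] [Algebra ℂ W]

open Classical in
/-- The symplectic form on two sections along a curve. -/
def Cn.oq (G v v' : Fin S.M → W[X]) : W[X] :=
  if h : ∃ ξ, S.pm G *ᵥ ξ = v' then v ⬝ᵥ h.choose else 0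

/-- The tangent section. -/
def Cn.dG (G : Fin S.M → W[X]) : Fin S.M → W[X] := fun i => derivative (G i)

/-- The section `δ E - X G'`, which vanishes at infinity. -/
def Cn.hs (δ : ℕ) (G : Fin S.M → W[X]) : Fin S.M → W[X] :=
  fun i => (δ : W[X]) * S.eu G i - X * derivative (G i)

/-- The values at `y` of the derivations over `A`. -/
def Ud (A : Set W) {τ : Type} (y : τ → W) : Submodule W (τ → W) where
  carrier := {u | ∃ D : Derivation ℂ W W, (∀ a ∈ cl A, D a = 0) ∧ ∀ i, D (y i) = u i}
  add_mem' := by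
    rintro u u' ⟨D, h1, h2⟩ ⟨D', h1', h2'⟩
    exact ⟨D + D', fun a ha => by simp [h1 a ha, h1' a ha], fun i => by simp [h2, h2']⟩
  zero_mem' := ⟨0, fun _ _ => rfl, fun _ => rfl⟩
  smul_mem' := by
    rintro c u ⟨D, h1, h2⟩
    exact ⟨c • D, fun a ha => by simp [h1 a ha], fun i => by simp [h2]⟩

end Vale.Agent.P292
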