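import Vale.Agent.P292.Defs

/-! P292 C/Pol (task). Helper names start with `cpol_`. Polynomials only.
`eq_of_ne`: `W` has characteristic zero (`algebraRat.charZero`-like: `charZero_of_injective_algebraMap (algebraMap ℂ W).injective`), so it is infinite; `Polynomial.eq_of_infinite_eval_eq`. `ev_reflect`: `eval₂_reflect_mul_pow`. `deg_of_rev`: if `q ≠ 0` and `c < D = natDegree q` then `q' * X ^ (D - c).toNat = reflect D q` (`eq_of_ne`), compare the values at `0`. `coeff_mem`: for an `M`-linear functional `l : W → M` that kills `M`, the polynomial with coefficients `l (q.coeff j)` vanishes at all naturals (or Lagrange interpolation at `0, ..., natDegree q`). `der_reflect`: induction on monomials or coefficients. `unit_of_loc`: an ideal of `W[X]` is principal, a generator without roots is a unit. `kummer`: `d ∣ rootMultiplicity a f` for all `a` (`rootMultiplicity_mul`, powers by induction; `s ≠ 0` follows from `f * r ^ d ≠ 0`), `f` splits: induction on the degree, or `C_leadingCoeff_mul_prod_multiset_X_sub_C`,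 `prod_multiset_root_eq_finset_root`, `IsAlgClosed.exists_pow_nat_eq`. -/

open Polynomial Set Matrix

set_option linter.unusedSectionVars false

noncomputable section

namespace Vale.Agent.P292

open Vale.Agent.P271 Vale.Agent.P276

variable {K : Type} [Field K] [Algebra ℂ K] {N n m : ℕ} {t : Fin (N + 1) → K} {S : Cn K N}
  {W : Type} [Field W] [Algebra ℂ W]

variable {W' κ : Type} [Field W'] [Algebra ℂ W'] [Field κ] [Algebra ℂ κ] {δ : ℕ}
  {G R₁ R₂ : Fin S.M → W[X]} {O : ValuationSubring W} {A Y : Set W}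

theorem cpol_pow {r : W[X]} (hr : r ≠ 0) (a : W) (d : ℕ) :
    rootMultiplicity a (r ^ d) = d * rootMultiplicity a r := by
  induction d with
  | zero => simp
  | succ d ih => rw [pow_succ, rootMultiplicity_mul (mul_ne_zero (pow_ne_zero d hr) hr), ih, add_one_mul]

theorem eq_of_ne {p q : W[X]} (h : ∀ s : W, s ≠ 0 → p.eval s = q.eval s) : p = q := by
  have := charZero_of_injective_algebraMap (algebraMap ℂ W).injective
  exact eq_of_infinite_eval_eq p q ((Set.finite_singleton (0 : W)).infinite_compl.mono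
    fun s hs => h s hs)

theorem ev_reflect {p : W[X]} {k : ℕ} (hp : p.natDegree ≤ k) {s : W} (hs : s ≠ 0) :
    (reflect k p).eval s = s ^ k * p.eval s⁻¹ := by
  have := invertibleOfNonzero (inv_ne_zero hs)
  have h := eval₂_reflect_mul_pow (RingHom.id W) s⁻¹ k p hp
  rw [invOf_eq_inv, inv_inv, eval₂_id, eval₂_id] at h
  rw [← h, mul_left_comm, ← mul_pow, mul_inv_cancel₀ hs, one_pow, mul_one]

theorem deg_of_rev {q q' : W[X]} {c : ℤ} (h : ∀ s : W, s ≠ 0 → q'.eval s = s ^ c * q.eval s⁻¹)
    {k : ℕ} (hk : c < k) : q.coeff k = 0 := by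
  rcases lt_or_ge q.natDegree k with h1 | h1
  · exact coeff_eq_zero_of_natDegree_lt h1
  obtain ⟨e, he⟩ : ∃ e : ℕ, (q.natDegree : ℤ) = e + c := ⟨(q.natDegree - c).toNat, by omega⟩
  have h2 : q' * X ^ e = reflect q.natDegree q := eq_of_ne fun s hs => by
    rw [ev_reflect le_rfl hs, eval_mul, eval_pow, eval_X, h s hs, ← zpow_natCast s q.natDegree, he,
      zpow_add₀ hs, zpow_natCast]
    ring
  have h3 := congrArg (coeff · (q.natDegree - k)) h2
  simp only [coeff_mul_X_pow', coeff_reflect] at h3
  rw [if_neg (by omega), revAt_le (Nat.sub_le _ _), Nat.sub_sub_self h1] at h3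
  exact h3.symm

theorem coeff_mem {q : W[X]} (M : IntermediateField ℂ W) (h : ∀ k : ℕ, q.eval (k : W) ∈ M)
    (j : ℕ) : q.coeff j ∈ M := by
  classical
  have := charZero_of_injective_algebraMap (algebraMap ℂ W).injective
  have := charZero_of_injective_algebraMap (algebraMap ℂ M).injective
  have h1 : Set.InjOn (fun k : ℕ => (k : M)) (Finset.range (q.natDegree + 1)) :=
    Nat.cast_injective.injOn
  have h2 : q = (Lagrange.interpolate (Finset.range (q.natDegree + 1)) (fun k : ℕ => (k : M))
      fun k => ⟨q.eval (k : W), h k⟩).map (algebraMap M W) := by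
    refine eq_of_degrees_lt_of_eval_index_eq (v := fun k : ℕ => (k : W))
      (Finset.range (q.natDegree + 1)) Nat.cast_injective.injOn ?_
      (degree_map_le.trans_lt (Lagrange.degree_interpolate_lt _ h1)) fun k hk => ?_
    · rw [Finset.card_range]
      exact degree_le_natDegree.trans_lt (by exact_mod_cast Nat.lt_succ_self _)
    · rw [← map_natCast (algebraMap M W) k, eval_map_algebraMap, aeval_algebraMap_apply,
        coe_aeval_eq_eval, Lagrange.eval_interpolate_at_node _ h1 hk, map_natCast]
      rfl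
  rw [h2, coeff_map]
  exact SetLike.coe_mem _

theorem der_reflect {p : W[X]} {k : ℕ} (hp : p.natDegree ≤ k) :
    (derivative (reflect k p)).eval 1 = k * p.eval 1 - (derivative p).eval 1 := by
  refine induction_with_natDegree_le (fun p : W[X] => (derivative (reflect k p)).eval 1 =
    k * p.eval 1 - (derivative p).eval 1) k ?_ (fun i r _ hi => ?_) (fun f g _ _ hf hg => ?_) p hp
  · simp
  · rw [reflect_C_mul_X_pow, revAt_le hi]
    simp [derivative_X_pow, Nat.cast_sub hi]
    ring
  · simp only [reflect_add, map_add, eval_add, hf, hg]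
    ring

theorem unit_of_loc [IsAlgClosed W] (I : Ideal W[X]) (h : ∀ a : W, ∃ q ∈ I, q.eval a ≠ 0) :
    (1 : W[X]) ∈ I := by
  have hm := Submodule.IsPrincipal.generator_mem I
  refine (Ideal.eq_top_iff_one I).1 (I.eq_top_of_isUnit_mem hm (isUnit_iff_degree_eq_zero.2 ?_))
  by_contra h0
  obtain ⟨a, ha⟩ := IsAlgClosed.exists_root _ h0
  obtain ⟨q, hq, h1⟩ := h a
  obtain ⟨r, rfl⟩ := (Submodule.IsPrincipal.mem_iff_generator_dvd I).1 hq
  exact h1 (by rw [eval_mul, ha.eq_zero, zero_mul])

theorem kummer [IsAlgClosed W] {f : W[X]} (hf : f ≠ 0) {d : ℕ} (hd : d ≠ 0)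
    (h : ∀ a : W, ∃ r s g : W[X], r ≠ 0 ∧ g.eval a ≠ 0 ∧ f * r ^ d = g * s ^ d) :
    ∃ g : W[X], f = g ^ d := by
  classical
  have h1 : ∀ a, d ∣ rootMultiplicity a f := by
    intro a
    obtain ⟨r, s, g, hr, hg, e⟩ := h a
    have h2 := mul_ne_zero hf (pow_ne_zero d hr)
    have h3 := e ▸ h2
    have hs : s ≠ 0 := fun h0 => h3 (by rw [h0, zero_pow hd, mul_zero])
    have h4 := congrArg (rootMultiplicity a) e
    rw [rootMultiplicity_mul h2, rootMultiplicity_mul h3, cpol_pow hr, cpol_pow hs,
      rootMultiplicity_eq_zero hg, zero_add] at h4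
    exact (Nat.dvd_add_left (dvd_mul_right d _)).1 (h4 ▸ dvd_mul_right d _)
  choose e he using h1
  obtain ⟨z, hz⟩ := IsAlgClosed.exists_pow_nat_eq f.leadingCoeff (Nat.pos_of_ne_zero hd)
  refine ⟨C z * ∏ a ∈ f.roots.toFinset, (X - C a) ^ e a, ?_⟩
  rw [mul_pow, ← C_pow, hz, ← Finset.prod_pow]
  simp only [← pow_mul, mul_comm _ d, ← he]
  rw [← prod_multiset_root_eq_finset_root, C_leadingCoeff_mul_prod_multiset_X_sub_C
    (IsAlgClosed.splits f).natDegree_eq_card_roots.symm]

end Vale.Agent.P292
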