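import Vale.Agent.P292.C.Av
import Vale.Agent.P002.Der

/-! P292 C/DA (task). Helper names start with `cda_`. The differential of `A`.
`cartan`: `V = RatFunc W`, `f = (IsScalarTower.toAlgHom ℂ W[X] V)` injective; `D'` from `exists_cder`, `∂ = derivative'.restrictScalars ℂ`, both extended to `V` by `Vale.Agent.P002.ext_der'`; they commute on polynomials. `om_pol0` for the pairs `(eu G, G')`, `(eu G, cD D G)`, `(cD D G, G')` gives `α', β', γ'`, equal to `α, β, γ` by evaluation (`eq_of_ne`); `der_eu` in `V` (the bracket term is `om z e 0 = 0`, `om_right` with `a = b = 0`), injectivity. `dA`: `β` from `om_poly` for `(eu G, cD D G)` with `a = b = 0` has degree at most `2`; `reflect 2 β` is the polynomial for `rev 2 G` (`eq_of_ne`, `ev_reflect`, `ev_rev`, `cD_rev`, `cD_deg`, `om_sc`); coefficient `0` of `cartan` for `G` (`α = C (Av G)` by `av_const`) and for `rev 2 G` (`av_con`), subtract. -/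

open Polynomial Set Matrix

set_option linter.unusedSectionVars false

noncomputable section

namespace Vale.Agent.P292

open Vale.Agent.P271 Vale.Agent.P276

variable {K : Type} [Field K] [Algebra ℂ K] {N n m : ℕ} {t : Fin (N + 1) → K} {S : Cn K N}
  {W : Type} [Field W] [Algebra ℂ W]

variable {W' κ : Type} [Field W'] [Algebra ℂ W'] [Field κ] [Algebra ℂ κ] {δ : ℕ}
  {G R₁ R₂ : Fin S.M → W[X]} {O : ValuationSubring W} {A Y : Set W}

theorem cda_ev (s : W) : ∃ f : W[X] →ₐ[ℂ] W, ∀ p, f p = p.eval s :=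
  ⟨(Polynomial.aeval s).restrictScalars ℂ, fun p => by
    rw [AlgHom.restrictScalars_apply, coe_aeval_eq_eval]⟩

theorem cda_eu (G : Fin S.M → W[X]) (s : W) : S.ev (S.eu G) s = S.eu (S.ev G s) := by
  funext i
  simp only [Cn.ev, Cn.eu, eval_mul, eval_natCast]

theorem cda_pol [IsAlgClosed W] (hS : S.Ok t n m) (h : S.LC δ G) {v v' : Fin S.M → W[X]}
    (hv : S.Tan G v) (hv' : S.Tan G v') :
    ∃ q : W[X], (∀ s, q.eval s = S.om (S.ev G s) (S.ev v s) (S.ev v' s)) ∧
      ∀ (V : Type) [Field V] [Algebra ℂ V] (f : W[X] →ₐ[ℂ] V), (fun i => f (G i)) ≠ 0 →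
        f q = S.om (fun i => f (G i)) (fun i => f (v i)) fun i => f (v' i) := by
  obtain ⟨q, hq⟩ := om_pol0 hS h.on h.prim hv hv'
  refine ⟨q, fun s => ?_, hq⟩
  obtain ⟨e, he⟩ := cda_ev s
  have h1 := hq W e (by simp only [he]; exact h.prim s)
  simp only [he] at h1
  exact h1

theorem cda_lift [IsAlgClosed W] (hS : S.Ok t n m) (h : S.LC δ G) {v v' : Fin S.M → W[X]}
    (hv : S.Tan G v) (hv' : S.Tan G v') {α : W[X]}
    (hα : ∀ s, α.eval s = S.om (S.ev G s) (S.ev v s) (S.ev v' s)) {V : Type} [Field V]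
    [Algebra ℂ V] (f : W[X] →ₐ[ℂ] V) (hf : (fun i => f (G i)) ≠ 0) :
    f α = S.om (fun i => f (G i)) (fun i => f (v i)) fun i => f (v' i) := by
  obtain ⟨q, h1, h2⟩ := cda_pol hS h hv hv'
  have : α = q := eq_of_ne fun s _ => by rw [hα, h1]
  rw [this]
  exact h2 V f hf

theorem cda_fld (W : Type) [Field W] [Algebra ℂ W] :
    ∃ (V : Type) (_ : Field V) (_ : Algebra ℂ V) (f : W[X] →ₐ[ℂ] V), Function.Injective f :=
  ⟨FractionRing W[X], inferInstance, inferInstance,
    IsScalarTower.toAlgHom ℂ W[X] (FractionRing W[X]),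
    IsFractionRing.injective W[X] (FractionRing W[X])⟩

theorem cartan [IsAlgClosed W] (hS : S.Ok t n m) (h : S.LC δ G) (D : Derivation ℂ W W)
    {α β γ : W[X]}
    (hα : ∀ s, α.eval s = S.om (S.ev G s) (S.eu (S.ev G s)) (S.ev (fun i => derivative (G i)) s))
    (hβ : ∀ s, β.eval s = S.om (S.ev G s) (S.eu (S.ev G s)) (S.ev (S.cD D G) s))
    (hγ : ∀ s, γ.eval s =
      S.om (S.ev G s) (S.ev (S.cD D G) s) (S.ev (fun i => derivative (G i)) s)) (k : ℕ) :
    D (α.coeff k) - (derivative β).coeff k = γ.coeff k := by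
  obtain ⟨V, _, _, f, hf⟩ := cda_fld W
  have : CharZero V := charZero_of_injective_algebraMap (algebraMap ℂ V).injective
  obtain ⟨D', hD'⟩ := exists_cder D
  obtain ⟨D₁, h1⟩ := Vale.Agent.P002.ext_der' f hf D'
  obtain ⟨D₂, h2⟩ := Vale.Agent.P002.ext_der' f hf
    ((derivative' : Derivation W W[X] W[X]).restrictScalars ℂ)
  have h2' : ∀ a, D₂ (f a) = f (derivative a) := h2
  have hz : S.On fun i => f (G i) := h.on.map f
  have hz0 : (fun i => f (G i)) ≠ 0 := by
    intro h0
    apply h.prim 0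
    funext i
    have : G i = 0 := hf (by rw [map_zero]; exact congrFun h0 i)
    simp only [Cn.ev, this, eval_zero, Pi.zero_apply]
  have hE := der_eu hS hz hz0 D₁ D₂
  have hbr : (fun i => ⁅D₁, D₂⁆ (f (G i))) = 0 := by
    funext i
    rw [Derivation.commutator_apply, h2', h1, h1, h2', ← map_sub]
    have : D' (derivative (G i)) - derivative (D' (G i)) = 0 := by
      refine Polynomial.ext fun j => ?_
      rw [coeff_sub, hD', coeff_derivative, coeff_derivative, hD', coeff_zero, D.leibniz]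
      have h3 : D ((j : W) + 1) = 0 := by
        rw [map_add, D.map_natCast, D.map_one_eq_zero, add_zero]
      rw [h3, smul_zero, zero_add, smul_eq_mul, mul_comm, sub_self]
    rw [this, map_zero]
    rfl
  have h00 : S.om (fun i => f (G i)) (S.eu fun i => f (G i)) 0 = 0 := by
    have := om_right hS hz hz0 hz.eu hz.eu hz.eu 0 0
    simpa using this
  have heu : (S.eu fun i => f (G i)) = fun i => f (S.eu G i) := by
    funext i
    simp only [Cn.eu, map_mul, map_natCast]
  have hc : ∀ i, D₁ (f (G i)) = f (S.cD D G i) := fun i => by rw [h1, cD_eq hD']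
  rw [hbr, h00, sub_zero] at hE
  simp only [h2', hc] at hE
  have eα := cda_lift hS h h.on.eu h.on.der' (α := α) (fun s => by rw [hα, cda_eu]) f hz0
  have eβ := cda_lift hS h h.on.eu (cD_tan h.on D) (α := β) (fun s => by rw [hβ, cda_eu]) f hz0
  have eγ := cda_lift hS h (cD_tan h.on D) h.on.der' hγ f hz0
  rw [heu, ← eα, ← eβ, ← eγ, h1, h2', ← map_sub] at hE
  have := congrArg (fun p : W[X] => p.coeff k) (hf hE)
  simp only [coeff_sub, hD'] at this
  exact this

theorem cda_zero (D : Derivation ℂ W W) (G : Fin S.M → W[X]) :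
    S.ev (S.cD D G) 0 = fun i => D (cv G 0 i) := by
  funext i
  simp only [Cn.ev, cv]
  rw [← coeff_zero_eq_eval_zero, cD_coeff]

theorem cda_one [IsAlgClosed W] (hS : S.Ok t n m) (h : S.LC 2 G) (D : Derivation ℂ W W)
    {β : W[X]} (hβ : ∀ s, β.eval s = S.om (S.ev G s) (S.eu (S.ev G s)) (S.ev (S.cD D G) s)) :
    D (S.Av G) - β.coeff 1 = S.om (cv G 0) (fun i => D (cv G 0 i)) (cv G 1) := by
  obtain ⟨γ, hγ, -⟩ := cda_pol hS h (cD_tan h.on D) h.on.der'
  have h1 := cartan hS h D (α := C (S.Av G)) (fun s => by rw [eval_C, av_const hS h]) hβ hγ 0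
  rw [coeff_C_zero, coeff_derivative, coeff_zero_eq_eval_zero, hγ, (ev_zero G).1, (ev_zero G).2,
    cda_zero] at h1
  simpa using h1

/-- C3: the differential of `A`. -/
theorem dA [IsAlgClosed W] (hS : S.Ok t n m) (h : S.LC 2 G) (D : Derivation ℂ W W) :
    2 * D (S.Av G) = S.om (cv G 0) (fun i => D (cv G 0 i)) (cv G 1) -
      S.om (S.top 2 G) (fun i => D (S.top 2 G i)) (cv (S.rev 2 G) 1) := by
  have hd : ∀ i (k : ℕ), (((2 : ℕ) : ℤ) * S.w i : ℤ) < k + 0 → (G i).coeff k = 0 := by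
    intro i k hk
    refine coeff_eq_zero_of_natDegree_lt (lt_of_le_of_lt (h.deg i) ?_)
    omega
  obtain ⟨β, hβ1, -, hβ⟩ := om_poly hS h h.on.eu (cD_tan h.on D) (a := 0) (b := 0)
    (fun i k hk => by
      simp only [Cn.eu]
      rw [← C_eq_natCast, coeff_C_mul, hd i k hk, mul_zero])
    (fun i k hk => by rw [cD_coeff, hd i k hk, map_zero])
  have hdeg : β.natDegree ≤ 2 := natDegree_le_iff_coeff_eq_zero.2 fun k hk => hβ1 k (by omega)
  have hr := h.rev
  obtain ⟨β', hβ', -⟩ := cda_pol hS hr.1 hr.1.on.eu (cD_tan hr.1.on D)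
  simp only [cda_eu] at hβ hβ'
  have e : β' = reflect 2 β := by
    refine eq_of_ne fun s hs => ?_
    rw [hβ', ev_reflect hdeg hs, hβ, cD_rev, ev_rev h.deg hs,
      ev_rev (fun i => (cD_deg D G i).trans (h.deg i)) hs,
      ← om_sc hS (h.ev_on _) (h.prim _) (h.ev_on _).eu ((cD_tan h.on D).ev _) (pow_ne_zero 2 hs)]
    congr 1
    funext i
    simp only [Cn.eu, Cn.sc]
    ring
  have h1 := cda_one hS h D hβ
  have h2 := cda_one hS hr.1 D hβ'
  have h3 : (reflect 2 β).coeff 1 = β.coeff 1 := by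
    rw [coeff_reflect, revAt_le (by norm_num)]
  rw [(av_con hS h).1, e, h3, hr.2.1, map_neg] at h2
  rw [← h1, ← h2]
  ring

end Vale.Agent.P292
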