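import Vale.Agent.P292.C.Un
import Vale.Agent.P276.E.RkB

/-! P292 C/Beta (TASK). The differential of the contact form in a chart; `bt a` is `q` times the contact form.
`bt_om`: `om_pm` for `ξ = a(z) v`, `om_right`. `dbeta_der`: apply `D₁` to `bt_om` for `v = D₂ z` and `D₂` to `bt_om` for `v = D₁ z` (`On.der`, `der_aeval`, Leibniz), subtract `bt_om` for the bracket, `der_eu`. `dbeta_col`: take a big field `V` (`exists_big`-like lemma at the end of P276 `E/RkB`), `x` from `exists_gen` with `Y = ∅`, `D₁ = dv ∅ x (pm x *ᵥ single i 1)` and so on (`dv_spec`, `tan_pm`); `dbeta_der`, `om_pm`; both sides are values at `x` of polynomials over `ℂ` (write them down: `dd z (pm z *ᵥ single i 1) P = aeval z (∑ l, pderiv l P * p l i)`), transfer to `z` by `gen_sp0`. `dbeta`: `tan_iff`, write `ξ = ∑ ξ i • single i 1`; both sides are bilinear in `ξ, ξ'` (`om_pm`). Helper names start with `cbe_`. -/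

open Polynomial Set Matrix

set_option linter.unusedSectionVars false

noncomputable section

namespace Vale.Agent.P292

open Vale.Agent.P271 Vale.Agent.P276

variable {K : Type} [Field K] [Algebra ℂ K] {N n m : ℕ} {t : Fin (N + 1) → K} {S : Cn K N}
  {W W' κ : Type} [Field W] [Algebra ℂ W] [Field W'] [Algebra ℂ W'] [Field κ] [Algebra ℂ κ]
  {δ : ℕ} {a b : ℤ} {G R R₁ R₂ v v' : Fin S.M → W[X]} {O : ValuationSubring W} {A B Y : Set W}

/-- A chart for the inverse of the Poisson matrix. -/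
def Cn.Ch (S : Cn K N) (q : MvPolynomial (Fin S.M) ℂ)
    (a : Matrix (Fin S.M) (Fin S.M) (MvPolynomial (Fin S.M) ℂ)) : Prop :=
  ∀ (R : Type) [CommRing R] [Algebra ℂ R] (z' δ : Fin S.M → R), S.On z' → S.Tan z' δ →
    S.pm z' *ᵥ (a.map (MvPolynomial.aeval z') *ᵥ δ) = MvPolynomial.aeval z' q • δ

/-- The coefficients of the contact form times `q`. -/
def Cn.bt (S : Cn K N) (a : Matrix (Fin S.M) (Fin S.M) (MvPolynomial (Fin S.M) ℂ)) (k : Fin S.M) :
    MvPolynomial (Fin S.M) ℂ := ∑ i, (S.w i : MvPolynomial (Fin S.M) ℂ) * MvPolynomial.X i * a i k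

/-- The directional derivative. -/
def dd {σ R : Type} [Fintype σ] [CommRing R] [Algebra ℂ R] (z p : σ → R) (P : MvPolynomial σ ℂ) :
    R := ∑ l, MvPolynomial.aeval z (MvPolynomial.pderiv l P) * p l

/-- The exterior differential of the form with coefficients `β`. -/
def dB {σ R : Type} [Fintype σ] [CommRing R] [Algebra ℂ R] (β : σ → MvPolynomial σ ℂ)
    (z p p' : σ → R) : R := ∑ k, (dd z p (β k) * p' k - dd z p' (β k) * p k)

variable {q : MvPolynomial (Fin S.M) ℂ} {c : Matrix (Fin S.M) (Fin S.M) (MvPolynomial (Fin S.M) ℂ)}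
  {z p p' : Fin S.M → W}

theorem bt_om (hS : S.Ok t n m) (hc : S.Ch q c) (h : S.On z) (h0 : z ≠ 0) (hp : S.Tan z p) :
    MvPolynomial.aeval z q * S.om z (S.eu z) p = ∑ k, MvPolynomial.aeval z (S.bt c k) * p k := by
  have e1 := om_pm hS h h0 h.eu (c.map (MvPolynomial.aeval z) *ᵥ p)
  rw [hc W z p h hp] at e1
  have e2 := om_right hS h h0 h.eu hp hp (MvPolynomial.aeval z q) 0
  rw [zero_smul, add_zero, zero_mul, add_zero] at e2
  rw [← e2, e1]
  simp only [Cn.bt, map_sum, map_mul, map_natCast, MvPolynomial.aeval_X, Finset.sum_mul,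
    dotProduct, mulVec, Matrix.map_apply, Finset.mul_sum, Cn.eu]
  rw [Finset.sum_comm]
  exact Finset.sum_congr rfl fun _ _ => Finset.sum_congr rfl fun _ _ => by ring

theorem cbe_dd {D : Derivation ℂ W W} (h1 : ∀ i, D (z i) = p i) (P : MvPolynomial (Fin S.M) ℂ) :
    D (MvPolynomial.aeval z P) = dd z p P := by
  rw [der_aeval, dd]
  simp only [h1]

theorem dbeta_der (hS : S.Ok t n m) (hc : S.Ch q c) (h : S.On z) (h0 : z ≠ 0)
    {D₁ D₂ : Derivation ℂ W W} (h1 : ∀ i, D₁ (z i) = p i) (h2 : ∀ i, D₂ (z i) = p' i) :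
    dB (S.bt c) z p p' = MvPolynomial.aeval z q * S.om z p p' +
      dd z p q * S.om z (S.eu z) p' - dd z p' q * S.om z (S.eu z) p := by
  obtain rfl : p = fun i => D₁ (z i) := funext fun i => (h1 i).symm
  obtain rfl : p' = fun i => D₂ (z i) := funext fun i => (h2 i).symm
  have a1 := congrArg D₁ (bt_om hS hc h h0 (h.der D₂))
  have a2 := congrArg D₂ (bt_om hS hc h h0 (h.der D₁))
  have a3 := bt_om hS hc h h0 (h.der ⁅D₁, D₂⁆)
  have a4 := der_eu hS h h0 D₁ D₂
  simp only [map_sum, Derivation.leibniz, smul_eq_mul, cbe_dd h1, cbe_dd h2] at a1 a2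
  have a5 : ∑ k, MvPolynomial.aeval z (S.bt c k) * ⁅D₁, D₂⁆ (z k) =
      ∑ k, MvPolynomial.aeval z (S.bt c k) * D₁ (D₂ (z k)) -
        ∑ k, MvPolynomial.aeval z (S.bt c k) * D₂ (D₁ (z k)) := by
    rw [← Finset.sum_sub_distrib]
    exact Finset.sum_congr rfl fun k _ => by rw [Derivation.commutator_apply, mul_sub]
  rw [Finset.sum_add_distrib] at a1 a2
  have a6 : dB (S.bt c) z (fun i => D₁ (z i)) (fun i => D₂ (z i)) =
      ∑ k, D₂ (z k) * dd z (fun i => D₁ (z i)) (S.bt c k) -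
        ∑ k, D₁ (z k) * dd z (fun i => D₂ (z i)) (S.bt c k) := by
    rw [dB, ← Finset.sum_sub_distrib]
    exact Finset.sum_congr rfl fun k _ => by ring
  rw [a6]
  linear_combination (-1 : W) * a1 + a2 + a3 + a5 + MvPolynomial.aeval z q * a4

theorem cbe_map {σ R R' : Type} [Fintype σ] [CommRing R] [Algebra ℂ R] [CommRing R'] [Algebra ℂ R']
    (f : R →ₐ[ℂ] R') (z p : σ → R) (P : MvPolynomial σ ℂ) :
    f (dd z p P) = dd (fun i => f (z i)) (fun i => f (p i)) P := by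
  simp only [dd, map_sum, map_mul, MvPolynomial.comp_aeval_apply]

theorem cbe_pol (q : MvPolynomial (Fin S.M) ℂ)
    (c : Matrix (Fin S.M) (Fin S.M) (MvPolynomial (Fin S.M) ℂ)) (i j : Fin S.M) :
    ∃ Q : MvPolynomial (Fin S.M) ℂ, ∀ (V : Type) [Field V] [Algebra ℂ V] (x : Fin S.M → V),
      MvPolynomial.aeval x Q = dB (S.bt c) x (fun l => S.pm x l i) (fun l => S.pm x l j) -
        (MvPolynomial.aeval x q * S.pm x j i + dd x (fun l => S.pm x l i) q * S.eu x j -
          dd x (fun l => S.pm x l j) q * S.eu x i) := by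
  refine ⟨dB (S.bt c) MvPolynomial.X (fun l => S.p l i) (fun l => S.p l j) -
    (q * S.p j i + dd MvPolynomial.X (fun l => S.p l i) q * S.eu MvPolynomial.X j -
      dd MvPolynomial.X (fun l => S.p l j) q * S.eu MvPolynomial.X i), fun V _ _ x => ?_⟩
  simp only [dB, map_sub, map_add, map_mul, map_sum, cbe_map, MvPolynomial.aeval_X, Cn.pm,
    Matrix.of_apply, Cn.eu, map_natCast]

theorem cbe_col (z : Fin S.M → W) (i : Fin S.M) :
    S.pm z *ᵥ Pi.single i 1 = fun l => S.pm z l i := by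
  funext l
  simp [mulVec, dotProduct, Pi.single_apply]

theorem dbeta_col (hS : S.Ok t n m) (hc : S.Ch q c) (h : S.On z) (i j : Fin S.M) :
    dB (S.bt c) z (fun l => S.pm z l i) (fun l => S.pm z l j) =
      MvPolynomial.aeval z q * S.pm z j i + dd z (fun l => S.pm z l i) q * S.eu z j -
        dd z (fun l => S.pm z l j) q * S.eu z i := by
  obtain ⟨V, _, _, _, -, hV⟩ := exists_big ℂ
  obtain ⟨x, hx⟩ := exists_gen (Y := ∅) hS hV finite_empty
  obtain ⟨Q, hQ⟩ := cbe_pol q c i j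
  have hr : 2 * n + 2 ≤ rk (range x) := by
    have e := hx.2.2
    rw [empty_union] at e
    omega
  have ht : ∀ k, S.Tan x fun l => S.pm x l k := fun k => cbe_col x k ▸ tan_pm hS hx.2.1 _
  have ho : ∀ v, S.Tan x v → ∀ k, S.om x v (fun l => S.pm x l k) = v k := fun v hv k => by
    rw [← cbe_col, om_pm hS hx.2.1 hx.ne hv, dotProduct_single, mul_one]
  have e := dbeta_der hS hc hx.2.1 hx.ne (dv_spec hS hx (ht i)).2 (dv_spec hS hx (ht j)).2
  rw [ho _ (ht i), ho _ hx.2.1.eu, ho _ hx.2.1.eu] at e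
  have e2 := gen_sp0 hS hx.2.1 hr h Q (by rw [hQ, e, sub_self])
  rw [hQ] at e2
  exact sub_eq_zero.1 e2

theorem cbe_lin (z ξ : Fin S.M → W) (P : MvPolynomial (Fin S.M) ℂ) :
    dd z (S.pm z *ᵥ ξ) P = ∑ i, ξ i * dd z (fun l => S.pm z l i) P := by
  simp only [dd, mulVec, dotProduct, Finset.mul_sum]
  rw [Finset.sum_comm]
  exact Finset.sum_congr rfl fun _ _ => Finset.sum_congr rfl fun _ _ => by ring

theorem cbe_bil (f g : Fin S.M → W) (ξ η : Fin S.M → W) :
    (∑ i, ξ i * f i) * (∑ j, η j * g j) = ∑ i, ∑ j, ξ i * η j * (f i * g j) := by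
  rw [Finset.sum_mul_sum]
  exact Finset.sum_congr rfl fun _ _ => Finset.sum_congr rfl fun _ _ => by ring

theorem dbeta (hS : S.Ok t n m) (hc : S.Ch q c) (h : S.On z) (h0 : z ≠ 0) (hp : S.Tan z p)
    (hp' : S.Tan z p') : dB (S.bt c) z p p' = MvPolynomial.aeval z q * S.om z p p' +
      dd z p q * S.om z (S.eu z) p' - dd z p' q * S.om z (S.eu z) p := by
  obtain ⟨ξ, rfl⟩ := (tan_iff hS h h0).1 hp
  obtain ⟨η, rfl⟩ := (tan_iff hS h h0).1 hp'
  rw [om_pm hS h h0 hp, om_pm hS h h0 h.eu, om_pm hS h h0 h.eu]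
  have hd : ∀ u ζ : Fin S.M → W, u ⬝ᵥ ζ = ∑ i, ζ i * u i := fun u ζ =>
    Finset.sum_congr rfl fun _ _ => mul_comm _ _
  have hv : ∀ (ζ : Fin S.M → W) k, (S.pm z *ᵥ ζ) k = ∑ i, ζ i * S.pm z k i := fun ζ k =>
    hd (S.pm z k) ζ
  have l1 : dB (S.bt c) z (S.pm z *ᵥ ξ) (S.pm z *ᵥ η) =
      ∑ i, ∑ j, ξ i * η j * dB (S.bt c) z (fun l => S.pm z l i) fun l => S.pm z l j := by
    have e : ∀ k, dd z (S.pm z *ᵥ ξ) (S.bt c k) * (S.pm z *ᵥ η) k -
        dd z (S.pm z *ᵥ η) (S.bt c k) * (S.pm z *ᵥ ξ) k = ∑ i, ∑ j, ξ i * η j *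
          (dd z (fun l => S.pm z l i) (S.bt c k) * S.pm z k j -
            dd z (fun l => S.pm z l j) (S.bt c k) * S.pm z k i) := fun k => by
      rw [cbe_lin, cbe_lin, hv, hv, cbe_bil, mul_comm, cbe_bil, ← Finset.sum_sub_distrib]
      refine Finset.sum_congr rfl fun i _ => ?_
      rw [← Finset.sum_sub_distrib]
      exact Finset.sum_congr rfl fun j _ => by ring
    simp only [dB, e, Finset.mul_sum]
    rw [Finset.sum_comm]
    exact Finset.sum_congr rfl fun i _ => Finset.sum_comm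
  have l2 : (S.pm z *ᵥ ξ) ⬝ᵥ η = ∑ i, ∑ j, ξ i * η j * S.pm z j i := by
    rw [hd, Finset.sum_comm]
    refine Finset.sum_congr rfl fun j _ => ?_
    rw [hv, Finset.mul_sum]
    exact Finset.sum_congr rfl fun i _ => by ring
  rw [l1, l2, cbe_lin, cbe_lin, hd, hd, cbe_bil, mul_comm (∑ j, η j * _), cbe_bil, Finset.mul_sum,
    ← Finset.sum_add_distrib, ← Finset.sum_sub_distrib]
  refine Finset.sum_congr rfl fun i _ => ?_
  rw [Finset.mul_sum, ← Finset.sum_add_distrib, ← Finset.sum_sub_distrib]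
  refine Finset.sum_congr rfl fun j _ => ?_
  rw [dbeta_col hS hc h]
  ring

end Vale.Agent.P292
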