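import Vale.Agent.P292.C.Un
import Vale.Agent.P276.B.Pl
import Vale.Agent.P276.C.RedQ

/-! P292 C/Int (TASK). Integrality and uniqueness of lifts.
`int_coeff`: induction on the degree with a shift and `divX`, or Lagrange interpolation at the natural numbers. `int_curve`: `hS.int` at `ev G j`. `red_onP`: evaluate at natural numbers (`red_on`, a polynomial with infinitely many roots is zero), or lift `s` by `exists_lift`. `root_lift`: `X ^ d - 1` splits over `ℂ`. `uniq_curve`: for each `s` with `ev G s ≠ 0`, `hS.uniq` gives a root of unity; one of them occurs infinitely often (or use `hS.uniq` over `RatFunc W`, `root_lift`, injectivity). Helper names start with `cin_`. -/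

open Polynomial Set Matrix

set_option linter.unusedSectionVars false

noncomputable section

namespace Vale.Agent.P292

open Vale.Agent.P271 Vale.Agent.P276

variable {K : Type} [Field K] [Algebra ℂ K] {N n m : ℕ} {t : Fin (N + 1) → K} {S : Cn K N}
  {W W' κ : Type} [Field W] [Algebra ℂ W] [Field W'] [Algebra ℂ W'] [Field κ] [Algebra ℂ κ]
  {δ : ℕ} {a b : ℤ} {G R R₁ R₂ v v' : Fin S.M → W[X]} {O : ValuationSubring W} {A B Y : Set W}

theorem int_coeff (hO : Ov ∅ O) {p : W[X]} (h : ∀ j : ℕ, p.eval (j : W) ∈ O) (k : ℕ) :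
    p.coeff k ∈ O := by
  let U : Submodule ℂ W :=
    { carrier := O
      add_mem' := fun h1 h2 => O.add_mem _ _ h1 h2
      zero_mem' := O.zero_mem
      smul_mem' := fun c x hx => by
        rw [Algebra.smul_def]
        exact O.mul_mem _ _ (hO.alg c) hx }
  by_contra hk
  obtain ⟨l, hl, hU⟩ := Submodule.exists_le_ker_of_notMem (p := U) hk
  have h1 : (∑ i ∈ Finset.range (p.natDegree + 1), monomial i (l (p.coeff i)) : ℂ[X]) = 0 := by
    refine eq_zero_of_infinite_isRoot _ (Set.infinite_of_injective_forall_mem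
      (f := fun j : ℕ => (j : ℂ)) Nat.cast_injective fun j => ?_)
    have h2 : l (p.eval (j : W)) = 0 := hU (h j)
    rw [eval_eq_sum_range, map_sum] at h2
    rw [mem_ofPred_eq, IsRoot.def, eval_finsetSum, ← h2]
    refine Finset.sum_congr rfl fun i _ => ?_
    have h3 : p.coeff i * (j : W) ^ i = ((j : ℂ) ^ i) • p.coeff i := by
      rw [Algebra.smul_def, map_pow, map_natCast, mul_comm]
    rw [eval_monomial, h3, map_smul, smul_eq_mul, mul_comm]
  have h4 := congrArg (fun q : ℂ[X] => q.coeff k) h1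
  simp only [finsetSum_coeff, coeff_monomial, Finset.sum_ite_eq', Finset.mem_range,
    coeff_zero] at h4
  split_ifs at h4 with h5
  · exact hl h4
  · rw [coeff_eq_zero_of_natDegree_lt (by omega), map_zero] at hl
    exact hl rfl

theorem int_curve (hS : S.Ok t n m) (hO : Ov ∅ O) (h : S.On G)
    (h1 : ∀ j k, (G (S.e0 j)).coeff k ∈ O) : ∀ a ∈ cf G, a ∈ O := by
  rintro _ ⟨i, k, rfl⟩
  refine int_coeff hO (fun j => hS.int W O hO (S.ev G j) (h.ev j) (fun l => ?_) i) k
  change (G (S.e0 l)).eval (j : W) ∈ O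
  rw [eval_eq_sum_range]
  exact sum_mem fun k _ => mul_mem (h1 l k) (pow_mem (natCast_mem O j) k)

theorem ov_place (P : Place ℂ W κ) : Ov ∅ P.O := by
  exact ov_empty P.mem

theorem red_onP (P : Place ℂ W κ) (h : S.On G) {R : Fin S.M → κ[X]} (hr : P.RedP G R) :
    S.On R := by
  refine on_of_ev fun s _ => ?_
  obtain ⟨x, hx⟩ := P.exists_lift s
  exact red_on P (h.ev x) (hr.eval hx)

theorem red_scP (P : Place ℂ W κ) {R : Fin S.M → κ[X]} (hr : P.RedP G R) {ρ : W} {ρ' : κ}
    (h : P.Red ρ ρ') : P.RedP (S.scP ρ G) (S.scP ρ' R) := by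
  intro i j
  simp only [Cn.scP, coeff_C_mul]
  exact (h.pow _).mul (hr i j)

theorem pv_red (P : Place ℂ W κ) {α : Type} {x : α → W} {x' : α → κ} (h : P.RedV x x') :
    PV P.O x ↔ x' ≠ 0 := by
  constructor
  · rintro ⟨-, i, hi⟩
    exact Function.ne_iff.2 ⟨i, (h i).ne_zero hi⟩
  · intro h0
    obtain ⟨i, hi⟩ := Function.ne_iff.1 h0
    exact ⟨fun a => (h a).1, i, (h i).val_eq_one hi⟩

theorem root_lift {ζ : W} {d : ℕ} (hd : 0 < d) (h : ζ ^ d = 1) :
    ∃ c : ℂ, c ^ d = 1 ∧ ζ = algebraMap ℂ W c := by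
  have := NeZero.mk hd.ne'
  have h1 := Complex.isPrimitiveRoot_exp d hd.ne'
  obtain ⟨i, -, hi⟩ := (h1.map_of_injective (algebraMap ℂ W).injective).eq_pow_of_pow_eq_one h
  exact ⟨_ ^ i, by rw [← pow_mul, mul_comm, pow_mul, h1.pow_eq_one, one_pow],
    by rw [map_pow, hi]⟩

theorem uniq_curve (hS : S.Ok t n m) {G' : Fin S.M → W[X]} (h : S.On G) (h' : S.On G')
    (h0 : G ≠ 0) (he : G ∘ S.e0 = G' ∘ S.e0) :
    ∃ c : ℂ, c ^ (m * (n + 1)) = 1 ∧ G' = S.scP (algebraMap ℂ W c) G := by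
  let f : W[X] →ₐ[ℂ] RatFunc W := IsScalarTower.toAlgHom ℂ W[X] (RatFunc W)
  have hf : Function.Injective f := IsFractionRing.injective W[X] (RatFunc W)
  obtain ⟨i, hi⟩ := Function.ne_iff.1 h0
  obtain ⟨ζ, h1, h2⟩ := hS.uniq (RatFunc W) _ _ (h.map f) (h'.map f)
    (Function.ne_iff.2 ⟨i, (map_ne_zero_iff f hf).2 hi⟩)
    (funext fun j => congrArg f (congrFun he j))
  obtain ⟨c, hc, rfl⟩ := root_lift (Nat.mul_pos hS.fano.pos n.succ_pos) h1
  refine ⟨c, hc, funext fun j => hf ?_⟩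
  rw [congrFun h2 j, Cn.sc, Cn.scP, map_mul, C_pow, map_pow, ← f.commutes c]
  rfl

end Vale.Agent.P292
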