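import Vale.Agent.P292.C.ObsA
import Vale.Agent.P276.H.ObsB

/-! P292 C/Obs (TASK). The obstruction bound for every curve; `d = m * (n + 1)`.
`exists_rows` at the generic point of `G` over `RatFunc W` gives `I`; `Z l j = pm G (I l) (e0 j)` is `InK` (`hS.tanp`, `Tan.inK`) and independent over `W[X]`. `skew_minor`: `pl Z τ ^ 2 = b * c τ` in `W[X]`, `b = det pm[I,I]`, `c τ = det pm[e0 τ, e0 τ]` of degree at most `(2 n + 2) * (δ * (2 d - 1))` (`deg_wt`, `hS.hom`). So `2 * plM Z ≤ deg b + (2 n + 2) δ (2 d - 1)` and `deg b ≤ 2 * deg (plG Z)` (`gcd_sq`, `plG_dvd`, `dvd_plG`; `plG Z ≠ 0` by `pl_ne` in `H/Lin`). `h_obs_bound`. Helper names start with `cob_`. -/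

open Polynomial Set Matrix

set_option linter.unusedSectionVars false

noncomputable section

namespace Vale.Agent.P292

open Vale.Agent.P271 Vale.Agent.P276

variable {K : Type} [Field K] [Algebra ℂ K] {N n m : ℕ} {t : Fin (N + 1) → K} {S : Cn K N}
  {W W' κ : Type} [Field W] [Algebra ℂ W] [Field W'] [Algebra ℂ W'] [Field κ] [Algebra ℂ κ]
  {δ : ℕ} {a b : ℤ} {G R R₁ R₂ v v' : Fin S.M → W[X]} {O : ValuationSubring W} {A B Y : Set W}

theorem cob_det {k D : ℕ} {M : Matrix (Fin k) (Fin k) W[X]} (h : ∀ i j, (M i j).natDegree ≤ D) :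
    M.det.natDegree ≤ k * D := by
  rw [Matrix.det_apply']
  refine natDegree_sum_le_of_forall_le _ _ fun σ _ => natDegree_mul_le.trans ?_
  rw [natDegree_intCast, zero_add]
  refine (natDegree_prod_le _ _).trans ((Finset.sum_le_sum fun i _ => h (σ i) i).trans ?_)
  simp

theorem cob_map {k : ℕ} (f : W[X] →ₐ[ℂ] W') (M : Matrix (Fin k) (Fin k) W[X]) :
    f M.det = (Matrix.of fun i l => f (M i l)).det := f.map_det M

theorem obs_lc [IsAlgClosed W] (hS : S.Ok t n m) (h : S.LC δ G) :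
    Module.finrank W (Obs t (G ∘ S.e0)) + (n + 1) * δ ≤ (N + 1) * deg0 (G ∘ S.e0) := by
  obtain ⟨f, hf⟩ : ∃ f : W[X] →ₐ[ℂ] RatFunc W, Function.Injective f :=
    ⟨IsScalarTower.toAlgHom ℂ W[X] (RatFunc W), IsFractionRing.injective W[X] (RatFunc W)⟩
  have h0 : (fun i => f (G i)) ≠ 0 := fun e => h.prim 0 (funext fun i => by
    have h1 : G i = 0 := hf ((congrFun e i).trans (map_zero f).symm)
    simp [Cn.ev, h1])
  obtain ⟨I, hI, hli⟩ := exists_rows hS (h.on.map f) h0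
  obtain ⟨hF, hd⟩ := h.curve0 hS
  obtain ⟨Z, hZ⟩ : ∃ Z : Fin (2 * n + 1 + 1) → Fin (N + 1) → W[X],
    Z = fun l j => S.pm G (I l) (S.e0 j) := ⟨_, rfl⟩
  have h1 : ∀ l, InK t (G ∘ S.e0) (Z l) := fun l => hZ ▸ (hS.tanp _ G h.on (I l)).inK hS
  have h2 : LinearIndependent W[X] Z := Fintype.linearIndependent_iff.2 fun c hc l => by
    refine hf ((Fintype.linearIndependent_iff.1 hli (fun l => f (c l)) (funext fun j => ?_) l).trans
      (map_zero f).symm)
    simpa [hZ, pm_map] using congrArg f (congrFun hc j)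
  obtain ⟨v, hv, hsp⟩ := spec_top hF
  obtain ⟨r, ⟨e⟩⟩ := exists_equiv hS.fano.sm hv
  obtain ⟨G', g, τ, hG⟩ := exists_good hS.fano.sm e hv
  have h3 : plG Z ≠ 0 := ne_zero_of_dvd_ne_zero
    (pl_ne (fun i k => (h1 k).grad hG.eq i) (hG.jd_ne hsp.of_top) h2) (plG_dvd τ)
  have h4 : ∀ τ, pl Z τ ^ 2 = (Matrix.of fun i l => S.pm G (I i) (I l)).det *
      (Matrix.of fun i l => S.pm G (S.e0 (τ i)) (S.e0 (τ l))).det := fun τ => hf (by
    rw [map_pow, map_mul, pl, cob_map, cob_map, cob_map, hZ]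
    simp only [Matrix.of_apply, ← pm_map]
    exact skew_minor (pm_alt hS _) (τ := fun i => S.e0 (τ i)) hI)
  have h5 := gcd_sq (p := pl Z) (fun τ => ⟨_, h4 τ⟩)
    (fun q => ⟨fun hq τ => hq.trans (plG_dvd τ), dvd_plG⟩) h3
  obtain ⟨d, hd'⟩ : ∃ d, m * (n + 1) = d + 1 :=
    ⟨_, (Nat.succ_pred_eq_of_pos (Nat.mul_pos hS.fano.pos n.succ_pos)).symm⟩
  have h6 : plM Z ≤ (plG Z).natDegree + (n + 1) * (δ * (2 * d + 1)) := Finset.sup_le fun τ _ => by
    have h7 := cob_det (M := Matrix.of fun i l => S.pm G (S.e0 (τ i)) (S.e0 (τ l)))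
      (D := δ * (2 * d + 1)) fun i j => by
        have h8 := deg_wt (hS.hom (S.e0 (τ i)) (S.e0 (τ j))) h.deg
        rwa [hS.we0, hS.we0, hd', show d + 1 + (d + 1) - 1 = 2 * d + 1 by omega] at h8
    have h8 := natDegree_mul_le (p := (Matrix.of fun i l => S.pm G (I i) (I l)).det)
      (q := (Matrix.of fun i l => S.pm G (S.e0 (τ i)) (S.e0 (τ l))).det)
    rw [← h4, natDegree_pow] at h8
    linarith
  have h7 := h_obs_bound hS.fano.ff hS.fano.sm hF h1 h2
  rw [hd, hd'] at h7 ⊢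
  linarith

end Vale.Agent.P292
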