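import Vale.Agent.P292.C.DefB
import Vale.Agent.P292.C.Obs
import Vale.Agent.P292.C.Int
import Vale.Agent.P292.C.Basic

/-! P292 C/Def (TASK). Deformations of lifted curves; `d = m * (n + 1)`.
`curve0_red`: a common root `a` of the `A i`: if `a` is integral reduce it; otherwise use the reflected polynomials at `a⁻¹` (`ev_reflect`) and `top0_ne`; or use `Curve0.of_red`-like lemmas of P276 (`grep of_red`, `prim_far`). `lift_red`: `lift_pol` gives `G₁` over `A`, integral by `int_curve`; `exists_redP`, `red_onP`; `uniq_curve` compares the reduction with `R` (`Red.unique`); `G' = scP c G₁` (`red_scP`, `on_scP`, `hS.we0`); `lc_of`. `deform`: `deform0` for `G ∘ e0`, `lift_red` for `P.res ℂ` (`RedP` is the same for `P` and `P.res ℂ`), `LC.map` (with `IsScalarTower.toAlgHom ℂ W κ`), `LC.curve0`, `obf_le`, `obs_lc`, `Indep.mono` and monotonicity in the number. Helper names start with `cdf_`. -/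

open Polynomial Set Matrix

set_option linter.unusedSectionVars false

noncomputable section

namespace Vale.Agent.P292

open Vale.Agent.P271 Vale.Agent.P276

variable {K : Type} [Field K] [Algebra ℂ K] {N n m : ℕ} {t : Fin (N + 1) → K} {S : Cn K N}
  {W W' κ : Type} [Field W] [Algebra ℂ W] [Field W'] [Algebra ℂ W'] [Field κ] [Algebra ℂ κ]
  {δ : ℕ} {a b : ℤ} {G R R₁ R₂ v v' : Fin S.M → W[X]} {O : ValuationSubring W} {A B Y : Set W}

theorem curve0_red [IsAlgClosed W] [IsAlgClosed κ] (P : Place ℂ W κ) {A : Fin (N + 1) → W[X]}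
    {F : Fin (N + 1) → κ[X]} (hA : On0 t A) (hF : Curve0 t F)
    (hd : ∀ i, (A i).natDegree ≤ deg0 F) (hr : P.RedP A F) : Curve0 t A ∧ deg0 A = deg0 F := by
  obtain ⟨j, hj⟩ := hF.2 0
  obtain ⟨i, hi⟩ := exists_top (F := F) ⟨j, fun h => hj (by rw [h, eval_zero])⟩
  refine ⟨⟨hA, fun a => ?_⟩, le_antisymm (deg0_le hd)
    ((le_natDegree_of_ne_zero ((hr i _).left_ne hi)).trans (le_deg0 A i))⟩
  by_cases ha : a ∈ P.O
  · have hb : P.Red a (P.r ⟨a, ha⟩) := ⟨ha, rfl⟩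
    obtain ⟨l, hl⟩ := hF.2 (P.r ⟨a, ha⟩)
    exact ⟨l, (hr.eval hb l).left_ne hl⟩
  · exact ⟨i, Place.RedQ.eval_ne (P := P) (hr i) (hd i) hi ha⟩

theorem lift_int_red [IsAlgClosed W] (hS : S.Ok t n m) (P : Place ℂ W κ) (h : S.On G)
    {R : Fin S.M → κ[X]} (hR : S.On R) (h0 : R ≠ 0) (hr : P.RedP (G ∘ S.e0) (R ∘ S.e0)) :
    ∃ c : ℂ, c ^ (m * (n + 1)) = 1 ∧ P.RedP (S.scP (algebraMap ℂ W c) G) R := by
  have hd : m * (n + 1) ≠ 0 := mul_ne_zero hS.fano.pos.ne' n.succ_ne_zero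
  obtain ⟨R', hR'⟩ := P.exists_redP (int_curve hS (ov_place P) h fun j k => (hr j k).1)
  have he : R ∘ S.e0 = R' ∘ S.e0 :=
    funext fun j => Polynomial.ext fun k => (hr j k).unique (hR' (S.e0 j) k)
  obtain ⟨c, hc, e⟩ := uniq_curve hS hR (red_onP P h hR') h0 he
  have hc0 : c ≠ 0 := fun h1 => by
    rw [h1, zero_pow hd] at hc
    exact zero_ne_one hc
  refine ⟨c⁻¹, by rw [inv_pow, hc, inv_one], ?_⟩
  have h2 := red_scP P hR' (P.red_algebraMap c⁻¹)
  have h3 : S.scP (algebraMap ℂ κ c⁻¹) R' = R := by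
    funext i
    rw [e]
    simp only [Cn.scP]
    rw [← mul_assoc, ← C_mul, ← mul_pow, ← map_mul, inv_mul_cancel₀ hc0, map_one, one_pow, C_1,
      one_mul]
  rwa [h3] at h2

theorem lift_red [IsAlgClosed W] [IsAlgClosed κ] (hS : S.Ok t n m) (P : Place ℂ W κ)
    {A : Fin (N + 1) → W[X]} {R : Fin S.M → κ[X]} (hA : On0 t A) (hR : S.LC δ R)
    (hd : ∀ i, (A i).natDegree ≤ deg0 (R ∘ S.e0)) (hr : P.RedP A (R ∘ S.e0)) :
    ∃ G' : Fin S.M → W[X], S.LC δ G' ∧ G' ∘ S.e0 = A ∧ P.RedP G' R := by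
  obtain ⟨h1, h2⟩ := hR.curve0 hS
  obtain ⟨h3, h4⟩ := curve0_red P hA h1 hd hr
  obtain ⟨G₁, h5, h6⟩ := lift_pol hS h3
  have h0 : R ≠ 0 := fun e => hR.top (by
    funext i
    rw [e]
    exact coeff_zero _)
  obtain ⟨c, hc, h7⟩ := lift_int_red hS P h5 hR.on h0 (by rw [h6]; exact hr)
  have h8 : S.scP (algebraMap ℂ W c) G₁ ∘ S.e0 = A := by
    funext j
    rw [← h6]
    simp only [Function.comp_apply, Cn.scP]
    rw [hS.we0, ← map_pow, hc, map_one, C_1, one_mul]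
  exact ⟨_, lc_of hS (on_scP h5 _) (by rw [h8]; exact h3) (by rw [h8, h4, h2]), h8, h7⟩

/-- C10: deformations with free base point. -/
theorem deform [IsAlgClosed W] (hS : S.Ok t n m) (h : S.LC δ G) :
    ∃ (V κ : Type) (_ : Field V) (_ : Algebra W V) (_ : Algebra ℂ V) (_ : IsScalarTower ℂ W V)
      (_ : IsAlgClosed V) (_ : Field κ) (_ : Algebra W κ) (_ : Algebra ℂ κ)
      (_ : IsScalarTower ℂ W κ) (_ : IsAlgClosed κ) (P : Place W V κ) (G' : Fin S.M → V[X]),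
      S.LC δ G' ∧ P.RedP G' (fun i => (G i).map (algebraMap W κ)) ∧
        Indep W (cf G') ((δ + 2) * (n + 1)) := by
  obtain ⟨h1, h2⟩ := h.curve0 hS
  obtain ⟨V, κ, i1, i2, i3, i4, i5, i6, i7, i8, i9, i10, P, A, hA, hd, hr, hI⟩ := deform0 h1.1
  have hR : S.LC δ fun i => (G i).map (algebraMap W κ) := h.map (IsScalarTower.toAlgHom ℂ W κ)
  obtain ⟨G', h3, h4, h5⟩ := lift_red hS (P.res ℂ) hA hR
    (fun i => (hd i).trans (h2.trans (hR.curve0 hS).2.symm).le) hr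
  refine ⟨V, κ, i1, i2, i3, i4, i5, i6, i7, i8, i9, i10, P, G', h3, h5,
    (hI.mono ?_).of_le ?_⟩
  · rintro _ ⟨j, k, rfl⟩
    exact ⟨S.e0 j, k, by rw [← h4]; rfl⟩
  · have h6 := obf_le hS.fano.ff hS.fano.sm h1
    have h7 := obs_lc hS h
    refine Nat.le_sub_of_add_le ?_
    have e1 : (δ + 2) * (n + 1) = (n + 1) * δ + (2 * n + 2) := by ring
    have e2 : (N + 1) * (deg0 (G ∘ S.e0) + 1) = (N + 1) * deg0 (G ∘ S.e0) + (N + 1) := by ring
    omega

end Vale.Agent.P292
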