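import Vale.Agent.P292.B.Main

/-! P292 block C: definitions (no task). -/

open Polynomial Set Matrix

noncomputable section

namespace Vale.Agent.P292

open Vale.Agent.P271 Vale.Agent.P276

variable {K : Type} [Field K] [Algebra ℂ K] {N : ℕ} (S : Cn K N) {W : Type} [Field W]

/-- A vector along a curve of degree `δ` that vanishes to order `a` at infinity. -/
def Cn.Dg (δ : ℕ) (a : ℤ) (v : Fin S.M → W[X]) : Prop :=
  ∀ i (k : ℕ), (δ * S.w i : ℤ) < k + a → (v i).coeff k = 0

/-- Its leading vector at infinity. -/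
def Cn.ld (δ : ℕ) (a : ℤ) (v : Fin S.M → W[X]) : Fin S.M → W :=
  fun i => (v i).coeff ((δ * S.w i : ℤ) - a).toNat

/-- The vector in the parameter at infinity. -/
def Cn.rf (δ : ℕ) (a : ℤ) (v : Fin S.M → W[X]) : Fin S.M → W[X] :=
  fun i => reflect ((δ * S.w i : ℤ) - a).toNat (v i)

/-- The velocity vector. -/
def Cn.dP (G : Fin S.M → W[X]) : Fin S.M → W[X] := fun i => derivative (G i)

/-- A line or a point: a polynomial point of degree at most one with nonzero ends. -/
structure Cn.QL [Algebra ℂ W] (R : Fin S.M → W[X]) : Prop where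
  on : S.On R
  deg : ∀ i, (R i).natDegree ≤ 1 * S.w i
  cv0 : cv R 0 ≠ 0
  top0 : S.top 1 R ≠ 0

/-- The values on `y` of the derivations that kill `A`. -/
def lam [Algebra ℂ W] {τ : Type} (A : Set W) (y : τ → W) : Submodule W (τ → W) where
  carrier := {v | ∃ D : Derivation ℂ W W, (∀ a ∈ A, D a = 0) ∧ v = fun i => D (y i)}
  add_mem' := by
    rintro _ _ ⟨D, h, rfl⟩ ⟨D', h', rfl⟩
    exact ⟨D + D', fun a ha => by rw [Derivation.add_apply, h a ha, h' a ha, add_zero], rfl⟩
  zero_mem' := ⟨0, fun _ _ => rfl, rfl⟩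
  smul_mem' := by
    rintro c _ ⟨D, h, rfl⟩
    exact ⟨c • D, fun a ha => by rw [Derivation.smul_apply, h a ha, smul_zero], rfl⟩

/-- Sections of the pulled back normal sheaf. -/
def Obf (t : Fin (N + 1) → K) [Algebra ℂ W] (F : Fin (N + 1) → W[X]) :
    Submodule W (idl t → W[X]) where
  carrier := {φ | (∀ P Q, φ (P + Q) = φ P + φ Q) ∧
    (∀ (Q : MvPolynomial (Fin (N + 1)) ℂ) (P : idl t), φ (Q • P) = MvPolynomial.aeval F Q * φ P) ∧
    ∀ (P : idl t) (e : ℕ), (P : MvPolynomial (Fin (N + 1)) ℂ).IsHomogeneous e →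
      (φ P).natDegree ≤ e * deg0 F}
  add_mem' := by
    rintro a b ⟨h1, h2, h3⟩ ⟨h1', h2', h3'⟩
    refine ⟨fun P Q => ?_, fun Q P => ?_,
      fun P e he => (natDegree_add_le _ _).trans (max_le (h3 P e he) (h3' P e he))⟩
    · simp only [Pi.add_apply, h1, h1']
      ring
    · simp only [Pi.add_apply, h2, h2', mul_add]
  zero_mem' := ⟨fun P Q => by simp, fun Q P => by simp, fun P e _ => by simp⟩
  smul_mem' := by
    rintro c a ⟨h1, h2, h3⟩
    refine ⟨fun P Q => ?_, fun Q P => ?_, fun P e he => (natDegree_smul_le _ _).trans (h3 P e he)⟩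
    · simp only [Pi.smul_apply, h1, smul_add]
    · simp only [Pi.smul_apply, h2, mul_smul_comm]

end Vale.Agent.P292
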