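import Vale.Agent.P292.C.Defs
import Vale.Agent.P292.C.Rev

/-! P292 C/Dg (TASK). Vector fields along a curve with prescribed vanishing at infinity.
`ev_rf`: `ev_reflect`; if `δ w < a` then `v i = 0`. `Tan.rf`: `tan_of_ev`, `ev_rf`, `ev_rev`, `Tan.sc`, `TanS` is a submodule; `tan_ld` is `Tan.ev` of `Tan.rf` at `0` (`ev_zero`). The rest: coefficients (`cD_coeff`, `coeff_derivative`, `coeff_reflect`, `hS.wpos`). Helper names start with `cdg_`. -/

open Polynomial Set Matrix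

set_option linter.unusedSectionVars false

noncomputable section

namespace Vale.Agent.P292

open Vale.Agent.P271 Vale.Agent.P276

variable {K : Type} [Field K] [Algebra ℂ K] {N n m : ℕ} {t : Fin (N + 1) → K} {S : Cn K N}
  {W W' κ : Type} [Field W] [Algebra ℂ W] [Field W'] [Algebra ℂ W'] [Field κ] [Algebra ℂ κ]
  {δ : ℕ} {a b : ℤ} {G R R₁ R₂ v v' : Fin S.M → W[X]} {O : ValuationSubring W} {A B Y : Set W}

theorem cdg_zero (x y : ℕ) : ((x * y : ℤ) - 0).toNat = x * y := by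
  rw [sub_zero, ← Nat.cast_mul, Int.toNat_natCast]

theorem cdg_one (x y : ℕ) : ((x * y : ℤ) - 1).toNat = x * y - 1 := by
  rw [← Nat.cast_mul]
  omega

theorem cdg_lt {x y k : ℕ} {c : ℕ} : (x * y : ℤ) < k + (c : ℤ) ↔ x * y < k + c := by
  rw [← Nat.cast_mul, ← Nat.cast_add, Nat.cast_lt]

theorem dg_zero : S.Dg δ 0 G ↔ ∀ i, (G i).natDegree ≤ δ * S.w i := by
  refine forall_congr' fun i => ?_
  rw [natDegree_le_iff_coeff_eq_zero]
  exact forall_congr' fun k => imp_congr_left (cdg_lt (c := 0))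

theorem ld_zero (G : Fin S.M → W[X]) : S.ld δ 0 G = S.top δ G := by
  funext i
  rw [Cn.ld, cdg_zero, Cn.top]

theorem cv_rf (v : Fin S.M → W[X]) : cv (S.rf δ a v) 0 = S.ld δ a v := by
  funext i
  rw [cv, Cn.rf, coeff_reflect, revAt_zero, Cn.ld]

theorem ev_rf (h : S.Dg δ a v) {s : W} (hs : s ≠ 0) :
    S.ev (S.rf δ a v) s = (s ^ a)⁻¹ • S.sc (s ^ δ) (S.ev v s⁻¹) := by
  funext i
  simp only [Cn.ev, Cn.rf, Cn.sc, Pi.smul_apply, smul_eq_mul]
  rcases lt_or_ge ((δ * S.w i : ℤ) - a) 0 with h1 | h1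
  · have h2 : v i = 0 := Polynomial.ext fun k => h i k (by omega)
    rw [h2, reflect_zero, eval_zero, eval_zero, mul_zero, mul_zero]
  · rw [ev_reflect (natDegree_le_iff_coeff_eq_zero.2 fun k hk => h i k (by omega)) hs,
      ← zpow_natCast, Int.toNat_of_nonneg h1, zpow_sub₀ hs, ← Nat.cast_mul, zpow_natCast, pow_mul,
      ← mul_assoc, div_eq_inv_mul]

theorem cv_rev (G : Fin S.M → W[X]) : cv (S.rev δ G) 0 = S.top δ G := by
  funext i
  rw [cv, Cn.rev, coeff_reflect, revAt_zero, Cn.top]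

theorem top_rev (G : Fin S.M → W[X]) : S.top δ (S.rev δ G) = cv G 0 := by
  funext i
  rw [Cn.top, Cn.rev, coeff_reflect, revAt_le le_rfl, Nat.sub_self, cv]

theorem rev_rev (G : Fin S.M → W[X]) : S.rev δ (S.rev δ G) = G := by
  funext i
  exact reflect_reflect

theorem deg_rev (hd : ∀ i, (G i).natDegree ≤ δ * S.w i) (i : Fin S.M) :
    (S.rev δ G i).natDegree ≤ δ * S.w i := by
  exact natDegree_reflect_le.trans (max_le le_rfl (hd i))

theorem Cn.Tan.rf (h : S.Tan G v) (hd : ∀ i, (G i).natDegree ≤ δ * S.w i) (hv : S.Dg δ a v) :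
    S.Tan (S.rev δ G) (S.rf δ a v) := by
  refine tan_of_ev fun s hs => ?_
  rw [ev_rf hv hs, ev_rev hd hs]
  exact (S.TanS _).smul_mem _ ((h.ev s⁻¹).sc _)

theorem tan_ld (h : S.Tan G v) (hd : ∀ i, (G i).natDegree ≤ δ * S.w i) (hv : S.Dg δ a v) :
    S.Tan (S.top δ G) (S.ld δ a v) := by
  have h1 := (h.rf hd hv).ev 0
  rwa [(ev_zero _).1, (ev_zero _).1, cv_rev, cv_rf] at h1

theorem dg_dP (hd : ∀ i, (G i).natDegree ≤ δ * S.w i) : S.Dg δ 1 (S.dP G) := by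
  intro i k hk
  rw [Cn.dP, coeff_derivative,
    coeff_eq_zero_of_natDegree_lt ((hd i).trans_lt ((cdg_lt (c := 1)).1 hk)), zero_mul]

theorem dg_cD (hd : ∀ i, (G i).natDegree ≤ δ * S.w i) (D : Derivation ℂ W W) :
    S.Dg δ 0 (S.cD D G) := by
  exact dg_zero.2 fun i => (cD_deg D G i).trans (hd i)

theorem ld_cD (D : Derivation ℂ W W) (G : Fin S.M → W[X]) :
    S.ld δ 0 (S.cD D G) = fun i => D (S.top δ G i) := by
  funext i
  rw [Cn.ld, cdg_zero, cD_coeff, Cn.top]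

theorem dg_cD_one (hd : ∀ i, (G i).natDegree ≤ δ * S.w i) {D : Derivation ℂ W W}
    (hD : ∀ i, D (S.top δ G i) = 0) : S.Dg δ 1 (S.cD D G) := by
  intro i k hk
  rw [cD_coeff]
  rcases (Nat.le_of_lt_succ ((cdg_lt (c := 1)).1 hk)).eq_or_lt with e | e
  · rw [← e]
    exact hD i
  · rw [coeff_eq_zero_of_natDegree_lt ((hd i).trans_lt e), map_zero]

theorem ld_cD_one (hS : S.Ok t n m) (hδ : 0 < δ) (D : Derivation ℂ W W) (G : Fin S.M → W[X]) :
    S.ld δ 1 (S.cD D G) = fun i => D (cv (S.rev δ G) 1 i) := by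
  funext i
  rw [Cn.ld, cdg_one, cD_coeff, cv, Cn.rev, coeff_reflect, revAt_le (Nat.mul_pos hδ (hS.wpos i))]

theorem dg_eu (hd : ∀ i, (G i).natDegree ≤ δ * S.w i) : S.Dg δ 0 (S.eu G) := by
  refine dg_zero.2 fun i => le_trans ?_ (hd i)
  rw [Cn.eu, ← C_eq_natCast]
  exact natDegree_C_mul_le _ _

theorem ld_eu (G : Fin S.M → W[X]) : S.ld δ 0 (S.eu G) = S.eu (S.top δ G) := by
  funext i
  rw [Cn.ld, cdg_zero, Cn.eu, Cn.eu, Cn.top, coeff_natCast_mul]

theorem ld_dP (hS : S.Ok t n m) (hδ : 0 < δ) (G : Fin S.M → W[X]) :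
    S.ld δ 1 (S.dP G) = (δ : W) • S.eu (S.top δ G) := by
  funext i
  have h1 : δ * S.w i - 1 + 1 = δ * S.w i := Nat.sub_add_cancel (Nat.mul_pos hδ (hS.wpos i))
  rw [Cn.ld, cdg_one, Cn.dP, coeff_derivative, ← Nat.cast_succ, Nat.succ_eq_add_one, h1,
    Pi.smul_apply, Cn.eu, Cn.top, smul_eq_mul, Nat.cast_mul]
  ring

theorem ev_eu (G : Fin S.M → W[X]) (s : W) : S.ev (S.eu G) s = S.eu (S.ev G s) := by
  funext i
  simp [Cn.ev, Cn.eu]

theorem ev_cD_zero (D : Derivation ℂ W W) (G : Fin S.M → W[X]) :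
    S.ev (S.cD D G) 0 = fun i => D (cv G 0 i) := by
  rw [(ev_zero _).1]
  funext i
  exact cD_coeff D G i 0

end Vale.Agent.P292
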