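import Vale.Agent.P292.C.Un
import Vale.Agent.P292.C.Basic

/-! P292 C/PolB (TASK). The form along a curve: leading coefficient.
`om_pol`: `om_pol0` for `G` and for `rev δ G` (`Tan.rf`, `ev_rf`, `ev_rev`, `om_sc`, `om_left`, `om_right`): `B'(s) = s ^ (δ - a - b) * B(s⁻¹)` for `s ≠ 0`; `pol_inf` compares coefficients (`deg_of_rev`, `ev_reflect`, `eq_of_ne`).
`al_line`: `av_poly`. `iso_line`: `q` from `om_pol` for `(eu G, cD D G)` has degree at most `1`, `q_0 = 0`, and `q_1 = 0` by `cartan` at `k = 0` with `α = 0` (`γ(0) = om z 0 v = 0`); the top coefficient of `q` is the claim (`ld_eu`, `ld_cD`). Helper names start with `cpb_`. -/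

open Polynomial Set Matrix

set_option linter.unusedSectionVars false

noncomputable section

namespace Vale.Agent.P292

open Vale.Agent.P271 Vale.Agent.P276

variable {K : Type} [Field K] [Algebra ℂ K] {N n m : ℕ} {t : Fin (N + 1) → K} {S : Cn K N}
  {W W' κ : Type} [Field W] [Algebra ℂ W] [Field W'] [Algebra ℂ W'] [Field κ] [Algebra ℂ κ]
  {δ : ℕ} {a b : ℤ} {G R R₁ R₂ v v' : Fin S.M → W[X]} {O : ValuationSubring W} {A B Y : Set W}

theorem pol_inf {B B' : W[X]} {e : ℤ} (h : ∀ s : W, s ≠ 0 → B'.eval s = s ^ e * B.eval s⁻¹) :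
    (∀ k : ℕ, e < k → B.coeff k = 0) ∧ (0 ≤ e → B.coeff e.toNat = B'.eval 0) := by
  have h1 : ∀ k : ℕ, e < k → B.coeff k = 0 := fun k hk => deg_of_rev h hk
  refine ⟨h1, fun he => ?_⟩
  have hd : B.natDegree ≤ e.toNat := natDegree_le_iff_coeff_eq_zero.2 fun k hk => h1 k (by omega)
  have e1 : B' = reflect e.toNat B := eq_of_ne fun s hs => by
    rw [h s hs, ev_reflect hd hs, ← zpow_natCast, Int.toNat_of_nonneg he]
  rw [e1, ← coeff_zero_eq_eval_zero, coeff_reflect, revAt_zero]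

variable [IsAlgClosed W]

theorem cpb_key (hS : S.Ok t n m) (h : S.LC δ G) (hv : S.Tan G v) (hv' : S.Tan G v') :
    ∃ q : W[X], ∀ s, q.eval s = S.om (S.ev G s) (S.ev v s) (S.ev v' s) := by
  obtain ⟨q, hq⟩ := om_pol0 hS h.on h.prim hv hv'
  refine ⟨q, fun s => ?_⟩
  have := hq W (comp_ev s) (by simp only [comp_ev_apply]; exact h.prim s)
  simp only [comp_ev_apply] at this
  exact this

theorem cpb_left (z u u' : Fin S.M → W) (r : W) : S.om z (r • u) u' = r * S.om z u u' := by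
  have h1 := om_left z u u u' r 0
  rwa [zero_smul, add_zero, zero_mul, add_zero] at h1

theorem om_pol (hS : S.Ok t n m) (h : S.LC δ G) (hv : S.Tan G v) (hv' : S.Tan G v')
    (hd : S.Dg δ a v) (hd' : S.Dg δ b v') :
    ∃ B : W[X], (∀ s, B.eval s = S.om (S.ev G s) (S.ev v s) (S.ev v' s)) ∧
      (∀ k : ℕ, (δ : ℤ) < k + a + b → B.coeff k = 0) ∧
      (a + b ≤ δ →
        B.coeff (δ - (a + b)).toNat = S.om (S.top δ G) (S.ld δ a v) (S.ld δ b v')) := by
  obtain ⟨q, hq⟩ := cpb_key hS h hv hv'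
  obtain ⟨q', hq'⟩ := cpb_key hS h.rev.1 (hv.rf h.deg hd) (hv'.rf h.deg hd')
  have H : ∀ s : W, s ≠ 0 → q'.eval s = s ^ ((δ : ℤ) - (a + b)) * q.eval s⁻¹ := by
    intro s hs
    have z1 := h.ev_on s⁻¹
    have z2 := h.prim s⁻¹
    have r := pow_ne_zero δ hs
    have t1 := (hv.ev s⁻¹).sc (s ^ δ)
    have t2 := (hv'.ev s⁻¹).sc (s ^ δ)
    rw [hq', ev_rev h.deg hs, ev_rf hd hs, ev_rf hd' hs, cpb_left,
      cav_smul hS (z1.sc _) (sc_ne r z2) t1 t2, om_sc hS z1 z2 (hv.ev _) (hv'.ev _) r, hq,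
      zpow_sub₀ hs, zpow_add₀ hs, zpow_natCast, div_eq_mul_inv, mul_inv]
    ring
  obtain ⟨h1, h2⟩ := pol_inf H
  refine ⟨q, hq, fun k hk => h1 k (by omega), fun hab => ?_⟩
  rw [h2 (by omega), hq', (ev_zero _).1, (ev_zero _).1, (ev_zero _).1, cv_rev, cv_rf, cv_rf]

theorem om_const (hS : S.Ok t n m) (h : S.LC δ G) (hv : S.Tan G v) (hv' : S.Tan G v')
    (hd : S.Dg δ a v) (hd' : S.Dg δ b v') (he : a + b = δ) (s : W) :
    S.om (S.ev G s) (S.ev v s) (S.ev v' s) = S.om (S.top δ G) (S.ld δ a v) (S.ld δ b v') := by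
  obtain ⟨q, h1, h2, h3⟩ := om_pol hS h hv hv' hd hd'
  have h4 : q = C (q.coeff 0) := eq_C_of_natDegree_le_zero
    (natDegree_le_iff_coeff_eq_zero.2 fun k hk => h2 k (by omega))
  have h5 := h3 he.le
  rw [he, sub_self, Int.toNat_zero] at h5
  rw [← h1, h4, eval_C, h5]

theorem om_zero (hS : S.Ok t n m) (h : S.LC δ G) (hv : S.Tan G v) (hv' : S.Tan G v')
    (hd : S.Dg δ a v) (hd' : S.Dg δ b v') (he : (δ : ℤ) < a + b) (s : W) :
    S.om (S.ev G s) (S.ev v s) (S.ev v' s) = 0 := by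
  obtain ⟨q, h1, h2, -⟩ := om_pol hS h hv hv' hd hd'
  have h4 : q = 0 := Polynomial.ext fun k => h2 k (by omega)
  rw [← h1, h4, eval_zero]

theorem al_line (hS : S.Ok t n m) (h : S.LC 1 G) (s : W) :
    S.om (S.ev G s) (S.eu (S.ev G s)) (S.ev (S.dP G) s) = 0 := by
  obtain ⟨q, h1, h2⟩ := av_poly hS h
  have h3 : q = 0 := Polynomial.ext fun k => h1 k (by omega)
  have h4 := h2 s
  rw [h3, eval_zero, Nat.cast_one, one_mul] at h4
  exact h4.symm

theorem iso_line (hS : S.Ok t n m) (h : S.LC 1 G) {D : Derivation ℂ W W}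
    (hD : ∀ i, D (cv G 0 i) = 0) :
    S.om (S.top 1 G) (S.eu (S.top 1 G)) (fun i => D (S.top 1 G i)) = 0 := by
  obtain ⟨β, h1, -, h3⟩ := om_pol hS h h.on.eu (cD_tan h.on D) (dg_eu h.deg) (dg_cD h.deg D)
  obtain ⟨γ, hγ⟩ := cpb_key hS h (cD_tan h.on D) h.on.der'
  have h4 := cartan hS h D (α := 0) (β := β) (fun s => by rw [eval_zero]; exact (al_line hS h s).symm)
    (fun s => by rw [h1, ev_eu]) hγ 0
  have h5 : S.ev (S.cD D G) 0 = (0 : W) • (0 : Fin S.M → W) := by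
    rw [ev_cD_zero, zero_smul]
    exact funext hD
  rw [coeff_zero, map_zero, zero_sub, coeff_derivative, coeff_zero_eq_eval_zero γ, hγ, h5, cpb_left,
    zero_mul, neg_eq_zero, Nat.cast_zero, zero_add, zero_add, mul_one] at h4
  have h6 := h3 (by norm_num)
  rw [ld_eu, ld_cD] at h6
  exact h6.symm.trans h4

end Vale.Agent.P292
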