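import Vale.Agent.P292.C.Int
import Vale.Agent.P292.C.PolB

/-! P292 C/Quasi (TASK). Curves with base points.
`deg_drop`: if `G ≠ 0`, `exists_slope` gives `δ'` with nonzero top; `δ' ≤ δ + 1` by the degree bound at an index where the top is nonzero (`hS.wpos`), and `δ' ≠ δ + 1`. `split_base`: apply `deg_drop` to `rev (δ + 1) (sh s G)`, whose top is `ev G s = 0`; so `X ^ w i` divides `sh s G i`. `On R` away from `s` by `On.sc` (infinitely many points).
`ql_or`: if there is a base point `s` (not `0`), `split_base` with `δ = 0`: `R i = (X - s) ^ w i * C c`. `av_q`: if `top = 0` the curve is constant (`deg_drop`); if there is no base point `av_line`; else the explicit form: `cv R 1` is a multiple of the Euler field (`om_eu_eu`). Helper names start with `cqu_`. -/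

open Polynomial Set Matrix

set_option linter.unusedSectionVars false

noncomputable section

namespace Vale.Agent.P292

open Vale.Agent.P271 Vale.Agent.P276

variable {K : Type} [Field K] [Algebra ℂ K] {N n m : ℕ} {t : Fin (N + 1) → K} {S : Cn K N}
  {W W' κ : Type} [Field W] [Algebra ℂ W] [Field W'] [Algebra ℂ W'] [Field κ] [Algebra ℂ κ]
  {δ : ℕ} {a b : ℤ} {G R R₁ R₂ v v' : Fin S.M → W[X]} {O : ValuationSubring W} {A B Y : Set W}

variable [IsAlgClosed W]

theorem deg_drop (hS : S.Ok t n m) (h : S.On G) (hd : ∀ i, (G i).natDegree ≤ (δ + 1) * S.w i)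
    (h0 : S.top (δ + 1) G = 0) : ∀ i, (G i).natDegree ≤ δ * S.w i := by
  by_cases hG : G = 0
  · intro i
    rw [hG, Pi.zero_apply, natDegree_zero]
    exact Nat.zero_le _
  obtain ⟨d, h1, h2⟩ := exists_slope hS h hG
  obtain ⟨i, hi⟩ := Function.ne_iff.1 h2
  have h3 : d * S.w i ≤ (δ + 1) * S.w i := (le_natDegree_of_ne_zero hi).trans (hd i)
  have h4 : d ≤ δ + 1 := Nat.le_of_mul_le_mul_right h3 (hS.wpos i)
  have h5 : d ≠ δ + 1 := fun h6 => h2 (h6 ▸ h0)
  exact fun j => (h1 j).trans (Nat.mul_le_mul_right _ (by omega))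

theorem split_base (hS : S.Ok t n m) (h : S.On G) (hd : ∀ i, (G i).natDegree ≤ (δ + 1) * S.w i)
    {s : W} (h0 : S.ev G s = 0) : ∃ R : Fin S.M → W[X], S.On R ∧
      (∀ i, (R i).natDegree ≤ δ * S.w i) ∧ ∀ i, G i = (X - C s) ^ S.w i * R i := by
  have h1 : ∀ i, (S.sh s G i).natDegree ≤ (δ + 1) * S.w i := fun i =>
    (natDegree_taylor (G i) s).le.trans (hd i)
  have h2 := (on_rev (on_sh h s) h1).1
  have h3 : S.top (δ + 1) (S.rev (δ + 1) (S.sh s G)) = 0 := by
    rw [top_rev, ← h0]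
    exact funext fun i => taylor_coeff_zero s (G i)
  have h4 := deg_drop hS h2 (deg_rev h1) h3
  have h5 : ∀ i, taylor s (G i) = X ^ S.w i * S.rev δ (S.rev (δ + 1) (S.sh s G)) i := fun i => by
    have h6 := reflect_mul (S.rev (δ + 1) (S.sh s G) i) 1 (h4 i)
      (natDegree_one.le.trans (Nat.zero_le (S.w i)))
    rw [mul_one, reflect_one, ← Nat.succ_mul, mul_comm _ (X ^ _)] at h6
    exact (congrFun (rev_rev (δ := δ + 1) (S.sh s G)) i).symm.trans h6
  refine ⟨S.sh (-s) (S.rev δ (S.rev (δ + 1) (S.sh s G))), on_sh (on_rev h2 h4).1 _,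
    fun i => (natDegree_taylor _ _).le.trans (deg_rev h4 i), fun i => ?_⟩
  have h7 := congrArg (taylor (-s)) (h5 i)
  rw [taylor_taylor, neg_add_cancel, taylor_zero, taylor_mul, taylor_pow, taylor_X, map_neg,
    ← sub_eq_add_neg] at h7
  exact h7

theorem cqu_form (hS : S.Ok t n m) (h : S.On R) (hd : ∀ i, (R i).natDegree ≤ 1 * S.w i)
    (h0 : cv R 0 ≠ 0) {s : W} (hs : S.ev R s = 0) :
    s ≠ 0 ∧ S.top 1 R = S.sc (-s)⁻¹ (cv R 0) ∧ cv R 1 = (-s)⁻¹ • S.eu (cv R 0) := by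
  have h1 : s ≠ 0 := fun h2 => h0 (by rw [← (ev_zero R).1, ← h2, hs])
  obtain ⟨Q, -, h2, h3⟩ := split_base (δ := 0) hS h hd hs
  have h4 : ∀ i, R i = (X - C s) ^ S.w i * C ((Q i).coeff 0) := fun i => by
    rw [← eq_C_of_natDegree_le_zero ((h2 i).trans (Nat.zero_mul _).le)]
    exact h3 i
  have h5 : ∀ i, cv R 0 i = (-s) ^ S.w i * (Q i).coeff 0 := fun i => by
    change (R i).coeff 0 = _
    rw [coeff_zero_eq_eval_zero, h4 i, eval_mul, eval_pow, eval_sub, eval_X, eval_C, eval_C,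
      zero_sub]
  have h6 : -s ≠ 0 := neg_ne_zero.2 h1
  refine ⟨h1, funext fun i => ?_, funext fun i => ?_⟩
  · change (R i).coeff (1 * S.w i) = (-s)⁻¹ ^ S.w i * cv R 0 i
    have h7 := ((monic_X_sub_C s).pow (S.w i)).coeff_natDegree
    rw [natDegree_pow, natDegree_X_sub_C, mul_comm] at h7
    rw [h5 i, h4 i, coeff_mul_C, h7, ← mul_assoc, ← mul_pow, inv_mul_cancel₀ h6, one_pow]
  · rw [← (ev_zero R).2]
    change (derivative (R i)).eval 0 = (-s)⁻¹ * ((S.w i : W) * cv R 0 i)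
    obtain ⟨k, hk⟩ : ∃ k, S.w i = k + 1 := ⟨S.w i - 1, by have := hS.wpos i; omega⟩
    rw [h5 i, h4 i, hk, derivative_mul, derivative_C, mul_zero, add_zero, derivative_pow,
      derivative_X_sub_C]
    simp only [eval_mul, eval_pow, eval_sub, eval_X, eval_C, zero_sub, mul_one,
      Nat.add_sub_cancel, pow_succ]
    field_simp

theorem ql_or (hS : S.Ok t n m) (h : S.QL R) :
    S.LC 1 R ∨ ∃ c : W, c ≠ 0 ∧ S.top 1 R = S.sc c (cv R 0) := by
  by_cases hb : ∀ s, S.ev R s ≠ 0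
  · exact Or.inl ⟨h.on, h.deg, hb, h.top0⟩
  · obtain ⟨s, hs⟩ := not_forall.1 hb
    obtain ⟨h1, h2, -⟩ := cqu_form hS h.on h.deg h.cv0 (not_not.1 hs)
    exact Or.inr ⟨_, inv_ne_zero (neg_ne_zero.2 h1), h2⟩

theorem av_q (hS : S.Ok t n m) (h : S.On R) (hd : ∀ i, (R i).natDegree ≤ 1 * S.w i)
    (h0 : cv R 0 ≠ 0) : S.Av R = 0 := by
  have h1 : S.On (cv R 0) := (ev_zero R).1 ▸ h.ev 0
  by_cases hb : ∀ s, S.ev R s ≠ 0
  · by_cases ht : S.top 1 R = 0
    · have h2 := deg_drop (δ := 0) hS h hd ht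
      have h3 : cv R 1 = (0 : W) • S.eu (cv R 0) := by
        rw [zero_smul]
        exact funext fun i => coeff_eq_zero_of_natDegree_lt
          (((h2 i).trans (Nat.zero_mul _).le).trans_lt Nat.one_pos)
      rw [Cn.Av, h3]
      exact om_eu_eu hS h1 h0 _
    · exact av_line hS ⟨h, hd, hb, ht⟩
  · obtain ⟨s, hs⟩ := not_forall.1 hb
    obtain ⟨-, -, h2⟩ := cqu_form hS h hd h0 (not_not.1 hs)
    rw [Cn.Av, h2]
    exact om_eu_eu hS h1 h0 _

theorem line_red [IsAlgClosed κ] (hS : S.Ok t n m) (h : S.LC 1 G) (P : Place ℂ W κ)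
    {G' : Fin S.M → κ[X]} (hr : P.RedP G G') (h0 : cv G' 0 ≠ 0) (h1 : S.top 1 G' ≠ 0) :
    S.LC 1 G' ∨ ∃ c : κ, c ≠ 0 ∧ S.top 1 G' = S.sc c (cv G' 0) :=
  ql_or hS ⟨red_onP P h.on hr, fun i => (hr.natDegree_le i).trans (h.deg i), h0, h1⟩

end Vale.Agent.P292
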