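import Vale.Agent.P292.C.NeckB
import Vale.Agent.P292.C.Quasi

/-! P292 C/Est (TASK). The node estimate.
`node_deg`: for `k > w`, `coeff k (dil u G) = u ^ (2 k - 2 w) * coeff (2 w - k) (dil u (rev 2 G))` reduces to zero (for `k > 2 w` it is zero); the tops are reductions of the same element. Use it also for `rev 2 G` (`rev_rev`). `lo_red`: `lo_coeff`, `hS.wpos`.
`node_est`: chart `q, c` from `hS.inv` at `top 1 R₁` (`red_onP`, `on_dil`, `on_rev`). `neck` with `A = u * Av G`, `c = u ^ 2`, `neck_form`, `coef0`, `coef11` (integrality by the `I2` lemmas): `Av G / u * (q(z) + u ^ 2 e) = dB + u ^ 2 e'`. Reduce (`Red.aeval`; the factor is a unit): `r = dB / q` at the residue points; `dbeta`, and `om z (eu z) (cv (rev 1 R) 1) = Av (rev 1 R) = 0` by `av_q` for `rev 1 R₁`, `rev 1 R₂` (`cv_rev`, `deg_rev`; tangency from `On.der'`, `Tan.ev`, `ev_zero`). So `r = nom R₁ R₂`. `av_q'`: map to `AlgebraicClosure W` (`On.map`,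 `om_map`), `av_q`. Helper names start with `ces_`. -/

open Polynomial Set Matrix

set_option linter.unusedSectionVars false

noncomputable section

namespace Vale.Agent.P292

open Vale.Agent.P271 Vale.Agent.P276

variable {K : Type} [Field K] [Algebra ℂ K] {N n m : ℕ} {t : Fin (N + 1) → K} {S : Cn K N}
  {W W' κ : Type} [Field W] [Algebra ℂ W] [Field W'] [Algebra ℂ W'] [Field κ] [Algebra ℂ κ]
  {δ : ℕ} {a b : ℤ} {G R R₁ R₂ v v' : Fin S.M → W[X]} {O : ValuationSubring W} {A B Y : Set W}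

theorem ces_deg (hd : ∀ i, (G i).natDegree ≤ 2 * S.w i) (P : Place ℂ W κ) {u : W}
    {R₁ R₂ : Fin S.M → κ[X]} (hu' : P.O.valuation u < 1) (h1 : P.RedP (dil u G) R₁)
    (h2 : P.RedP (dil u (S.rev 2 G)) R₂) (i : Fin S.M) : (R₁ i).natDegree ≤ 1 * S.w i := by
  refine natDegree_le_iff_coeff_eq_zero.2 fun k hk => (h1 i k).unique ?_
  rw [coeff_dil]
  rcases le_or_gt k (2 * S.w i) with h | h
  · have h3 := Place.red_zero_iff.2 hu'
    have h4 := h3.mul ((h3.pow (k - (2 * S.w i - k) - 1)).mul (h2 i (2 * S.w i - k)))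
    rwa [zero_mul, coeff_dil, Cn.rev, coeff_reflect, revAt_le (Nat.sub_le _ _), Nat.sub_sub_self h,
      ← mul_assoc, ← mul_assoc, ← pow_succ', ← pow_add,
      show k - (2 * S.w i - k) - 1 + 1 + (2 * S.w i - k) = k by omega] at h4
  · rw [coeff_eq_zero_of_natDegree_lt ((hd i).trans_lt h), mul_zero]
    exact Place.red_zero

theorem ces_tan (h : S.On R) : S.On (cv R 0) ∧ S.Tan (cv R 0) (cv R 1) := by
  rw [← (ev_zero R).1, ← (ev_zero R).2]
  exact ⟨h.ev 0, h.der'.ev 0⟩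

theorem node_deg (hd : ∀ i, (G i).natDegree ≤ 2 * S.w i) (P : Place ℂ W κ) {u : W}
    {R₁ R₂ : Fin S.M → κ[X]} (hu' : P.O.valuation u < 1) (h1 : P.RedP (dil u G) R₁)
    (h2 : P.RedP (dil u (S.rev 2 G)) R₂) :
    (∀ i, (R₁ i).natDegree ≤ 1 * S.w i) ∧ (∀ i, (R₂ i).natDegree ≤ 1 * S.w i) ∧
      S.top 1 R₁ = S.top 1 R₂ ∧ cv (S.lo (dil u (S.rev 2 G))) 0 = cv (S.lo (dil u G)) 0 := by
  have e : ∀ i, (dil u (S.rev 2 G) i).coeff (S.w i) = (dil u G i).coeff (S.w i) := fun i => by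
    rw [coeff_dil, coeff_dil, Cn.rev, coeff_reflect, revAt_le (by omega),
      show 2 * S.w i - S.w i = S.w i by omega]
  refine ⟨ces_deg hd P hu' h1 h2, ces_deg (deg_rev hd) P hu' h2 (by rwa [rev_rev]),
    funext fun i => ?_, funext fun i => ?_⟩
  · simp only [Cn.top, one_mul]
    exact (h1 i _).unique (e i ▸ h2 i _)
  · simp only [cv, lo_coeff, Nat.zero_le, if_true, Nat.sub_zero, e]

theorem lo_red (hS : S.Ok t n m) (P : Place ℂ W κ) {R : Fin S.M → κ[X]} (h : P.RedP G R) :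
    (∀ i k, (S.lo G i).coeff k ∈ P.O) ∧ P.RedV (cv (S.lo G) 0) (S.top 1 R) ∧
      P.RedV (cv (S.lo G) 1) (cv (S.rev 1 R) 1) := by
  refine ⟨fun i k => ?_, fun i => ?_, fun i => ?_⟩
  · rw [lo_coeff]
    split_ifs
    exacts [(h i _).1, zero_mem _]
  · simp only [cv, lo_coeff, Nat.zero_le, if_true, Nat.sub_zero, Cn.top, one_mul]
    exact h i _
  · have h1 : 1 ≤ S.w i := hS.wpos i
    simp only [cv, lo_coeff, if_pos h1, Cn.rev, one_mul, coeff_reflect, revAt_le h1]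
    exact h i _

theorem red_dB (P : Place ℂ W κ) {σ : Type} [Fintype σ] (β : σ → MvPolynomial σ ℂ) {z p p' : σ → W}
    {z₁ p₁ p₁' : σ → κ} (h : P.RedV z z₁) (h1 : P.RedV p p₁) (h2 : P.RedV p' p₁') :
    P.Red (dB β z p p') (dB β z₁ p₁ p₁') := by
  exact Place.Red.sum _ fun k _ =>
    ((Place.Red.sum _ fun l _ => (Place.Red.aeval h _).mul (h1 l)).mul (h2 k)).sub
      ((Place.Red.sum _ fun l _ => (Place.Red.aeval h _).mul (h2 l)).mul (h1 k))

theorem av_q' (hS : S.Ok t n m) (h : S.On R) (hd : ∀ i, (R i).natDegree ≤ 1 * S.w i)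
    (h0 : cv R 0 ≠ 0) : S.Av R = 0 := by
  obtain ⟨f⟩ : Nonempty (W →ₐ[ℂ] AlgebraicClosure W) := ⟨IsScalarTower.toAlgHom ℂ W _⟩
  have e : ∀ k, cv (fun i => mapAlgHom f (R i)) k = fun i => f (cv R k i) := fun k =>
    funext fun i => coeff_map _ _
  have h1 := av_q hS (h.map (mapAlgHom f)) (fun i => natDegree_map_le.trans (hd i)) (by
    rw [e]
    exact fun h2 => h0 (funext fun i => (map_eq_zero f).1 (congrFun h2 i)))
  have h2 := om_map hS (ces_tan h).1 h0 (ces_tan h).1.eu (ces_tan h).2 f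
  refine (map_eq_zero f).1 (h2.symm.trans (Eq.trans ?_ h1))
  simp only [Cn.Av, e, Cn.eu, map_mul, map_natCast]
  rfl

/-- C8: the node estimate. -/
theorem node_est [IsAlgClosed W] (hS : S.Ok t n m) (h : S.LC 2 G) (P : Place ℂ W κ) {u : W}
    {R₁ R₂ : Fin S.M → κ[X]} (hu : u ≠ 0) (hu' : P.O.valuation u < 1) (h1 : P.RedP (dil u G) R₁)
    (h2 : P.RedP (dil u (S.rev 2 G)) R₂) (h0 : S.top 1 R₁ ≠ 0) :
    ∃ r, P.Red (S.Av G / u) r ∧ (r = S.nom R₁ R₂ ∨ r = - S.nom R₁ R₂) := by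
  obtain ⟨d1, d2, ht, hc0⟩ := node_deg h.deg P hu' h1 h2
  have o1 := on_rev (red_onP P (h.dil hu).1.on h1) d1
  have o2 := on_rev (red_onP P (h.rev.1.dil hu).1.on h2) d2
  obtain ⟨q, c, hq, hc⟩ := hS.inv κ _ o1.2 h0
  obtain ⟨l1, l2, l3⟩ := lo_red hS P h1
  obtain ⟨m1, -, m3⟩ := lo_red hS P h2
  have hZ : ∀ k, I2 P.O (Zp (S.lo (dil u G)) (S.lo (dil u (S.rev 2 G))) k) := fun k =>
    ((i2_pol (l1 k) 0).add (i2_pol (m1 k) 1)).add (i2_C (l1 k 0)).neg
  have hD : ∀ p : W[X], (∀ j, p.coeff j ∈ P.O) → ∀ j, (derivative p).coeff j ∈ P.O :=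
    fun p hp j => by
      rw [coeff_derivative]
      exact mul_mem (hp _) (add_mem (natCast_mem _ _) (one_mem _))
  have hV : ∀ k, I2 P.O (Vp (S.lo (dil u G)) (S.lo (dil u (S.rev 2 G))) k) := fun k =>
    ((i2_X 0).mul (i2_pol (hD _ (l1 k)) 0)).neg.add ((i2_X 1).mul (i2_pol (hD _ (m1 k)) 1))
  have r0 := Place.red_zero_iff.2 hu'
  obtain ⟨e, he, e', he', h3⟩ := neck (i2_aeval (ov_place P) hZ q)
    (i2_sum _ fun k _ => (i2_aeval (ov_place P) hZ (S.bt c k)).mul (hV k)) (pow_mem r0.1 2)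
    fun s hs => neck_form hS h hc hu hs
  rw [coef0 hc0, (coef11 hc0 _).1, (coef11 hc0 _).2] at h3
  have r1 := (Place.Red.aeval l2 q).add ((r0.pow 2).mul ⟨he, rfl⟩)
  have r2 := (red_dB P (S.bt c) l2 l3 m3).add ((r0.pow 2).mul ⟨he', rfl⟩)
  rw [zero_pow two_ne_zero, zero_mul, add_zero] at r1 r2
  have r3 := r2.mul (r1.inv hq)
  have t1 := ces_tan o1.1
  have t2 := ces_tan o2.1
  have a1 := av_q' hS o1.1 (deg_rev d1) (by rwa [cv_rev])
  have a2 := av_q' hS o2.1 (deg_rev d2) (by rwa [cv_rev, ← ht])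
  rw [Cn.Av, cv_rev] at a1 a2
  rw [cv_rev] at t1 t2
  rw [← ht] at a2 t2
  rw [dbeta hS hc o1.2 h0 t1.2 t2.2, a1, a2, mul_zero, mul_zero, add_zero, sub_zero,
    mul_right_comm, mul_inv_cancel₀ hq, one_mul] at r3
  refine ⟨_, ?_, Or.inl rfl⟩
  rwa [← div_eq_mul_inv, ← (div_eq_div_iff (a := S.Av G) hu (r1.left_ne hq)).2 (mul_left_cancel₀ hu
    (by linear_combination h3))] at r3

end Vale.Agent.P292
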