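import Vale.Agent.P292.C.GnA

/-! P292 C/Gn: the generic node moves (helper97). -/

open Polynomial Set Matrix

set_option linter.unusedSectionVars false

noncomputable section

namespace Vale.Agent.P292

open Vale.Agent.P271 Vale.Agent.P276

variable {K : Type} [Field K] [Algebra ℂ K] {N n m : ℕ} {t : Fin (N + 1) → K} {S : Cn K N}
  {W : Type} [Field W] [Algebra ℂ W] {G R₁ R₂ : Fin S.M → W[X]} {z : Fin S.M → W} {A : Set W}

/-- The values of a derivation on a vector. -/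
def gnEv {τ : Type} (y : τ → W) : Derivation ℂ W W →ₗ[W] τ → W where
  toFun D i := D (y i)
  map_add' _ _ := rfl
  map_smul' _ _ := rfl

theorem gn_der {τ : Type} [Finite τ] (hA : A.Finite) (y : τ → W) :
    ∃ (k : ℕ) (D : Fin k → Derivation ℂ W W), rk (A ∪ range y) = rk A + k ∧
      (∀ i, ∀ a ∈ cl A, D i a = 0) ∧ (LinearIndependent W fun i => gnEv y (D i)) ∧
      ∀ i j, D i (y j) ∈ cl (A ∪ range y) := by
  have hy := finite_range y
  obtain ⟨k, hk⟩ := Nat.exists_eq_add_of_le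
    (rk_mono (hA.union hy) (subset_union_left.trans (subset_cl (A ∪ range y))))
  obtain ⟨u, hu, hu'⟩ := (rel_iff_rk hA hy).2 hk.ge
  obtain ⟨D, h1, h2⟩ := exists_der_kill hu'
  have h3 : A ∪ range u ⊆ A ∪ range y := union_subset_union_right _ (range_subset_iff.2 hu)
  have h4 := (ai_iff_rk hA u).1 hu'
  have h5 := sub_cl_of_rk (hA.union (finite_range u)) (hA.union hy) (by
    rw [union_eq_self_of_subset_left h3, hk]
    simpa using h4)
  refine ⟨k, D, hk, h1, Fintype.linearIndependent_iff.2 fun c hc i => ?_, fun i j =>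
    cl_mono h3 (der_mem ?_ _ (h5 (Or.inr ⟨j, rfl⟩)))⟩
  · obtain ⟨j, hj⟩ := hu i
    have := congrFun hc j
    simpa [gnEv, hj, h2] using this
  · rintro a (ha | ⟨j, rfl⟩)
    · rw [h1 i a (subset_cl _ ha)]
      exact zero_mem _
    · rw [h2]
      split_ifs
      exacts [one_mem _, zero_mem _]

theorem gn_le {V : Submodule W (Fin S.M → W)} {k : ℕ} {v : Fin k → Fin S.M → W}
    (h : LinearIndependent W v) (h1 : ∀ i, v i ∈ V) : k ≤ Module.finrank W V := by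
  have h2 : LinearIndependent W fun i => (⟨v i, h1 i⟩ : V) :=
    LinearIndependent.of_comp V.subtype h
  simpa using h2.fintype_card_le_finrank

theorem gn_gen (hS : S.Ok t n m) (h : S.On z) (h0 : z ≠ 0) (hr : 2 * n + 2 ≤ rk (range z))
    (v : Fin S.M → W) (hv : S.Tan z v) : ∃ D : Derivation ℂ W W, (fun i => D (z i)) = v := by
  obtain ⟨k, D, h1, -, h2, -⟩ := gn_der finite_empty z
  rw [empty_union, show rk (∅ : Set W) = 0 by simp [rk]] at h1
  have h3 := gn_le (V := LinearMap.range (gnEv z)) h2 fun i => ⟨_, rfl⟩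
  have h4 := hS.dim W z h h0
  have h5 : LinearMap.range (gnEv z) = S.TanS z :=
    Submodule.eq_of_le_of_finrank_le (by rintro _ ⟨D, rfl⟩; exact h.der D) (by omega)
  exact h5.ge hv

variable [IsAlgClosed W]

theorem gn_U (hS : S.Ok t n m) (h : S.LC 1 G) : ∃ (k : ℕ) (D : Fin k → Derivation ℂ W W),
    k ≤ n + 1 ∧ rk (range (S.top 1 G) ∪ range (cv G 0)) = rk (range (S.top 1 G)) + k ∧
      (∀ i j, D i (S.top 1 G j) = 0) ∧ (LinearIndependent W fun i => gnEv (cv G 0) (D i)) ∧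
      ∀ i j, D i (cv G 0 j) ∈ cl (range (S.top 1 G) ∪ range (cv G 0)) := by
  obtain ⟨k, D, h1, h2, h3, h4⟩ := gn_der (finite_range (S.top 1 G)) (cv G 0)
  have h5 : ∀ i j, D i (S.top 1 G j) = 0 := fun i j => h2 i _ (subset_cl _ ⟨j, rfl⟩)
  have h6 : (LinearMap.ker (gnEv (S.top 1 G))).map (gnEv (cv G 0)) ≤ S.TanS (cv G 0) := by
    rintro _ ⟨D, -, rfl⟩
    exact h.cv_on.1.der D
  have h7 := (om_dim hS h.cv_on.1 h.cv_on.2.1 h6 h6 (by
    rintro _ ⟨D, hD, rfl⟩ _ ⟨D', hD', rfl⟩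
    exact gna_iso hS h (congrFun hD) (congrFun hD'))).1
  have h8 := gn_le h3 fun i => Submodule.mem_map_of_mem (p := LinearMap.ker (gnEv (S.top 1 G)))
    (funext (h5 i))
  exact ⟨k, D, by omega, h1, h5, h3, h4⟩

theorem gn_q (hS : S.Ok t n m) (h : S.LC 1 G) (hr : 2 * n + 2 ≤ rk (range (cv G 0))) (i) :
    cv G 1 i ∈ cl (range (cv G 0) ∪ range (S.top 1 G)) := by
  obtain ⟨k, D, h1, h2, h3, -⟩ :=
    gn_der ((finite_range (cv G 0)).union (finite_range (S.top 1 G))) (cv G 1)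
  refine sub_cl_of_rk ((finite_range _).union (finite_range _)) (finite_range _) ?_ ⟨i, rfl⟩
  rcases k with _ | k
  · exact h1.le
  · exact absurd (funext ((gna_jet hS h (gn_gen hS h.cv_on.1 h.cv_on.2.1 hr) fun j =>
      h2 0 _ (subset_cl _ (Or.inl ⟨j, rfl⟩))).1 fun j =>
        h2 0 _ (subset_cl _ (Or.inr ⟨j, rfl⟩)))) (h3.ne_zero 0)

theorem gn_perp (hS : S.Ok t n m) (h : S.LC 1 G) (hr : 2 * n + 2 ≤ rk (range (cv G 0)))
    {D E : Fin (n + 1) → Derivation ℂ W W} (h1 : ∀ i j, D i (cv G 0 j) = 0)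
    (h2 : LinearIndependent W fun i => gnEv (S.top 1 G) (D i)) (h3 : ∀ i j, E i (S.top 1 G j) = 0)
    (h4 : LinearIndependent W fun i => gnEv (cv G 0) (E i)) {v : Fin S.M → W}
    (hv : S.Tan (cv G 0) v) (h5 : ∀ D : Derivation ℂ W W, (∀ j, D (cv G 0 j) = 0) →
      S.om (cv G 0) (fun j => D (cv G 1 j)) v = 0) :
    ∃ E : Derivation ℂ W W, (∀ j, E (S.top 1 G j) = 0) ∧ ∀ j, E (cv G 0 j) = v j := by
  have h6 : LinearIndependent W fun i => gnEv (cv G 1) (D i) := by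
    rw [Fintype.linearIndependent_iff] at h2 ⊢
    intro c hc
    refine h2 c ?_
    simp only [← map_smul, ← map_sum] at hc ⊢
    refine funext ((gna_jet hS h (gn_gen hS h.cv_on.1 h.cv_on.2.1 hr) fun j => ?_).2 (congrFun hc))
    change gnEv (cv G 0) _ j = 0
    simp [gnEv, h1]
  have h7 := gn_le h6 fun i => Submodule.mem_map_of_mem (p := LinearMap.ker (gnEv (cv G 0)))
    (funext (h1 i))
  have h8 := gn_le h4 fun i => Submodule.mem_map_of_mem (p := LinearMap.ker (gnEv (S.top 1 G)))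
    (funext (h3 i))
  obtain ⟨E, hE, rfl⟩ := (om_dim hS h.cv_on.1 h.cv_on.2.1
    (U := (LinearMap.ker (gnEv (cv G 0))).map (gnEv (cv G 1)))
    (V := (LinearMap.ker (gnEv (S.top 1 G))).map (gnEv (cv G 0)))
    (by rintro _ ⟨D, hD, rfl⟩; exact gna_tan (congrFun hD) h.cv_on.2.2)
    (by rintro _ ⟨D, -, rfl⟩; exact h.cv_on.1.der D)
    (by
      rintro _ ⟨D, hD, rfl⟩ _ ⟨D', hD', rfl⟩
      exact gna_perp hS h (congrFun hD) (congrFun hD'))).2 (by omega) v hv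
    (by rintro _ ⟨D, hD, rfl⟩; exact h5 D (congrFun hD))
  exact ⟨E, congrFun hE, fun j => rfl⟩

/-- C5: two independent generic lines with orthogonal tangents: the node moves. -/
theorem gnode (hS : S.Ok t n m) (h1 : S.LC 1 R₁) (h2 : S.LC 1 R₂) (ht : S.top 1 R₁ = S.top 1 R₂)
    (hr : 4 * n + 4 ≤ rk (range (S.top 1 R₁) ∪ range (cv R₁ 0) ∪ range (cv R₂ 0)))
    (h0 : S.nom R₁ R₂ = 0) : rk (range (cv R₁ 0) ∪ range (cv R₂ 0)) ≤ 3 * n + 3 := by
  obtain ⟨k₁, D₁, a1, a2, a3, a4, -⟩ := gn_U hS h1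
  obtain ⟨k₂, D₂, b1, b2, b3, b4, -⟩ := gn_U hS h2
  obtain ⟨l1, e1, e2, -⟩ := h1.rev
  obtain ⟨l2, f1, f2, -⟩ := h2.rev
  obtain ⟨j₁, E₁, c1, c2, c3, c4, c5⟩ := gn_U hS l1
  obtain ⟨j₂, E₂, d1, d2, d3, d4, -⟩ := gn_U hS l2
  have r1 := rk_on hS h1.cv_on.1
  have r2 := rk_on hS h2.cv_on.1
  have r3 := rk_on hS l1.cv_on.1
  rw [Cn.nom] at h0
  rw [← ht] at b2 b3 f1
  rw [← e1] at a2 a3 f1 hr h0
  rw [← e2] at a2 a4 hr r1 ⊢
  rw [← e1] at b2 b3
  rw [← f2] at b2 b4 hr r2 ⊢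
  generalize S.rev 1 R₁ = G₁ at *
  generalize S.rev 1 R₂ = G₂ at *
  have fz := finite_range (cv G₁ 0)
  have fa := finite_range (S.top 1 G₁)
  have fb := finite_range (S.top 1 G₂)
  have r4 := rk_sub fa fz fb
  rw [union_comm (range (S.top 1 G₁))] at r4 c2 c5
  rw [f1, union_comm] at d2
  obtain rfl : k₁ = n + 1 := by omega
  obtain rfl : k₂ = n + 1 := by omega
  obtain rfl : j₁ = n + 1 := by omega
  obtain rfl : j₂ = n + 1 := by omega
  have r5 : 2 * n + 2 ≤ rk (range (cv G₁ 0)) := by omega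
  have glue := der_glue fz fa fb (by omega)
  obtain ⟨on, nz, t1⟩ := l1.cv_on
  have t2 := f1 ▸ l2.cv_on.2.2
  have q1 := gn_q hS l1 r5
  have q2 := f1 ▸ gn_q hS l2 (f1.symm ▸ r5)
  have mz : ∀ (B : Set W) j, cv G₁ 0 j ∈ cl (range (cv G₁ 0) ∪ B) := fun B j =>
    subset_cl _ (Or.inl ⟨j, rfl⟩)
  obtain ⟨E, hE, hE'⟩ := gn_perp hS l1 r5 a3 a4 c3 c4 t2 fun D hD => by
    obtain ⟨D', g1, g2⟩ := glue D 0 (gna_kill hD)
    have := gna_om hS on nz t1 t2 (fun j => g2 _ (mz _ j)) fun j => g2 _ (q2 j)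
    simp only [h0, map_zero, g1 _ (q1 _)] at this
    exact this.symm
  have key : ∀ i, ∃ D : Derivation ℂ W W, (∀ a ∈ cl (range (S.top 1 G₁) ∪ range (S.top 1 G₂)),
      D a = 0) ∧ ∀ j, D (cv G₁ 0 j) = E₁ i (cv G₁ 0 j) := fun i => by
    obtain ⟨E', g3, g4⟩ := gn_perp hS l2 (f1.symm ▸ r5) (f1.symm ▸ b3) b4 d3 d4
      (v := fun j => E₁ i (cv G₁ 0 j)) (f1.symm ▸ on.der _) fun D hD => by
        rw [f1] at hD ⊢
        obtain ⟨D', g1, g2⟩ := glue 0 D fun a ha => (gna_kill hD a ha).symm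
        have g5 := gna_iso hS l1 hE (c3 i)
        have := gna_om hS on nz t2 (on.der (E₁ i)) (fun j => g1 _ (mz _ j)) fun j => g1 _ (c5 i j)
        simp only [hE'] at g5
        simp only [g2 _ (q2 _)] at this
        rw [← this]
        exact (congrArg D' g5).trans (map_zero D')
    rw [f1] at g4
    obtain ⟨D, g1, g2⟩ := glue (E₁ i) E' fun a ha => sub_eq_zero.1
      (gna_kill (D := E₁ i - E') (fun j => sub_eq_zero.2 (g4 j).symm) a ha)
    refine ⟨D, der_kill ?_, fun j => g1 _ (mz _ j)⟩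
    rintro _ (⟨j, rfl⟩ | ⟨j, rfl⟩)
    · exact (g1 _ (subset_cl _ (Or.inr ⟨j, rfl⟩))).trans (c3 i j)
    · exact (g2 _ (subset_cl _ (Or.inr ⟨j, rfl⟩))).trans (g3 j)
  choose D g1 g2 using key
  have r6 := rk_of_der (fa.union fb) (y := cv G₁ 0) D g1 (by
    simp only [g2]
    exact c4)
  rw [union_comm _ (range (cv G₁ 0)), ← union_assoc] at r6
  omega

end Vale.Agent.P292
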