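import Vale.Agent.P292.C.OmP
import Vale.Agent.P276.E.DerA
import Vale.Agent.P276.E.Gen

/-! P292 C/GnA: sections along a line (helper97). -/

open Polynomial Set Matrix

set_option linter.unusedSectionVars false

noncomputable section

namespace Vale.Agent.P292

open Vale.Agent.P271 Vale.Agent.P276

variable {K : Type} [Field K] [Algebra ℂ K] {N n m : ℕ} {t : Fin (N + 1) → K} {S : Cn K N}
  {W : Type} [Field W] [Algebra ℂ W] {G u u' : Fin S.M → W[X]} {z v v' : Fin S.M → W}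
  {D D' : Derivation ℂ W W}

theorem gna_kill {τ : Type} {y : τ → W} (h : ∀ i, D (y i) = 0) : ∀ a ∈ cl (range y), D a = 0 :=
  der_kill (by rintro _ ⟨i, rfl⟩; exact h i)

theorem gna_tan (h : ∀ i, D (z i) = 0) (hv : S.Tan z v) : S.Tan z fun i => D (v i) :=
  fun k P hP h0 => by
    have := congrArg D (hv k P hP h0)
    simpa only [map_sum, map_zero, Derivation.leibniz, smul_eq_mul,
      gna_kill h _ (egn_mem (subset_cl _) _), mul_zero, add_zero] using this

theorem gna_om (hS : S.Ok t n m) (h : S.On z) (h0 : z ≠ 0) (hv : S.Tan z v) (hv' : S.Tan z v')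
    (h1 : ∀ i, D (z i) = 0) (h2 : ∀ i, D (v' i) = 0) :
    D (S.om z v v') = S.om z (fun i => D (v i)) v' := by
  obtain ⟨q, a, hq, ha⟩ := hS.inv W z h h0
  obtain ⟨ξ, h3, h4⟩ : ∃ ξ, S.pm z *ᵥ ξ = v' ∧ ∀ i, D (ξ i) = 0 := by
    refine ⟨(MvPolynomial.aeval z q)⁻¹ • (a.map (MvPolynomial.aeval z) *ᵥ v'), ?_, fun i => ?_⟩
    · rw [mulVec_smul, ha W z v' h hv', smul_smul, inv_mul_cancel₀ hq, one_smul]
    · have h5 : ∀ Q, D (MvPolynomial.aeval z Q) = 0 := fun Q =>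
        gna_kill h1 _ (egn_mem (subset_cl _) _)
      simp [mulVec, dotProduct, h5, h2, Derivation.leibniz_inv]
  rw [← h3, om_pm hS h h0 hv, om_pm hS h h0 (gna_tan h1 hv)]
  simp [dotProduct, h4, mul_comm]

variable [IsAlgClosed W]

theorem gna_sec (hS : S.Ok t n m) (h : S.LC 1 G) (hu : S.Tan G u) (hu' : S.Tan G u') {a b : ℕ}
    (h1 : ∀ i k, S.w i < k + a → (u i).coeff k = 0) (h2 : ∀ i k, S.w i < k + b → (u' i).coeff k = 0)
    (hab : 2 ≤ a + b) : S.om (cv G 0) (cv u 0) (cv u' 0) = 0 := by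
  obtain ⟨q, h3, -, h4⟩ := om_poly hS h hu hu' (a := a) (b := b) (fun i k e => h1 i k (by omega))
    fun i k e => h2 i k (by omega)
  have := h4 0
  rw [(ev_zero G).1, (ev_zero u).1, (ev_zero u').1, ← coeff_zero_eq_eval_zero,
    h3 0 (by omega)] at this
  exact this.symm

theorem gna_div (hu : S.Tan G u) {k : ℕ} (h : ∀ j < k, cv u j = 0) :
    ∃ u' : Fin S.M → W[X], S.Tan G u' ∧ ∀ i j, (u' i).coeff j = (u i).coeff (j + k) := by
  choose u' h1 using fun i => (X_pow_dvd_iff (f := u i)).2 fun j hj => congrFun (h j hj) i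
  refine ⟨u', tan_of_ev fun s hs => ?_, fun i j => by rw [h1, coeff_X_pow_mul]⟩
  have h2 : S.ev u' s = (s ^ k)⁻¹ • S.ev u s := funext fun i => by
    simp [Cn.ev, h1 i, hs]
  rw [h2]
  exact (S.TanS _).smul_mem _ (hu.ev s)

theorem gna_cD (h : S.LC 1 G) (D : Derivation ℂ W W) (i : Fin S.M) (k : ℕ) (e : S.w i < k + 0) :
    (S.cD D G i).coeff k = 0 := by
  rw [cD_coeff, coeff_eq_zero_of_natDegree_lt ((h.deg i).trans_lt (by omega)), map_zero]

theorem gna_cD' (h : S.LC 1 G) (h1 : ∀ i, D (S.top 1 G i) = 0) (i : Fin S.M) (k : ℕ)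
    (e : S.w i < k + 1) : (S.cD D G i).coeff k = 0 := by
  rcases (Nat.lt_succ_iff.1 e).eq_or_lt with rfl | e'
  · rw [cD_coeff, ← h1 i, Cn.top, one_mul]
  · exact gna_cD h D i k e'

theorem gna_cv (D : Derivation ℂ W W) (k : ℕ) : cv (S.cD D G) k = fun i => D (cv G k i) :=
  funext fun i => cD_coeff D G i k

/-- Sections that vanish at infinity are isotropic. -/
theorem gna_iso (hS : S.Ok t n m) (h : S.LC 1 G) (h1 : ∀ i, D (S.top 1 G i) = 0)
    (h2 : ∀ i, D' (S.top 1 G i) = 0) :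
    S.om (cv G 0) (fun i => D (cv G 0 i)) (fun i => D' (cv G 0 i)) = 0 := by
  rw [← gna_cv, ← gna_cv]
  exact gna_sec hS h (cD_tan h.on D) (cD_tan h.on D') (gna_cD' h h1) (gna_cD' h h2) le_rfl

theorem gna_perp (hS : S.Ok t n m) (h : S.LC 1 G) (h1 : ∀ i, D (cv G 0 i) = 0)
    (h2 : ∀ i, D' (S.top 1 G i) = 0) :
    S.om (cv G 0) (fun i => D (cv G 1 i)) (fun i => D' (cv G 0 i)) = 0 := by
  obtain ⟨u, h3, h4⟩ := gna_div (cD_tan h.on D) (k := 1) fun j hj => by
    rw [Nat.lt_one_iff.1 hj, gna_cv]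
    exact funext h1
  have h5 : cv u 0 = fun i => D (cv G 1 i) := funext fun i => (h4 i 0).trans (cD_coeff D G i _)
  rw [← h5, ← gna_cv]
  exact gna_sec hS h h3 (cD_tan h.on D') (a := 1)
    (fun i k e => (h4 i k).trans (gna_cD h D i _ e)) (gna_cD' h h2) le_rfl

theorem gna_van (hS : S.Ok t n m) (h : S.LC 1 G)
    (hz : ∀ v, S.Tan (cv G 0) v → ∃ D : Derivation ℂ W W, (fun i => D (cv G 0 i)) = v)
    (hu : S.Tan G u) {a k : ℕ} (h1 : ∀ i k, S.w i < k + a → (u i).coeff k = 0)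
    (h2 : ∀ j < k, cv u j = 0) (h3 : 2 ≤ k + a) : cv u k = 0 := by
  obtain ⟨u', h4, h5⟩ := gna_div hu h2
  have h6 : cv u k = cv u' 0 := funext fun i => by
    simp only [cv, h5, zero_add]
  have h7 := h4.ev 0
  rw [(ev_zero G).1, (ev_zero u').1] at h7
  rw [h6]
  refine om_nondeg hS h.cv_on.1 h.cv_on.2.1 h7 fun v hv => ?_
  obtain ⟨D, rfl⟩ := hz v hv
  rw [← gna_cv]
  exact gna_sec hS h (cD_tan h.on D) h4 (gna_cD h D) (b := k + a)
    (fun i j e => (h5 i j).trans (h1 i _ (by omega))) (by omega)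

theorem gna_jet (hS : S.Ok t n m) (h : S.LC 1 G)
    (hz : ∀ v, S.Tan (cv G 0) v → ∃ D : Derivation ℂ W W, (fun i => D (cv G 0 i)) = v)
    (h0 : ∀ i, D (cv G 0 i) = 0) :
    (∀ i, D (S.top 1 G i) = 0) ↔ ∀ i, D (cv G 1 i) = 0 := by
  have h1 : cv (S.cD D G) 0 = 0 := (gna_cv D 0).trans (funext h0)
  refine ⟨fun h2 => congrFun ((gna_cv D 1).symm.trans (gna_van hS h hz (cD_tan h.on D)
    (gna_cD' h h2) (fun j hj => Nat.lt_one_iff.1 hj ▸ h1) le_rfl)), fun h2 i => ?_⟩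
  have h3 : ∀ k, cv (S.cD D G) k = 0 := fun k => by
    induction k using Nat.strong_induction_on with
    | _ k ih =>
      rcases k with _ | _ | k
      · exact h1
      · exact (gna_cv D 1).trans (funext h2)
      · exact gna_van hS h hz (cD_tan h.on D) (gna_cD h D) ih (by omega)
  exact (cD_coeff D G i _).symm.trans (congrFun (h3 _) i)

end Vale.Agent.P292
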