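import Vale.Agent.P292.C.Rig

/-! P292 C/Good: good reduction of conics. -/

open Polynomial Set Matrix

set_option linter.unusedSectionVars false

noncomputable section

namespace Vale.Agent.P292

open Vale.Agent.P271 Vale.Agent.P276

variable {K : Type} [Field K] [Algebra ℂ K] {N n m : ℕ} {t : Fin (N + 1) → K} {S : Cn K N}
  {W : Type} [Field W] [Algebra ℂ W]

variable {W' κ : Type} [Field W'] [Algebra ℂ W'] [Field κ] [Algebra ℂ κ] {δ : ℕ}
  {G R₁ R₂ : Fin S.M → W[X]} {O : ValuationSubring W} {A Y : Set W}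

theorem cgo_cv (P : Place ℂ W κ) {u : W} {R : Fin S.M → κ[X]} {x' : Fin S.M → κ}
    (h : P.RedP (dil u G) R) (hx : P.RedV (cv G 0) x') : cv R 0 = x' := funext fun i => by
  have h1 := h i 0
  rw [coeff_dil, pow_zero, one_mul] at h1
  exact h1.unique (hx i)

variable [IsAlgClosed W]

theorem cgo_lc (hS : S.Ok t n m) (h : S.On G) (hd : ∀ i, (G i).natDegree ≤ 2 * S.w i)
    (h0 : cv G 0 ≠ 0) (h0' : S.top 2 G ≠ 0) (hA : A.Finite) (h1 : pj (S.top 2 G ∘ S.e0) ⊆ cl A)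
    (h2 : rk A + (2 * n + 1) ≤ rk (A ∪ pj (cv G 0 ∘ S.e0))) : S.LC 2 G := by
  refine ⟨h, hd, fun s hs => ?_, h0'⟩
  obtain ⟨R, k1, k2, k3⟩ := split_base (δ := 1) hS h hd hs
  have hs0 : -s ≠ 0 := neg_ne_zero.2 fun h3 => h0 (by rw [← (ev_zero G).1, ← h3, hs])
  have e1 : cv G 0 = S.sc (-s) (cv R 0) := funext fun i => by
    change (G i).coeff 0 = (-s) ^ S.w i * (R i).coeff 0
    rw [k3, mul_coeff_zero, coeff_zero_eq_eval_zero, eval_pow, eval_sub, eval_X, eval_C, zero_sub]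
  have e2 : S.top 2 G = S.top 1 R := funext fun i => by
    change (G i).coeff (2 * S.w i) = (R i).coeff (1 * S.w i)
    have hm := (monic_X_sub_C s).pow (S.w i)
    have hn : ((X - C s) ^ S.w i).natDegree = S.w i := by
      rw [natDegree_pow, natDegree_X_sub_C, mul_one]
    rw [k3, show 2 * S.w i = S.w i + 1 * S.w i by omega,
      coeff_mul_add_eq_of_natDegree_le hn.le (k2 i)]
    nth_rw 2 [← hn]
    rw [hm.coeff_natDegree, one_mul]
  have hq : S.QL R := ⟨k1, k2, fun h3 => h0 (by rw [e1, h3]; exact funext fun _ => mul_zero _),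
    e2 ▸ h0'⟩
  have h3 := (ql_rk hS hq hA).1 (e2 ▸ h1)
  rw [e1, pj_sc_e0 hS hs0] at h2
  omega

/-- C9: good reduction when one end stays generic over the other. -/
theorem good_red [IsAlgClosed κ] (hS : S.Ok t n m) (h : S.LC 2 G) (P : Place ℂ W κ)
    {x' y' : Fin S.M → κ} (hx : P.RedV (cv G 0) x') (hy : P.RedV (S.top 2 G) y') (h0 : y' ≠ 0)
    {B : Set κ} (hB : B.Finite) (h1 : pj (y' ∘ S.e0) ⊆ cl B)
    (h2 : rk B + (2 * n + 1) ≤ rk (B ∪ pj (x' ∘ S.e0))) :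
    ∃ G' : Fin S.M → κ[X], P.RedP G G' ∧ S.LC 2 G' ∧ S.Av G' ≠ 0 := by
  have hx0 : x' ≠ 0 := fun h3 => by
    have h4 : rk (B ∪ pj (x' ∘ S.e0)) ≤ rk B := by
      refine rk_mono hB (union_subset (subset_cl _) ?_)
      rintro _ ⟨i, j, rfl⟩
      rw [h3, Function.comp_apply, Pi.zero_apply, zero_div]
      exact zero_mem _
    omega
  rcases np_ql hS h P ((pv_red P hx).2 hx0) ((pv_red P hy).2 h0) with
    h3 | ⟨u, R₁, R₂, -, -, k3, k4, k5, k6, k7⟩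
  · obtain ⟨G', hG⟩ := P.exists_redP h3
    have e1 : cv G' 0 = x' := funext fun i => (hG i 0).unique (hx i)
    have e2 : S.top 2 G' = y' := funext fun i => (hG i _).unique (hy i)
    have h4 : S.LC 2 G' := cgo_lc hS (red_onP P h.on hG)
      (fun i => (hG.natDegree_le i).trans (h.deg i)) (e1 ▸ hx0) (e2 ▸ h0) hB (e2 ▸ h1) (e1 ▸ h2)
    exact ⟨G', hG, h4, con_ne hS h4 hB (e2 ▸ h1) (e1 ▸ h2)⟩
  · have e1 := cgo_cv P k3 hx
    have e2 := cgo_cv P k4 (x' := y') (by rw [cv_rev]; exact hy)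
    have hf := hB.union (pj_finite (S.top 1 R₂ ∘ S.e0))
    have h4 := (ql_rk hS k7 hB).2 (e2 ▸ h1)
    have h5 := (ql_rk hS k6 hf).1 (k5 ▸ subset_union_right.trans (subset_cl _))
    have h6 : rk (B ∪ pj (x' ∘ S.e0)) ≤
        rk (B ∪ pj (S.top 1 R₂ ∘ S.e0) ∪ pj (cv R₁ 0 ∘ S.e0)) := by
      rw [e1]
      exact rk_mono (hf.union (pj_finite _))
        ((union_subset_union_left _ subset_union_left).trans (subset_cl _))
    omega

theorem cgo_deg (hS : S.Ok t n m) (h1 : S.QL R₁) (h2 : S.QL R₂) (ht : S.top 1 R₁ = S.top 1 R₂)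
    {c : W} (hc : c ≠ 0) (h : S.top 1 R₁ = S.sc c (cv R₁ 0)) :
    rk (pj (cv R₁ 0 ∘ S.e0) ∪ pj (cv R₂ 0 ∘ S.e0)) ≤ 4 * n := by
  have h3 := (ql_rk hS h2 (pj_finite (cv R₁ 0 ∘ S.e0))).1 (by
    rw [← ht, h, pj_sc_e0 hS hc]
    exact subset_cl _)
  have h4 : S.On (cv R₁ 0) := (ev_zero R₁).1 ▸ h1.on.ev 0
  have h5 := rk_pj_le hS.fano (h4.on0 hS)
  have h6 := hS.npos
  omega

theorem no_break [IsAlgClosed κ] (hS : S.Ok t n m) (h : S.LC 2 G) (P : Place ℂ W κ)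
    {x' y' : Fin S.M → κ} (hx : P.RedV (cv G 0) x') (hy : P.RedV (S.top 2 G) y') (h0 : x' ≠ 0)
    (h0' : y' ≠ 0) (h1 : ∀ R₁ R₂ : Fin S.M → κ[X], ¬ S.Pair n R₁ R₂)
    (h2 : 4 * n + 1 ≤ rk (pj (x' ∘ S.e0) ∪ pj (y' ∘ S.e0))) : ∀ a ∈ cf G, a ∈ P.O := by
  rcases np_ql hS h P ((pv_red P hx).2 h0) ((pv_red P hy).2 h0') with
    h3 | ⟨u, R₁, R₂, -, -, k3, k4, k5, k6, k7⟩
  · exact h3
  · have e1 := cgo_cv P k3 hx
    have e2 := cgo_cv P k4 (x' := y') (by rw [cv_rev]; exact hy)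
    rw [← e1, ← e2] at h2
    exfalso
    rcases ql_or hS k6 with l1 | ⟨c, hc, l1⟩
    · rcases ql_or hS k7 with l2 | ⟨c, hc, l2⟩
      · exact h1 R₁ R₂ ⟨l1, l2, k5, h2⟩
      · have h4 := cgo_deg hS k7 k6 k5.symm hc l2
        rw [union_comm] at h4
        omega
    · have h4 := cgo_deg hS k6 k7 k5 hc l1
      omega

end Vale.Agent.P292
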