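import Vale.Agent.P292.C.BD

/-! P292 C/L1 (task, curves, sub-lead helper1). Helper names start with `cl1_`.
Plan. `cu_basis`: a maximal `k` with `Indep (cl A) (range y) k` (`rel_iff_rk`) gives `u : Fin k → W` in `range y`, algebraically independent over `cl A`, with `range y ⊆ cl (A ∪ range u)` (`sub_cl_of_rk`, `ai_iff_rk`); `exists_der_kill` gives the dual `D`. For `D₀` killing `cl A`, `D₀ - ∑ j, D₀ (u j) • D j` kills `A ∪ range u`, hence `cl (A ∪ range u)` (`der_kill`). Stability: `D j` maps `A ∪ range u` into `{0, 1}`, `der_mem`, `cl_le`. `cu_rank`: `li_der` and `rk_of_der` (take a basis of `Ud A y`, `Module.finBasis`). `cu_ker`: factor through the quotient, `f = f' ∘ g.rangeRestrict` (`LinearMap.exists_rightInverse_of_surjective g.rangeRestrict`), `Submodule.finrank_map_le`. `cu_perp`: `om_form`, `LinearMap.BilinForm.finrank_orthogonal`, or `om_dim` with `V = U` and the orthogonal. `cu_der_om`: `tan_iff`, `om_pm`, `D` kills the entries of `pm z` (`der_kill`,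 or `Derivation.apply_aeval_eq`-type induction). -/

open Polynomial Set Matrix

noncomputable section

namespace Vale.Agent.P292

open Vale.Agent.P271 Vale.Agent.P276

variable {K : Type} [Field K] [Algebra ℂ K] {N n m : ℕ} {t : Fin (N + 1) → K} {S : Cn K N}
  {W : Type} [Field W] [Algebra ℂ W]

variable {W' κ : Type} [Field W'] [Algebra ℂ W'] [Field κ] [Algebra ℂ κ] {δ : ℕ}
  {G R₁ R₂ v v' : Fin S.M → W[X]} {O : ValuationSubring W} {A Y : Set W}

theorem cl1_sum {k : ℕ} (c : Fin k → W) (D : Fin k → Derivation ℂ W W) (a : W) :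
    (∑ i, c i • D i) a = ∑ i, c i * D i a := by
  have h : ∀ T : Finset (Fin k), (∑ i ∈ T, c i • D i) a = ∑ i ∈ T, c i * D i a := by
    intro T
    induction T using Finset.induction_on with
    | empty => simp
    | insert i T hi ih => rw [Finset.sum_insert hi, Finset.sum_insert hi, Derivation.add_apply, ih]; simp
  exact h _

theorem cu_basis {τ : Type} [Fintype τ] (hA : A.Finite) (y : τ → W) :
    ∃ (r : ℕ) (D : Fin r → Derivation ℂ W W),
      (∀ j, (∀ a ∈ cl A, D j a = 0) ∧ ∀ a ∈ cl (A ∪ range y), D j a ∈ cl (A ∪ range y)) ∧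
      ∀ D₀ : Derivation ℂ W W, (∀ a ∈ cl A, D₀ a = 0) →
        ∃ c : Fin r → W, ∀ a ∈ cl (A ∪ range y), D₀ a = ∑ j, c j * D j a := by
  classical
  obtain ⟨k, a, ha, hai, -, hsub⟩ := rel_basis hA (finite_range y)
  obtain ⟨D, hD1, hD2⟩ := exists_der_kill hai
  have hcl : (cl (A ∪ range y) : Set W) ⊆ cl (A ∪ range a) :=
    cl_le (union_subset (subset_union_left.trans (subset_cl _)) hsub)
  have hcl' : (cl (A ∪ range a) : Set W) ⊆ cl (A ∪ range y) :=
    cl_mono (union_subset_union_right _ (range_subset_iff.2 ha))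
  refine ⟨k, D, fun j => ⟨hD1 j, fun x hx => hcl' (der_mem ?_ x (hcl hx))⟩,
    fun D₀ h0 => ⟨fun j => D₀ (a j), fun x hx => ?_⟩⟩
  · rintro b (hb | ⟨i, rfl⟩)
    · rw [hD1 j b (subset_cl A hb)]
      exact zero_mem _
    · rw [hD2]
      split_ifs
      · exact one_mem _
      · exact zero_mem _
  · have h2 := der_kill (A := A ∪ range a) (D := D₀ - ∑ j, D₀ (a j) • D j) ?_ x (hcl hx)
    · rw [Derivation.sub_apply, cl1_sum] at h2
      exact sub_eq_zero.1 h2
    · rintro b (hb | ⟨i, rfl⟩)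
      · rw [Derivation.sub_apply, cl1_sum, h0 b (subset_cl A hb)]
        simp [fun j => hD1 j b (subset_cl A hb)]
      · rw [Derivation.sub_apply, cl1_sum]
        simp [hD2]

theorem cu_rank {τ : Type} [Fintype τ] (hA : A.Finite) (y : τ → W) :
    rk A + Module.finrank W (Ud A y) = rk (A ∪ range y) := by
  apply le_antisymm
  · let b := Module.finBasis W (Ud A y)
    choose D hD1 hD2 using fun i => (b i).2
    refine rk_of_der hA D hD1 ?_
    have h2 := b.linearIndependent.map' (Ud A y).subtype (Submodule.ker_subtype _)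
    have e : (fun i j => D i (y j)) = (Ud A y).subtype ∘ b := by
      funext i j
      exact hD2 i j
    rw [e]
    exact h2
  · have h1 : rk A ≤ rk (A ∪ range y) :=
      rk_mono (hA.union (finite_range y)) (subset_union_left.trans (subset_cl _))
    obtain ⟨k, hk⟩ := Nat.exists_eq_add_of_le h1
    obtain ⟨D, hD1, hD2⟩ := li_der (y := y) (k := k) hA hk.ge
    have h2 : LinearIndependent W fun i => (⟨fun j => D i (y j), D i, hD1 i, fun _ => rfl⟩ : Ud A y) :=
      LinearIndependent.of_comp (Ud A y).subtype hD2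
    have h3 := h2.fintype_card_le_finrank
    rw [Fintype.card_fin] at h3
    omega

theorem cu_ker {U V V' : Type} [AddCommGroup U] [Module W U] [AddCommGroup V] [Module W V]
    [AddCommGroup V'] [Module W V'] [FiniteDimensional W V'] (T : Submodule W U) (f : U →ₗ[W] V)
    (g : U →ₗ[W] V') (h : ∀ u ∈ T, g u = 0 → f u = 0) :
    Module.finrank W (T.map f) ≤ Module.finrank W (T.map g) := by
  obtain ⟨s, hs⟩ := (g.submoduleMap T).exists_rightInverse_of_surjective
    (LinearMap.range_eq_top.2 (g.submoduleMap_surjective T))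
  refine LinearMap.finrank_le_finrank_of_surjective (f := f.submoduleMap T ∘ₗ s) ?_
  rintro ⟨_, u, hu, rfl⟩
  refine ⟨g.submoduleMap T ⟨u, hu⟩, Subtype.ext ?_⟩
  have h1 : g.submoduleMap T (s (g.submoduleMap T ⟨u, hu⟩)) = g.submoduleMap T ⟨u, hu⟩ :=
    LinearMap.congr_fun hs _
  have h2 : g (s (g.submoduleMap T ⟨u, hu⟩)) = g u := congrArg Subtype.val h1
  have h3 := h _ (T.sub_mem (s (g.submoduleMap T ⟨u, hu⟩)).2 hu) (by rw [map_sub, h2, sub_self])
  rw [map_sub, sub_eq_zero] at h3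
  exact h3

theorem cu_perp (hS : S.Ok t n m) {z : Fin S.M → W} (h : S.On z) (h0 : z ≠ 0)
    {U : Submodule W (Fin S.M → W)} (hU : U ≤ S.TanS z)
    (h1 : ∀ x, S.Tan z x → (∀ u ∈ U, S.om z u x = 0) → x = 0) : S.TanS z ≤ U := by
  obtain ⟨B, hB, -, hBe⟩ := om_form hS h h0
  have e1 := B.finrank_orthogonal hB (U.comap (S.TanS z).subtype)
  have e2 : B.orthogonal (U.comap (S.TanS z).subtype) = ⊥ := by
    rw [eq_bot_iff]
    intro x hx
    refine (Submodule.mem_bot W).2 (Subtype.ext (h1 x x.2 fun u hu => ?_))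
    exact (hBe ⟨u, hU hu⟩ x).symm.trans (hx ⟨u, hU hu⟩ hu)
  rw [e2, finrank_bot] at e1
  have e3 : U.comap (S.TanS z).subtype = ⊤ :=
    Submodule.eq_top_of_finrank_eq (le_antisymm (Submodule.finrank_le _) (by omega))
  intro v hv
  have e4 : (⟨v, hv⟩ : S.TanS z) ∈ U.comap (S.TanS z).subtype := e3 ▸ Submodule.mem_top
  exact e4

theorem cu_ud_gen (hS : S.Ok t n m) {z : Fin S.M → W} (h : S.On z) (h0 : z ≠ 0) (hA : A.Finite)
    (h1 : rk A + (2 * n + 2) ≤ rk (A ∪ range z)) : Ud A z = S.TanS z := by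
  have hle : Ud A z ≤ S.TanS z := by
    rintro u ⟨D, -, hD⟩
    have e : u = fun i => D (z i) := funext fun i => (hD i).symm
    rw [e]
    exact h.der D
  have e1 := cu_rank hA z
  have e2 := hS.dim W z h h0
  exact Submodule.eq_of_le_of_finrank_le hle (by omega)

theorem cu_der_om (hS : S.Ok t n m) {z x x' : Fin S.M → W} (h : S.On z) (h0 : z ≠ 0)
    (hx : S.Tan z x) (hx' : S.Tan z x') {D : Derivation ℂ W W} (hD : ∀ i, D (z i) = 0) :
    S.Tan z (fun i => D (x i)) ∧
      D (S.om z x x') = S.om z (fun i => D (x i)) x' + S.om z x fun i => D (x' i) := by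
  have key : ∀ ξ : Fin S.M → W, (fun i => D ((S.pm z *ᵥ ξ) i)) = S.pm z *ᵥ fun i => D (ξ i) := by
    intro ξ
    funext i
    simp only [mulVec, dotProduct, map_sum, Derivation.leibniz, smul_eq_mul]
    refine Finset.sum_congr rfl fun j _ => ?_
    have h2 : D (S.pm z i j) = 0 :=
      der_kill (A := range z) (by rintro _ ⟨l, rfl⟩; exact hD l) _ (egn_mem (subset_cl _) _)
    rw [h2, mul_zero, add_zero]
  obtain ⟨ξ, rfl⟩ := (tan_iff hS h h0).1 hx
  obtain ⟨ξ', rfl⟩ := (tan_iff hS h h0).1 hx'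
  have h3 : S.Tan z fun i => D ((S.pm z *ᵥ ξ) i) := by
    rw [key]
    exact (tan_iff hS h h0).2 ⟨_, rfl⟩
  refine ⟨h3, ?_⟩
  rw [key ξ', om_pm hS h h0 hx, om_pm hS h h0 hx, om_pm hS h h0 h3]
  simp only [dotProduct, map_sum, Derivation.leibniz, smul_eq_mul, ← Finset.sum_add_distrib]
  refine Finset.sum_congr rfl fun j _ => ?_
  ring

end Vale.Agent.P292
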