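import Vale.Agent.P292.C.Lift0
import Vale.Agent.P276.E.Gen

/-! P292 C/Lift (task). Helper names start with `clif_`. Lifting curves.
`exists_LC0`: `G` from `lift_pol`, `δ` from `exists_slope`; `ev G a ≠ 0` since `ev G a ∘ e0 = F (a)`; `hS.uniq` for `cv G 0` and `z` gives `ζ` with `ζ ^ d = 1` (so `ζ ≠ 0`, `d ≠ 0` by `fano.pos`), take `scP ζ G` (`Cn.LC.scP`, `hS.we0`). `exists_LC`: descend to `M = cl (cf F)` (algebraically closed by `cl_closed`): `F j = (F₀ j).map (algebraMap M W)` (see `gen_at` in P276 E/Gen), `z i ∈ M` by `sub_cl_e0` and `cl_le`; `Curve0 t F₀` and `On z₀` by injectivity; apply `exists_LC0` over `M` and `Cn.LC.map` with `M.val`. -/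

open Polynomial Set Matrix

set_option linter.unusedSectionVars false

noncomputable section

namespace Vale.Agent.P292

open Vale.Agent.P271 Vale.Agent.P276

variable {K : Type} [Field K] [Algebra ℂ K] {N n m : ℕ} {t : Fin (N + 1) → K} {S : Cn K N}
  {W : Type} [Field W] [Algebra ℂ W]

variable {W' κ : Type} [Field W'] [Algebra ℂ W'] [Field κ] [Algebra ℂ κ] {δ : ℕ}
  {G R₁ R₂ : Fin S.M → W[X]} {O : ValuationSubring W} {A Y : Set W}

theorem exists_LC0 [IsAlgClosed W] (hS : S.Ok t n m) {F : Fin (N + 1) → W[X]} (hF : Curve0 t F)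
    {z : Fin S.M → W} (hz : S.On z) (h0 : z ∘ S.e0 = cv F 0) : ∃ (δ : ℕ) (G : Fin S.M → W[X]),
      S.LC δ G ∧ G ∘ S.e0 = F ∧ cv G 0 = z := by
  obtain ⟨G, hG, hGF⟩ := lift_pol hS hF
  have hev : ∀ a, S.ev G a ≠ 0 := fun a h => by
    obtain ⟨j, hj⟩ := hF.2 a
    refine hj ?_
    rw [← hGF]
    exact congrFun h (S.e0 j)
  have hG0 : G ≠ 0 := fun h => hev 0 (by
    rw [h]
    funext i
    exact eval_zero)
  obtain ⟨δ, hd, ht⟩ := exists_slope hS hG hG0
  have hL : S.LC δ G := ⟨hG, hd, hev, ht⟩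
  obtain ⟨h1, h2, -⟩ := hL.cv_on
  obtain ⟨ζ, hζ, hz'⟩ := hS.uniq W (cv G 0) z h1 hz h2 (by rw [h0, ← hGF]; rfl)
  have hζ0 : ζ ≠ 0 := by
    rintro rfl
    rw [zero_pow (Nat.mul_ne_zero hS.fano.pos.ne' (Nat.succ_ne_zero n))] at hζ
    exact zero_ne_one hζ
  obtain ⟨h3, h4, -⟩ := hL.scP hζ0
  refine ⟨δ, S.scP ζ G, h3, funext fun j => ?_, by rw [h4, hz']⟩
  show C (ζ ^ S.w (S.e0 j)) * G (S.e0 j) = F j
  rw [hS.we0, hζ, C_1, one_mul]
  exact congrFun hGF j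

theorem clif_curve {V : Type} [Field V] [Algebra ℂ V] (f : V →ₐ[ℂ] W) {F₀ : Fin (N + 1) → V[X]}
    (hF : Curve0 t fun j => (F₀ j).map (f : V →+* W)) : Curve0 t F₀ := by
  refine ⟨fun d P hP h0 => ?_, fun a => ?_⟩
  · have h1 := MvPolynomial.comp_aeval_apply F₀ (mapAlgHom f) P
    simp only [coe_mapAlgHom] at h1
    rw [hF.1 d P hP h0] at h1
    exact (Polynomial.map_eq_zero_iff (f : V →+* W).injective).1 h1
  · obtain ⟨j, hj⟩ := hF.2 ((f : V →+* W) a)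
    refine ⟨j, fun h => hj ?_⟩
    show ((F₀ j).map (f : V →+* W)).eval ((f : V →+* W) a) = 0
    rw [eval_map, eval₂_at_apply, h, map_zero]

/-- C1: lifting curves (Kummer extension unramified everywhere, by `free`). -/
theorem exists_LC [IsAlgClosed W] (hS : S.Ok t n m) {F : Fin (N + 1) → W[X]} (hF : Curve0 t F)
    {z : Fin S.M → W} (hz : S.On z) (h0 : z ∘ S.e0 = cv F 0) : ∃ (δ : ℕ) (G : Fin S.M → W[X]),
      S.LC δ G ∧ G ∘ S.e0 = F ∧ cv G 0 = z ∧ cf G ⊆ cl (cf F) := by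
  have := cl_closed (cf F)
  have hl : ∀ j, ∃ g : (cl (cf F))[X], g.map ((cl (cf F)).val : cl (cf F) →+* W) = F j :=
    fun j => (mem_lifts _).1 ((lifts_iff_coeff_lifts _).2 fun i =>
      ⟨⟨(F j).coeff i, subset_cl _ ⟨j, i, rfl⟩⟩, rfl⟩)
  choose F₀ hF₀ using hl
  have hzm : ∀ i, z i ∈ cl (cf F) := fun i => by
    refine cl_le ?_ (sub_cl_e0 hS hz (mem_range_self i))
    rw [h0]
    rintro _ ⟨j, rfl⟩
    exact subset_cl _ ⟨j, 0, rfl⟩
  have hc : Curve0 t F₀ := clif_curve (cl (cf F)).val (by rw [funext hF₀]; exact hF)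
  have hz0 : S.On fun i => (⟨z i, hzm i⟩ : cl (cf F)) :=
    cli0_on (cl (cf F)).val Subtype.val_injective hz
  obtain ⟨δ, G, hL, hGF, hGz⟩ := exists_LC0 hS hc hz0 (funext fun j => Subtype.ext (by
    have h1 := congrFun h0 j
    have h2 := congrArg (fun p => coeff p 0) (hF₀ j)
    simp only [coeff_map] at h2
    exact h1.trans h2.symm))
  refine ⟨δ, _, hL.map (cl (cf F)).val, funext fun j => ?_, funext fun i => ?_, ?_⟩
  · rw [← hF₀ j, ← hGF]
    rfl
  · show ((G i).map _).coeff 0 = z i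
    rw [coeff_map]
    exact congrArg Subtype.val (congrFun hGz i)
  · rintro _ ⟨i, k, rfl⟩
    rw [coeff_map]
    exact ((G i).coeff k).2

end Vale.Agent.P292
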