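import Vale.Agent.P292.B.Main
import Vale.Agent.P276.E.RkA

/-! P292 C/Spec (task). Helper names start with `cspe_`. Integral elements over `W[X]`.
`exists_spec`: `Ideal.exists_ideal_over_maximal_of_isIntegral` over the kernel of `evalRingHom a` gives a maximal ideal `M`; `B ⧸ M` is a field, integral over `W` (the image of `W[X]` is the image of `W`), so `algebraMap W (B ⧸ M)` is bijective (`IsAlgClosed.algebraMap_bijective_of_isIntegral`). `lift_int`: if `y i` is not in the integral closure then a valuation subring contains the integral closure and not `y i` (`Subring.exists_le_valuationSubring_of_isIntegrallyClosedIn` or `iInf_valuationSubring_superset`; see `int_of_ov`, `mem_cl_of_val`, `ov_empty` in P276 E/RkA), contradiction with `hS.int`. `pol_of_fix`: `InfiniteGalois.mem_bot_iff_fixed` (characteristic zero, `IsAlgClosure.isGalois`-like instances), then `IsIntegrallyClosed.algebraMap_eq_of_integral`, `isIntegral_algebraMap_iff`. -/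

open Polynomial Set Matrix

set_option linter.unusedSectionVars false

noncomputable section

namespace Vale.Agent.P292

open Vale.Agent.P271 Vale.Agent.P276

variable {K : Type} [Field K] [Algebra ℂ K] {N n m : ℕ} {t : Fin (N + 1) → K} {S : Cn K N}
  {W : Type} [Field W] [Algebra ℂ W]

variable {W' κ : Type} [Field W'] [Algebra ℂ W'] [Field κ] [Algebra ℂ κ] {δ : ℕ}
  {G R₁ R₂ : Fin S.M → W[X]} {O : ValuationSubring W} {A Y : Set W}

theorem exists_spec [IsAlgClosed W] {B : Type} [CommRing B] [IsDomain B] [Algebra W[X] B]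
    [Algebra ℂ B] [IsScalarTower ℂ W[X] B] [Algebra.IsIntegral W[X] B]
    (hi : Function.Injective (algebraMap W[X] B)) (a : W) :
    ∃ φ : B →ₐ[ℂ] W, ∀ p : W[X], φ (algebraMap W[X] B p) = p.eval a := by
  have hm : (RingHom.ker (evalRingHom a)).IsMaximal :=
    RingHom.ker_isMaximal_of_surjective _ fun b => ⟨C b, eval_C⟩
  obtain ⟨M, hM, h1⟩ := Ideal.exists_ideal_over_maximal_of_isIntegral (S := B)
    (RingHom.ker (evalRingHom a)) (by rw [(RingHom.injective_iff_ker_eq_bot _).1 hi]; exact bot_le)
  let g : W →+* B ⧸ M := (Ideal.Quotient.mk M).comp ((algebraMap W[X] B).comp C)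
  have h2 : ∀ p : W[X], Ideal.Quotient.mk M (algebraMap W[X] B p) = g (p.eval a) := fun p => by
    refine Ideal.Quotient.eq.2 ?_
    change algebraMap W[X] B p - algebraMap W[X] B (C (p.eval a)) ∈ M
    rw [← map_sub, ← Ideal.mem_comap, h1, RingHom.mem_ker]
    simp
  have h3 : (Ideal.Quotient.mk M).comp (algebraMap W[X] B) = g.comp (evalRingHom a) :=
    RingHom.ext h2
  let := g.toAlgebra
  have : Algebra.IsIntegral W (B ⧸ M) := ⟨fun x => by
    obtain ⟨b, rfl⟩ := Ideal.Quotient.mk_surjective x
    obtain ⟨q, hq, h0⟩ := Algebra.IsIntegral.isIntegral (R := W[X]) b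
    refine ⟨q.map (evalRingHom a), hq.map _, ?_⟩
    rw [eval₂_map]
    change eval₂ (g.comp (evalRingHom a)) _ q = 0
    rw [← h3, ← hom_eval₂, h0, map_zero]⟩
  let e : W ≃+* B ⧸ M := RingEquiv.ofBijective g IsAlgClosed.algebraMap_bijective_of_isIntegral
  have h4 : ∀ p : W[X], e.symm (Ideal.Quotient.mk M (algebraMap W[X] B p)) = p.eval a :=
    fun p => (congrArg e.symm (h2 p)).trans (e.symm_apply_apply _)
  refine ⟨⟨e.symm.toRingHom.comp (Ideal.Quotient.mk M), fun c => ?_⟩, h4⟩
  rw [IsScalarTower.algebraMap_apply ℂ W[X] B]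
  exact (h4 _).trans eval_C

theorem lift_int (hS : S.Ok t n m) {R V : Type} [CommRing R] [Field V] [Algebra ℂ R] [Algebra R V]
    [Algebra ℂ V] [IsScalarTower ℂ R V] {y : Fin S.M → V} (h : S.On y)
    (h1 : ∀ j, y (S.e0 j) ∈ range (algebraMap R V)) (i : Fin S.M) : IsIntegral R (y i) := by
  refine int_of_val (algebraMap R V) fun O hO => hS.int V O (ov_empty fun c => ?_) y h
    (fun j => ?_) i
  · rw [IsScalarTower.algebraMap_apply ℂ R V]
    exact hO _
  · obtain ⟨r, hr⟩ := h1 j
    exact hr ▸ hO r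

theorem pol_of_fix {x : AlgebraicClosure (RatFunc W)}
    (h : ∀ σ : AlgebraicClosure (RatFunc W) ≃ₐ[RatFunc W] AlgebraicClosure (RatFunc W), σ x = x) :
    (∃ r s : W[X], r ≠ 0 ∧ algebraMap _ _ r * x = algebraMap _ _ s) ∧
      (IsIntegral W[X] x → ∃ p : W[X], algebraMap _ _ p = x) := by
  have : CharZero W := charZero_of_injective_algebraMap (algebraMap ℂ W).injective
  have : CharZero (RatFunc W) := charZero_of_injective_algebraMap
    (algebraMap W (RatFunc W)).injective
  obtain ⟨f, rfl⟩ := (InfiniteGalois.mem_range_algebraMap_iff_fixed (k := RatFunc W) x).2 h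
  have e : ∀ p : W[X], algebraMap W[X] (AlgebraicClosure (RatFunc W)) p =
      algebraMap (RatFunc W) _ (algebraMap W[X] (RatFunc W) p) := fun p =>
    IsScalarTower.algebraMap_apply _ _ _ p
  refine ⟨⟨f.denom, f.num, f.denom_ne_zero, ?_⟩, fun hx => ?_⟩
  · have h1 := (div_eq_iff (RatFunc.algebraMap_ne_zero f.denom_ne_zero)).1 f.num_div_denom
    rw [e, e, h1, map_mul, mul_comm]
  · obtain ⟨p, hp⟩ := IsIntegrallyClosed.algebraMap_eq_of_integral
      ((isIntegral_algebraMap_iff (algebraMap (RatFunc W) _).injective).1 hx)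
    exact ⟨p, by rw [e, hp]⟩

end Vale.Agent.P292
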