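import Vale.Agent.P292.C.Slope
import Vale.Agent.P292.C.Spec

/-! P292 C/Lift0 (task). Helper names start with `cli0_`. The polynomial lift (helper97 fills this file). -/

open Polynomial Set Matrix

set_option linter.unusedSectionVars false

noncomputable section

namespace Vale.Agent.P292

open Vale.Agent.P271 Vale.Agent.P276

variable {K : Type} [Field K] [Algebra ℂ K] {N n m : ℕ} {t : Fin (N + 1) → K} {S : Cn K N}
  {W : Type} [Field W] [Algebra ℂ W]

variable {W' κ : Type} [Field W'] [Algebra ℂ W'] [Field κ] [Algebra ℂ κ] {δ : ℕ}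
  {G R₁ R₂ : Fin S.M → W[X]} {O : ValuationSubring W} {A Y : Set W}

theorem cli0_on {R R' : Type} [CommRing R] [Algebra ℂ R] [CommRing R'] [Algebra ℂ R']
    (f : R →ₐ[ℂ] R') (hf : Function.Injective f) {z : Fin S.M → R} (h : S.On fun i => f (z i)) :
    S.On z := fun k P hP h0 => hf (by
  rw [MvPolynomial.comp_aeval_apply, h k P hP h0, map_zero])

theorem cli0_root {V : Type} [Field V] [Algebra ℂ V] {ω : V} {d : ℕ} (hd : d ≠ 0) (h : ω ^ d = 1) :
    ∃ c : ℂ, algebraMap ℂ V c = ω := by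
  have h1 : IsIntegral ℂ ω := IsIntegral.of_pow (Nat.pos_of_ne_zero hd) (h ▸ isIntegral_one)
  exact minpoly.mem_range_of_degree_eq_one ℂ ω
    (IsAlgClosed.degree_eq_one_of_irreducible ℂ (minpoly.irreducible h1))

theorem lift_pol [IsAlgClosed W] (hS : S.Ok t n m) {F : Fin (N + 1) → W[X]} (hF : Curve0 t F) :
    ∃ G : Fin S.M → W[X], S.On G ∧ G ∘ S.e0 = F := by
  let V := AlgebraicClosure (RatFunc W)
  let ι : W[X] →ₐ[ℂ] V := IsScalarTower.toAlgHom ℂ W[X] V
  have hι : Function.Injective ι :=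
    (algebraMap (RatFunc W) V).injective.comp (IsFractionRing.injective W[X] (RatFunc W))
  have hd : m * (n + 1) ≠ 0 := mul_ne_zero hS.fano.pos.ne' n.succ_ne_zero
  obtain ⟨y, hy, hy0⟩ := hS.lift V (fun j => ι (F j))
    (fun k P hP h0 => by rw [← MvPolynomial.comp_aeval_apply, hF.1 k P hP h0, map_zero])
    (by
      obtain ⟨j, hj⟩ := hF.2 0
      exact Function.ne_iff.2 ⟨j, (map_ne_zero_iff ι hι).2 fun e => hj (by rw [e, eval_zero])⟩)
  have hy1 : ∀ j, y (S.e0 j) = ι (F j) := congrFun hy0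
  have hy2 : y ≠ 0 := by
    obtain ⟨j, hj⟩ := hF.2 0
    exact Function.ne_iff.2 ⟨S.e0 j, by
      rw [hy1]
      exact (map_ne_zero_iff ι hι).2 fun e => hj (by rw [e, eval_zero])⟩
  have hσ : ∀ (σ : V ≃ₐ[RatFunc W] V) (p : W[X]), σ (ι p) = ι p := fun σ p =>
    σ.commutes (algebraMap W[X] (RatFunc W) p)
  choose ζ hζ hζ' using fun σ : V ≃ₐ[RatFunc W] V => hS.uniq V y (fun i => σ (y i)) hy
    (hy.map (σ.restrictScalars ℂ : V →ₐ[ℂ] V)) hy2 (funext fun j => by
      change y (S.e0 j) = σ (y (S.e0 j))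
      rw [hy1, hσ])
  have hi := lift_int (R := W[X]) hS hy fun j => ⟨F j, (hy1 j).symm⟩
  have key : ∀ a : W, ∃ (η : V) (g : W[X]), g.eval a ≠ 0 ∧ ι g = η ^ (m * (n + 1)) ∧
      ∀ σ : V ≃ₐ[RatFunc W] V, σ η = ζ σ * η := fun a => by
    obtain ⟨φ, hφ⟩ := exists_spec (B := integralClosure W[X] V) (fun p q e => hι
      (congrArg Subtype.val e)) a
    let y' : Fin S.M → integralClosure W[X] V := fun i => ⟨y i, hi i⟩
    have h1 : S.On y' := cli0_on ((integralClosure W[X] V).val.restrictScalars ℂ)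
      Subtype.val_injective hy
    obtain ⟨e, he, he'⟩ := exists_exp hS (h1.map φ) (by
      obtain ⟨j, hj⟩ := hF.2 a
      refine Function.ne_iff.2 ⟨S.e0 j, ?_⟩
      rw [show y' (S.e0 j) = algebraMap W[X] _ (F j) from Subtype.ext (hy1 j), hφ]
      exact hj) hd
    have h2 : ∀ σ : V ≃ₐ[RatFunc W] V, σ (∏ i, y i ^ e i) = ζ σ * ∏ i, y i ^ e i := fun σ => by
      have h3 : ∀ i, σ (y i) = ζ σ ^ S.w i * y i := congrFun (hζ' σ)
      simp only [map_prod, map_pow, h3, mul_pow, Finset.prod_mul_distrib, ← pow_mul',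
        Finset.prod_pow_eq_pow_sum]
      rw [pow_eq_pow_of_modEq he' (hζ σ), pow_one]
    obtain ⟨g, hg⟩ := (pol_of_fix (x := (∏ i, y i ^ e i) ^ (m * (n + 1))) fun σ => by
      rw [map_pow, h2, mul_pow, hζ, one_mul]).2
        (((∏ i, y' i ^ e i) ^ (m * (n + 1))).2.imp fun p hp => by simpa [y'] using hp)
    refine ⟨_, g, ?_, hg, h2⟩
    rw [← hφ, show algebraMap W[X] _ g = (∏ i, y' i ^ e i) ^ (m * (n + 1)) from
      Subtype.ext (by simpa [y'] using hg), map_pow, map_prod]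
    refine pow_ne_zero _ (Finset.prod_ne_zero_iff.2 fun i _ => ?_)
    rw [map_pow]
    by_cases h4 : φ (y' i) = 0
    · rw [he i h4, pow_zero]
      exact one_ne_zero
    · exact pow_ne_zero _ h4
  have hne : ∀ {a : W} {η : V} {g : W[X]}, g.eval a ≠ 0 → ι g = η ^ (m * (n + 1)) → η ≠ 0 :=
    fun h1 h2 e => h1 (by rw [hι (h2.trans (by rw [e, zero_pow hd, map_zero])), eval_zero])
  obtain ⟨η, f, hf, hη, hη'⟩ := key 0
  have h0 := hne hf hη
  obtain ⟨g, rfl⟩ := kummer (f := f) (fun e => hf (by rw [e, eval_zero])) hd fun a => by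
    obtain ⟨η', g, hg, h1, h2⟩ := key a
    have h3 := hne hg h1
    obtain ⟨r, s, hr, h4⟩ := (pol_of_fix (x := η / η') fun σ => by
      rw [map_div₀, hη', h2, mul_div_mul_left _ _ fun e => by simpa [e, hd] using hζ σ]).1
    refine ⟨r, s, g, hr, hg, hι ?_⟩
    change ι r * _ = ι s at h4
    rw [map_mul, map_mul, map_pow, map_pow, hη, h1, ← h4, ← mul_pow, ← mul_pow, mul_left_comm,
      mul_div_cancel₀ _ h3, mul_comm]
  have h1 : ι g ≠ 0 := fun e => h0 (pow_eq_zero_iff hd |>.1 (by rw [← hη, map_pow, e, zero_pow hd]))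
  obtain ⟨c, hc⟩ := cli0_root (ω := η / ι g) hd (by
    rw [div_pow, ← hη, map_pow, div_self (pow_ne_zero _ h1)])
  have h2 : ∀ σ, ζ σ = 1 := fun σ => mul_right_cancel₀ h0 (by
    rw [← hη', one_mul, ← div_mul_cancel₀ η h1, ← hc, map_mul, hσ]
    exact congrArg (· * ι g) ((σ.restrictScalars ℂ).commutes c))
  choose G hG using fun i => (pol_of_fix (x := y i) fun σ => by
    rw [show σ (y i) = ζ σ ^ S.w i * y i from congrFun (hζ' σ) i, h2, one_pow, one_mul]).2 (hi i)
  exact ⟨G, cli0_on ι hι ((funext hG : (fun i => ι (G i)) = y) ▸ hy),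
    funext fun j => hι ((hG _).trans (hy1 j))⟩

end Vale.Agent.P292
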