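import Vale.Agent.P292.C.Quasi

/-! P292 C/NP (TASK). Newton polygons; `d = m * (n + 1)`.
`np_step`: if some coefficient of `G ∘ e0` is not integral (`int_curve`), take `ρ` with `ρ ^ k₀ = c₀` from `exists_max_root` over the coefficients of positive index, `u = ρ⁻¹`; `dil u G` has integral `e0` part, so is integral (`int_curve`, `on_dil`), `exists_redP`; the reduction `R` is `On` (`red_onP`), `exists_slope` gives `δ'` with nonzero top; `0 < δ'` since the coefficient `k₀` is a unit; `δ' ≤ δ` by the degree bound, `δ' ≠ δ` since `u ^ (δ w)` times an integral element reduces to `0`.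
`np_con`: `np_step` for `G` and for `rev 2 G` give `u`, `u'`; both `sc u z` and `sc u' z` are primitive for `z i = (G i).coeff (w i)` (`pv_red`), so `u ^ d` and `u' ^ d` have the same valuation (`pv_iff`, `PV.unique`, `sc_e0`); if `rev 2 G` were integral so would be `G`. Then `dil u (rev 2 G)` is integral; its reduction has the same top as `R₁`, degree at most `w`, nonzero value at `0`; `ql_or`. Helper names start with `cnp_`. -/

open Polynomial Set Matrix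

set_option linter.unusedSectionVars false

noncomputable section

namespace Vale.Agent.P292

open Vale.Agent.P271 Vale.Agent.P276

variable {K : Type} [Field K] [Algebra ℂ K] {N n m : ℕ} {t : Fin (N + 1) → K} {S : Cn K N}
  {W W' κ : Type} [Field W] [Algebra ℂ W] [Field W'] [Algebra ℂ W'] [Field κ] [Algebra ℂ κ]
  {δ : ℕ} {a b : ℤ} {G R R₁ R₂ v v' : Fin S.M → W[X]} {O : ValuationSubring W} {A B Y : Set W}

variable [IsAlgClosed W]

theorem cnp_coeff {α : Type} (r : W) (F : α → W[X]) (a : α) (k : ℕ) :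
    (dil r F a).coeff k = r ^ k * (F a).coeff k := by
  show ((F a).comp (C 0 + C r * X)).coeff k = _
  rw [C_0, zero_add, comp_C_mul_X_coeff, mul_comm]

theorem cnp_pow (P : Place ℂ W κ) {u : W} (hu : P.O.valuation u < 1) {k : ℕ} (hk : 0 < k) {x : W}
    (hx : x ∈ P.O) : P.Red (u ^ k * x) 0 := by
  rw [Place.red_zero_iff, map_mul, map_pow]
  exact (mul_le_of_le_one_right' ((P.O.valuation_le_one_iff x).2 hx)).trans_lt
    (pow_lt_one' hu hk.ne')

theorem np_step [IsAlgClosed κ] (hS : S.Ok t n m) (h : S.LC δ G) (P : Place ℂ W κ)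
    (h0 : PV P.O (cv G 0)) (h1 : ∀ i, S.top δ G i ∈ P.O) : (∀ a ∈ cf G, a ∈ P.O) ∨
      ∃ (u : W) (R : Fin S.M → κ[X]) (δ' : ℕ), u ≠ 0 ∧ P.O.valuation u < 1 ∧
        P.RedP (dil u G) R ∧ 0 < δ' ∧ δ' < δ ∧ S.On R ∧ (∀ i, (R i).natDegree ≤ δ' * S.w i) ∧
        cv R 0 ≠ 0 ∧ S.top δ' R ≠ 0 := by
  classical
  by_cases hi : ∀ a ∈ cf G, a ∈ P.O
  · exact Or.inl hi
  right
  push Not at hi
  obtain ⟨_, ⟨i₁, k₁, rfl⟩, hk₁⟩ := hi
  let T : Finset (Fin S.M × ℕ) :=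
    Finset.univ ×ˢ Finset.Icc 1 (Finset.univ.sup fun i => (G i).natDegree)
  have hT : ∀ i k, 0 < k → (G i).coeff k ≠ 0 → (i, k) ∈ T := fun i k hk hc =>
    Finset.mem_product.2 ⟨Finset.mem_univ _, Finset.mem_Icc.2 ⟨hk, (le_natDegree_of_ne_zero hc).trans
      (Finset.le_sup (f := fun i => (G i).natDegree) (Finset.mem_univ i))⟩⟩
  have hp : 0 < k₁ := Nat.pos_of_ne_zero fun e => hk₁ (by rw [e]; exact h0.1 i₁)
  have hm : (i₁, k₁) ∈ T := hT _ _ hp fun e => hk₁ (by rw [e]; exact P.O.zero_mem)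
  have hpos : ∀ a ∈ T, 0 < a.2 := fun a ha => (Finset.mem_Icc.1 (Finset.mem_product.1 ha).2).1
  obtain ⟨a₀, ha₀, ρ, hρ, hle⟩ := P.exists_max_root T ⟨_, hm⟩ (fun a => (G a.1).coeff a.2)
    (fun a => a.2) hpos
  have h2 : 1 < P.O.valuation ρ := by
    by_contra h3
    exact hk₁ ((P.O.valuation_le_one_iff _).1 ((hle _ hm).trans (pow_le_one' (not_lt.1 h3) _)))
  have hρ0 : ρ ≠ 0 := fun e => by simp [e] at h2
  have hv0 : P.O.valuation ρ ≠ 0 := (_root_.map_ne_zero _).2 hρ0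
  have hu : P.O.valuation ρ⁻¹ < 1 := by
    rw [map_inv₀]
    exact inv_lt_one_of_one_lt₀ h2
  have hint : ∀ a ∈ cf (dil ρ⁻¹ G), a ∈ P.O := by
    rintro _ ⟨i, k, rfl⟩
    rw [cnp_coeff]
    rcases Nat.eq_zero_or_pos k with rfl | hk
    · rw [pow_zero, one_mul]
      exact h0.1 i
    by_cases hc : (G i).coeff k = 0
    · rw [hc, mul_zero]
      exact P.O.zero_mem
    rw [← P.O.valuation_le_one_iff, map_mul, map_pow, map_inv₀, inv_pow,
      inv_mul_le_iff₀ (pow_pos (zero_lt_iff.2 hv0) k), mul_one]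
    exact hle _ (hT i k hk hc)
  obtain ⟨R, hR⟩ := Place.exists_redP hint
  have hon : S.On R := red_onP P (on_dil h.on _) hR
  have hone : (R a₀.1).coeff a₀.2 = 1 := by
    have e := hR a₀.1 a₀.2
    rw [cnp_coeff, ← hρ, ← mul_pow, inv_mul_cancel₀ hρ0, one_pow] at e
    exact e.unique Place.red_one
  have hR0 : R ≠ 0 := fun e => by simp [e] at hone
  obtain ⟨δ', hd, ht⟩ := exists_slope hS hon hR0
  have hδ : 0 < δ' := Nat.pos_of_ne_zero fun e => by
    have h3 := hd a₀.1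
    rw [e, zero_mul] at h3
    rw [coeff_eq_zero_of_natDegree_lt (h3.trans_lt (hpos _ ha₀))] at hone
    exact zero_ne_one hone
  refine ⟨ρ⁻¹, R, δ', inv_ne_zero hρ0, hu, hR, hδ, ?_, hon, hd, ?_, ht⟩
  · obtain ⟨i, hi⟩ := Function.ne_iff.1 ht
    have e := hR i (δ' * S.w i)
    rw [cnp_coeff] at e
    have h3 : δ' ≤ δ := by
      refine Nat.le_of_mul_le_mul_right ((le_natDegree_of_ne_zero fun h4 => hi ?_).trans (h.deg i))
        (hS.wpos i)
      rw [h4, mul_zero] at e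
      exact e.unique Place.red_zero
    refine lt_of_le_of_ne h3 fun h4 => hi ?_
    subst h4
    exact e.unique (cnp_pow P hu (Nat.mul_pos hδ (hS.wpos i)) (h1 i))
  · refine (pv_red P (x := cv G 0) fun i => ?_).1 h0
    have e := hR i 0
    rwa [cnp_coeff, pow_zero, one_mul] at e

theorem line_int (hS : S.Ok t n m) (h : S.LC 1 G) (hO : Ov ∅ O) (h0 : PV O (cv G 0))
    (h1 : PV O (S.top 1 G)) : ∀ a ∈ cf G, a ∈ O := by
  obtain ⟨κ, _, _, _, P, rfl⟩ := exists_pl hO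
  rcases np_step hS h P h0 h1.1 with h2 | ⟨u, R, δ', -, -, -, h2, h3, -⟩
  · exact h2
  · omega

theorem line_rigid (hS : S.Ok t n m) (h : S.LC 1 G) : cf G ⊆ cl (S.ends 1 G) := fun a ha =>
  mem_cl_of_val fun _ hO => line_int hS h hO.empty
    (hO.pv (subset_union_left.trans (subset_cl _)) h.cv_on.2.1)
    (hO.pv (subset_union_right.trans (subset_cl _)) h.top) a ha

theorem cnp_val (hS : S.Ok t n m) {z : Fin S.M → W} {u u' : W} (h : PV O (S.sc u z))
    (h' : PV O (S.sc u' z)) : O.valuation u' ≤ O.valuation u := by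
  obtain ⟨i, hi⟩ := h.2
  have h1 := (O.valuation_le_one_iff _).2 (h'.1 i)
  rw [← hi] at h1
  simp only [Cn.sc, map_mul, map_pow] at h1 hi
  have h2 : O.valuation (z i) ≠ 0 := fun e => by simp [e] at hi
  exact le_of_pow_le_pow_left₀ (hS.wpos i).ne' zero_le
    (le_of_mul_le_mul_right h1 (zero_lt_iff.2 h2))

theorem np_ql [IsAlgClosed κ] (hS : S.Ok t n m) (h : S.LC 2 G) (P : Place ℂ W κ)
    (h0 : PV P.O (cv G 0)) (h1 : PV P.O (S.top 2 G)) : (∀ a ∈ cf G, a ∈ P.O) ∨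
      ∃ (u : W) (R₁ R₂ : Fin S.M → κ[X]), u ≠ 0 ∧ P.O.valuation u < 1 ∧ P.RedP (dil u G) R₁ ∧
        P.RedP (dil u (S.rev 2 G)) R₂ ∧ S.top 1 R₁ = S.top 1 R₂ ∧ S.QL R₁ ∧ S.QL R₂ := by
  obtain ⟨l, e1, e2, -, e3⟩ := h.rev
  rcases np_step hS h P h0 h1.1 with h2 | ⟨u, R₁, δ₁, hu, hu1, r1, p1, q1, o1, d1, c1, t1⟩
  · exact Or.inl h2
  rcases np_step hS l P (e1 ▸ h1) (e2 ▸ h0.1) with
    h2 | ⟨u', R', δ₂, hu', -, r2, p2, q2, -, d2, -, t2⟩
  · exact Or.inl (e3 ▸ h2)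
  obtain rfl : δ₁ = 1 := by omega
  obtain rfl : δ₂ = 1 := by omega
  right
  have em : ∀ i, (S.rev 2 G i).coeff (1 * S.w i) = (G i).coeff (1 * S.w i) := fun i => by
    rw [Cn.rev, coeff_reflect, revAt_le (by omega)]
    congr 1
    omega
  let z : Fin S.M → W := fun i => (G i).coeff (1 * S.w i)
  have a1 : P.RedV (S.sc u z) (S.top 1 R₁) := fun i => by
    have e := r1 i (1 * S.w i)
    rw [cnp_coeff] at e
    simpa only [Cn.sc, Cn.top, one_mul, z] using e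
  have a2 : P.RedV (S.sc u' z) (S.top 1 R') := fun i => by
    have e := r2 i (1 * S.w i)
    rw [cnp_coeff, em] at e
    simpa only [Cn.sc, Cn.top, one_mul, z] using e
  have b1 := (pv_red P a1).2 t1
  have b2 := (pv_red P a2).2 t2
  have hv : P.O.valuation u = P.O.valuation u' := le_antisymm (cnp_val hS b2 b1) (cnp_val hS b1 b2)
  have hc : ∀ i k, P.O.valuation ((dil u (S.rev 2 G) i).coeff k) =
      P.O.valuation ((dil u' (S.rev 2 G) i).coeff k) := fun i k => by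
    simp only [cnp_coeff, map_mul, map_pow, hv]
  obtain ⟨R₂, r3⟩ := Place.exists_redP (P := P) (F := dil u (S.rev 2 G)) (by
    rintro _ ⟨i, k, rfl⟩
    rw [← P.O.valuation_le_one_iff, hc]
    exact (r2 i k).val_le)
  have ht : S.top 1 R₁ = S.top 1 R₂ := funext fun i => by
    have e := r3 i (1 * S.w i)
    have e' := r1 i (1 * S.w i)
    rw [cnp_coeff] at e e'
    rw [em] at e
    exact e'.unique e
  refine ⟨u, R₁, R₂, hu, hu1, r1, r3, ht, ⟨o1, d1, c1, t1⟩,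
    ⟨red_onP P (on_dil l.on _) r3, fun i => ?_, ?_, ht ▸ t1⟩⟩
  · refine natDegree_le_iff_coeff_eq_zero.2 fun k hk => (r3 i k).unique ?_
    have e := r2 i k
    rw [coeff_eq_zero_of_natDegree_lt ((d2 i).trans_lt hk), Place.red_zero_iff] at e
    rwa [Place.red_zero_iff, hc]
  · refine (pv_red P (x := S.top 2 G) fun i => ?_).1 h1
    have e := r3 i 0
    rw [cnp_coeff, pow_zero, one_mul] at e
    rw [← e1]
    exact e

theorem np_con [IsAlgClosed κ] (hS : S.Ok t n m) (h : S.LC 2 G) (P : Place ℂ W κ)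
    (h0 : PV P.O (cv G 0)) (h1 : PV P.O (S.top 2 G)) : (∀ a ∈ cf G, a ∈ P.O) ∨
      ∃ (u : W) (R₁ R₂ : Fin S.M → κ[X]), u ≠ 0 ∧ P.O.valuation u < 1 ∧ P.RedP (dil u G) R₁ ∧
        P.RedP (dil u (S.rev 2 G)) R₂ ∧ S.top 1 R₁ = S.top 1 R₂ ∧ S.top 1 R₁ ≠ 0 ∧
        (S.LC 1 R₁ ∨ ∃ c : κ, c ≠ 0 ∧ S.top 1 R₁ = S.sc c (cv R₁ 0)) ∧
        (S.LC 1 R₂ ∨ ∃ c : κ, c ≠ 0 ∧ S.top 1 R₂ = S.sc c (cv R₂ 0)) := by
  rcases np_ql hS h P h0 h1 with h2 | ⟨u, R₁, R₂, a1, a2, a3, a4, a5, a6, a7⟩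
  · exact Or.inl h2
  · exact Or.inr ⟨u, R₁, R₂, a1, a2, a3, a4, a5, a6.top0, ql_or hS a6, ql_or hS a7⟩

end Vale.Agent.P292
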