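import Vale.Agent.P292.C.Quasi
import Vale.Agent.P276.E.GenA

/-! P292 C/Rk (TASK). Lines through a point sweep out an isotropic cone.
`lam_iso`: `iso_line` for `rev 1 G` kills `om x (eu x) (D x)` for all `D` that kill `top`; the bracket of two such derivations kills `top`; `der_eu`. `lam_rk`: `li_der` gives an independent family in `lam`; conversely a basis of `lam` and `rk_of_der`.
`line_rk`: `om_dim` with `U = V = lam A x`. `line_rk_pj`: replace `G` by `scP ρ G` (`exists_unit_sc`, `pj_sc_e0`); if the rank were at least `n + 1`, `li_der_pj` gives `n + 2` independent vectors `x ∘ e0`, `D i x ∘ e0`, the projections of `eu x / d`, `D i x`; the space `lam A x ⊔ span (eu x)` is isotropic; `om_dim`. Helper names start with `crk_`. -/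

open Polynomial Set Matrix

set_option linter.unusedSectionVars false

noncomputable section

namespace Vale.Agent.P292

open Vale.Agent.P271 Vale.Agent.P276

variable {K : Type} [Field K] [Algebra ℂ K] {N n m : ℕ} {t : Fin (N + 1) → K} {S : Cn K N}
  {W W' κ : Type} [Field W] [Algebra ℂ W] [Field W'] [Algebra ℂ W'] [Field κ] [Algebra ℂ κ]
  {δ : ℕ} {a b : ℤ} {G R R₁ R₂ v v' : Fin S.M → W[X]} {O : ValuationSubring W} {A B Y : Set W}

theorem crk_card {V : Type} [AddCommGroup V] [Module W V] [Module.Finite W V] {k : ℕ}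
    {w : Fin k → V} (hw : LinearIndependent W w) {P : Submodule W V} (h : ∀ i, w i ∈ P) :
    k ≤ Module.finrank W P := by
  have h1 := (LinearIndependent.of_comp (v := fun i => (⟨w i, h i⟩ : P)) P.subtype
    hw).fintype_card_le_finrank
  rwa [Fintype.card_fin] at h1

theorem lam_tan {z : Fin S.M → W} (h : S.On z) (A : Set W) : lam A z ≤ S.TanS z := by
  rintro _ ⟨D, -, rfl⟩
  exact h.der D

theorem lam_rk {τ : Type} [Fintype τ] (hA : A.Finite) (y : τ → W) :
    rk A + Module.finrank W (lam A y) = rk (A ∪ range y) := by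
  refine le_antisymm ?_ ?_
  · have hb : ∀ i, ∃ D : Derivation ℂ W W, (∀ a ∈ A, D a = 0) ∧
        (Module.finBasis W (lam A y) i : τ → W) = fun j => D (y j) :=
      fun i => (Module.finBasis W (lam A y) i).2
    choose D h1 h2 using hb
    refine rk_of_der hA D (fun i => der_kill (h1 i)) ?_
    rw [← funext h2]
    exact (Module.finBasis W (lam A y)).linearIndependent.map' (lam A y).subtype
      (Submodule.ker_subtype _)
  · have h0 : rk A ≤ rk (A ∪ range y) :=
      rk_mono (hA.union (finite_range y)) (subset_union_left.trans (subset_cl _))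
    obtain ⟨D, h1, h2⟩ := li_der (k := rk (A ∪ range y) - rk A) (y := y) hA (by omega)
    have h3 := crk_card h2 (P := lam A y) fun i => ⟨D i, fun a ha => h1 i a (subset_cl A ha), rfl⟩
    omega

variable [IsAlgClosed W]

theorem lam_iso (hS : S.Ok t n m) (h : S.LC 1 G) (h1 : range (S.top 1 G) ⊆ cl A) :
    (∀ u ∈ lam A (cv G 0), S.om (cv G 0) (S.eu (cv G 0)) u = 0) ∧
      ∀ u ∈ lam A (cv G 0), ∀ u' ∈ lam A (cv G 0), S.om (cv G 0) u u' = 0 := by
  have h2 : ∀ D : Derivation ℂ W W, (∀ a ∈ A, D a = 0) →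
      S.om (cv G 0) (S.eu (cv G 0)) (fun i => D (cv G 0 i)) = 0 := fun D hD => by
    have h3 := iso_line hS h.rev.1 (D := D) fun i => by
      rw [cv_rev]
      exact der_kill hD _ (h1 ⟨i, rfl⟩)
    rwa [top_rev] at h3
  constructor
  · rintro _ ⟨D, hD, rfl⟩
    exact h2 D hD
  · rintro _ ⟨D, hD, rfl⟩ _ ⟨D', hD', rfl⟩
    rw [← der_eu hS h.cv_on.1 h.cv_on.2.1, h2 D hD, h2 D' hD', h2 ⁅D, D'⁆ fun a ha => by
      rw [Derivation.commutator_apply, hD a ha, hD' a ha, map_zero, map_zero, sub_zero],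
      map_zero, map_zero, sub_zero, sub_zero]

theorem line_rk (hS : S.Ok t n m) (h : S.LC 1 G) (hA : A.Finite) (h1 : range (S.top 1 G) ⊆ cl A) :
    rk (A ∪ range (cv G 0)) ≤ rk A + (n + 1) := by
  have h2 := (om_dim hS h.cv_on.1 h.cv_on.2.1 (lam_tan h.cv_on.1 A) (lam_tan h.cv_on.1 A)
    (lam_iso hS h h1).2).1
  have h3 := lam_rk hA (cv G 0)
  omega

theorem crk_pj (hS : S.Ok t n m) (h : S.LC 1 G) (hA : A.Finite)
    (h1 : range (S.top 1 G) ⊆ cl A) : rk (A ∪ pj (cv G 0 ∘ S.e0)) ≤ rk A + n := by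
  obtain ⟨i1, i2⟩ := lam_iso hS h h1
  obtain ⟨hx, h0, -⟩ := h.cv_on
  generalize cv G 0 = x at *
  by_contra hc
  obtain ⟨D, h2, h3⟩ := li_der_pj (k := n + 1) hA (e0_ne hS hx h0) (by omega)
  have hU : lam A x ⊔ Submodule.span W {S.eu x} ≤ S.TanS x :=
    sup_le (lam_tan hx A) ((Submodule.span_singleton_le_iff_mem _ _).2 hx.eu)
  have h4 := (om_dim hS hx h0 hU hU fun u hu u' hu' => by
    obtain ⟨l, hl, _, he, rfl⟩ := Submodule.mem_sup.1 hu
    obtain ⟨c, rfl⟩ := Submodule.mem_span_singleton.1 he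
    obtain ⟨l', hl', _, he', rfl⟩ := Submodule.mem_sup.1 hu'
    obtain ⟨c', rfl⟩ := Submodule.mem_span_singleton.1 he'
    have t1 : S.Tan x l := lam_tan hx A hl
    have t2 : S.Tan x l' := lam_tan hx A hl'
    rw [← one_smul W l, ← one_smul W l', om_left, om_right hS hx h0 t1 t2 hx.eu,
      om_right hS hx h0 hx.eu t2 hx.eu, om_anti hS hx h0 hx.eu t1, i1 l hl, i1 l' hl',
      i2 l hl l' hl', cav_self hS hx h0 hx.eu]
    ring).1
  have h5 := crk_card h3
    (P := (lam A x ⊔ Submodule.span W {S.eu x}).map (LinearMap.funLeft W W S.e0)) fun i => by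
      refine Fin.cases ?_ (fun i => ?_) i
      · have : CharZero W := charZero_of_injective_algebraMap (algebraMap ℂ W).injective
        have hd : ((m * (n + 1) : ℕ) : W) ≠ 0 :=
          Nat.cast_ne_zero.2 (mul_ne_zero hS.fano.pos.ne' (Nat.succ_ne_zero n))
        refine ⟨((m * (n + 1) : ℕ) : W)⁻¹ • S.eu x, Submodule.mem_sup_right
          (Submodule.smul_mem _ _ (Submodule.mem_span_singleton_self _)), funext fun j => ?_⟩
        show ((m * (n + 1) : ℕ) : W)⁻¹ * ((S.w (S.e0 j) : W) * x (S.e0 j)) = x (S.e0 j)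
        rw [hS.we0, inv_mul_cancel_left₀ hd]
      · exact ⟨fun j => D i (x j),
          Submodule.mem_sup_left ⟨D i, fun a ha => h2 i a (subset_cl A ha), rfl⟩, rfl⟩
  have h6 := Submodule.finrank_map_le (LinearMap.funLeft W W S.e0)
    (lam A x ⊔ Submodule.span W {S.eu x})
  omega

theorem line_rk_pj (hS : S.Ok t n m) (h : S.LC 1 G) (hA : A.Finite)
    (h1 : pj (S.top 1 G ∘ S.e0) ⊆ cl A) : rk (A ∪ pj (cv G 0 ∘ S.e0)) ≤ rk A + n := by
  obtain ⟨ρ, h2, h3⟩ := exists_unit_sc hS (on_rev h.on h.deg).2 h.top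
  obtain ⟨h4, h5, h6, -⟩ := h.scP h2
  have h7 := crk_pj hS h4 hA (by
    rw [h6]
    exact h3.trans (cl_le h1))
  rwa [h5, pj_sc_e0 hS h2] at h7

theorem ql_rk (hS : S.Ok t n m) (h : S.QL R) (hA : A.Finite) :
    (pj (S.top 1 R ∘ S.e0) ⊆ cl A → rk (A ∪ pj (cv R 0 ∘ S.e0)) ≤ rk A + n) ∧
      (pj (cv R 0 ∘ S.e0) ⊆ cl A → rk (A ∪ pj (S.top 1 R ∘ S.e0)) ≤ rk A + n) := by
  rcases ql_or hS h with h1 | ⟨c, hc, h1⟩
  · refine ⟨line_rk_pj hS h1 hA, fun h2 => ?_⟩
    have h3 := line_rk_pj hS h1.rev.1 hA (by rwa [top_rev])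
    rwa [cv_rev] at h3
  · rw [h1, pj_sc_e0 hS hc, and_self]
    exact fun h2 => (rk_mono hA (union_subset (subset_cl A) h2)).trans (Nat.le_add_right _ _)

end Vale.Agent.P292
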