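import Vale.Agent.P292.C.Def
import Vale.Agent.P292.C.SmA
import Vale.Agent.P292.C.SmB
import Vale.Agent.P292.C.SmC

/-! P292 C/Sm (helper8). Smoothing two lines with a generic common point. -/

open Polynomial Set Matrix

noncomputable section

namespace Vale.Agent.P292

open Vale.Agent.P271 Vale.Agent.P276

variable {K : Type} [Field K] [Algebra ℂ K] {N n m : ℕ} {t : Fin (N + 1) → K} {S : Cn K N}
  {W κ : Type} [Field W] [Algebra ℂ W] [Field κ] [Algebra ℂ κ]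

theorem csm_dil (r ρ : W) (G : Fin S.M → W[X]) : dil r (S.scP ρ G) = S.scP ρ (dil r G) := by
  funext i
  simp only [dil, Cn.scP, mul_comp, C_comp]

theorem csm_lift [IsAlgClosed W] (hS : S.Ok t n m) (P : Place ℂ W κ) {R₁ R₂ : Fin S.M → κ[X]}
    (h1 : S.LC 1 R₁) (h2 : S.LC 1 R₂) (ht : S.top 1 R₁ = S.top 1 R₂) {F : Fin (N + 1) → W[X]}
    {v : W} (hv : v ≠ 0) (hv1 : P.O.valuation v < 1) (hF : Curve0 t F)
    (hd : deg0 F = 2 * (m * (n + 1))) (r1 : P.RedP (dil v F) (R₁ ∘ S.e0))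
    (r2 : P.RedP (dil v fun i => reflect (2 * (m * (n + 1))) (F i)) (R₂ ∘ S.e0)) :
    ∃ G, S.LC 2 G ∧ S.Node P G v R₁ R₂ := by
  obtain ⟨G₁, g1, rfl⟩ := lift_pol hS hF
  have g2 : S.LC 2 G₁ := lc_of hS g1 hF hd
  have n1 : R₁ ≠ 0 := fun e => h1.top (by rw [e]; rfl)
  have n2 : R₂ ≠ 0 := fun e => h2.top (by rw [e]; rfl)
  have hpos : m * (n + 1) ≠ 0 := Nat.mul_ne_zero hS.fano.pos.ne' n.succ_ne_zero
  obtain ⟨c, hc, q1⟩ := lift_int_red hS P (g2.dil hv).1.on h1.on n1 r1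
  have hc0 : algebraMap ℂ W c ≠ 0 :=
    (_root_.map_ne_zero _).2 fun e => by rw [e, zero_pow hpos] at hc; exact zero_ne_one hc
  have g3 := (g2.scP hc0).1
  rw [← csm_dil] at q1
  have e : dil v (S.rev 2 (S.scP (algebraMap ℂ W c) G₁)) ∘ S.e0 =
      dil v fun i => reflect (2 * (m * (n + 1))) ((G₁ ∘ S.e0) i) := by
    funext i
    simp only [dil, Cn.rev, Cn.scP, Function.comp, hS.we0, ← map_pow, hc, map_one, one_mul]
  obtain ⟨c', -, q2⟩ := lift_int_red hS P (g3.rev.1.dil hv).1.on h2.on n2 (e ▸ r2)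
  have e1 : S.sc (algebraMap ℂ κ c') (S.top 1 R₁) = S.top 1 R₁ := by
    funext i
    have a1 := q1 i (1 * S.w i)
    have a2 := q2 i (1 * S.w i)
    have a3 : (S.scP (algebraMap ℂ W c') (dil v (S.rev 2 (S.scP (algebraMap ℂ W c) G₁))) i).coeff
        (1 * S.w i) = algebraMap ℂ W c' ^ S.w i *
          (dil v (S.scP (algebraMap ℂ W c) G₁) i).coeff (1 * S.w i) := by
      rw [Cn.scP, coeff_C_mul, coeff_dil, coeff_dil, Cn.rev, coeff_reflect, revAt_le (by omega)]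
      congr 3
      omega
    rw [a3] at a2
    exact (((Place.red_algebraMap c').pow _).mul a1).unique a2 |>.trans (congrFun ht i).symm
  have e2 := hS.free κ _ _ (h1.rev.2.1 ▸ h1.rev.1.cv_on.1) h1.top e1
  have e3 : c' = 1 := (algebraMap ℂ κ).injective (e2.trans (map_one _).symm)
  refine ⟨_, g3, hv, hv1, q1, ?_, h1, h2, ht⟩
  have e4 : ∀ G : Fin S.M → W[X], S.scP (algebraMap ℂ W c') G = G := fun G => by
    funext i
    simp only [Cn.scP, e3, map_one, one_pow, one_mul]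
  rwa [e4] at q2

theorem smooth2 [IsAlgClosed W] {R₁ R₂ : Fin S.M → W[X]} (hS : S.Ok t n m) (h1 : S.LC 1 R₁)
    (h2 : S.LC 1 R₂) (ht : S.top 1 R₁ = S.top 1 R₂) (hg : Gen t (S.top 1 R₁ ∘ S.e0)) :
    ∃ (V κ : Type) (_ : Field V) (_ : Algebra W V) (_ : Algebra ℂ V) (_ : IsScalarTower ℂ W V)
      (_ : IsAlgClosed V) (_ : Field κ) (_ : Algebra W κ) (_ : Algebra ℂ κ)
      (_ : IsScalarTower ℂ W κ) (_ : IsAlgClosed κ) (P : Place W V κ) (G : Fin S.M → V[X]) (u : V),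
      S.LC 2 G ∧ S.Node (P.res ℂ) G u (fun i => (R₁ i).map (algebraMap W κ))
        fun i => (R₂ i).map (algebraMap W κ) := by
  obtain ⟨c1, d1⟩ := h1.curve0 hS
  obtain ⟨c2, d2⟩ := h2.rev.1.curve0 hS
  rw [one_mul] at d1 d2
  obtain ⟨c3, d3⟩ := tr0_curve c1 (-1)
  rw [d1] at c3 d3
  have l1 : ∀ i, ((R₁ ∘ S.e0) i).natDegree ≤ m * (n + 1) := fun i => d1 ▸ le_deg0 _ i
  have e1 : ∀ i, (tr0 (-1) (m * (n + 1)) ((R₁ ∘ S.e0) i)).eval 1 = (S.top 1 R₁ ∘ S.e0) i :=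
    fun i => by
    have := tr0_top (tr0_natDegree (l1 i) (-1)) (one_ne_zero (α := W))
    rw [tr0_tr0 (l1 i), one_pow, one_mul, inv_one] at this
    rw [← this]
    simp only [Function.comp, Cn.top, hS.we0, one_mul]
  have e2 : ∀ i, ((S.rev 1 R₂ ∘ S.e0) i).coeff 0 = (S.top 1 R₁ ∘ S.e0) i := fun i => by
    rw [ht, ← h2.rev.2.1]
    rfl
  obtain ⟨V, κ, i1, i2, i3, i4, i5, i6, i7, i8, i9, i10, P, A, B, u, hu, h⟩ := sm_cb hS.fano
    ⟨c3, 1, by rw [funext e1]; exact hg⟩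
    ⟨c2, 0, by simp only [← coeff_zero_eq_eval_zero, e2]; exact hg⟩
    fun i => (e2 i).trans (e1 i).symm
  obtain ⟨F, v, hv, hv1, hF, hd, r1, r2⟩ := sm_neck h hu ((deg0_map _ _).trans d3)
    ((deg0_map _ _).trans d2)
  let f : W →ₐ[ℂ] κ := IsScalarTower.toAlgHom ℂ W κ
  have k1 : S.LC 1 fun i => (R₁ i).map (algebraMap W κ) := h1.map f
  have k2 : S.LC 1 fun i => (R₂ i).map (algebraMap W κ) := h2.map f
  have a1 : (fun i => tr0 1 (m * (n + 1)) ((tr0 (-1) (m * (n + 1)) ((R₁ ∘ S.e0) i)).map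
      (algebraMap W κ))) = (fun i => (R₁ i).map (algebraMap W κ)) ∘ S.e0 := by
    funext i
    have : ∀ (c : W) (p : W[X]), (tr0 c (m * (n + 1)) p).map (algebraMap W κ) =
        tr0 (algebraMap W κ c) (m * (n + 1)) (p.map (algebraMap W κ)) := fun c p => by
      simp only [tr0, mob, ← reflect_map, map_taylor]
    rw [this, map_neg, map_one, tr0_tr0 (natDegree_map_le.trans (l1 i))]
    rfl
  have a2 : (fun i => reflect (m * (n + 1)) (((S.rev 1 R₂ ∘ S.e0) i).map (algebraMap W κ))) =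
      (fun i => (R₂ i).map (algebraMap W κ)) ∘ S.e0 := by
    funext i
    simp only [Function.comp, Cn.rev, hS.we0, one_mul, reflect_map, reflect_reflect]
  rw [a1] at r1
  rw [a2] at r2
  have kt : S.top 1 (fun i => (R₁ i).map (algebraMap W κ)) =
      S.top 1 fun i => (R₂ i).map (algebraMap W κ) := funext fun i => by
    simp only [Cn.top, coeff_map]
    exact congrArg _ (congrFun ht i)
  obtain ⟨b1, b2⟩ := k1.curve0 hS
  obtain ⟨b3, -⟩ := k2.curve0 hS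
  have hp := sm_prim (P.res ℂ) hv hd r1 r2 b1.2 b3.2 (by
    have := exists_top (F := (fun i => (R₁ i).map (algebraMap W κ)) ∘ S.e0) (by
      obtain ⟨i, hi⟩ := b1.2 0
      exact ⟨i, fun e => hi (by rw [e, eval_zero])⟩)
    rwa [b2, one_mul] at this)
  have hdeg : deg0 F = 2 * (m * (n + 1)) := by
    refine le_antisymm (deg0_le hd) ?_
    obtain ⟨i, hi⟩ := b3.2 0
    rw [← coeff_zero_eq_eval_zero] at hi
    have := (r2 i 0).left_ne hi
    rw [coeff_dil, pow_zero, one_mul, coeff_reflect, revAt_zero] at this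
    exact (le_natDegree_of_ne_zero this).trans (le_deg0 F i)
  obtain ⟨G, g1, g2⟩ := csm_lift hS (P.res ℂ) k1 k2 kt hv hv1 ⟨hF, hp⟩ hdeg r1 r2
  exact ⟨V, κ, i1, i2, i3, i4, i5, i6, i7, i8, i9, i10, P, G, v, g1, g2⟩

end Vale.Agent.P292
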