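import Vale.Agent.P292.C.Gn
import Vale.Agent.P276.E.Fresh

/-! P292 C/Span: the deformations of a full curve span the tangent space (helper97). -/

open Polynomial Set Matrix

set_option linter.unusedSectionVars false

noncomputable section

namespace Vale.Agent.P292

open Vale.Agent.P271 Vale.Agent.P276

variable {K : Type} [Field K] [Algebra ℂ K] {N n m δ : ℕ} {t : Fin (N + 1) → K} {S : Cn K N}
  {W : Type} [Field W] [Algebra ℂ W] {G u u' : Fin S.M → W[X]} {Y : Set W}
  {D : Derivation ℂ W W}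

/-- The value at `s` of the deformation given by a derivation. -/
def spEv (G : Fin S.M → W[X]) (s : W) : Derivation ℂ W W →ₗ[W] Fin S.M → W where
  toFun D := S.ev (S.cD D G) s
  map_add' _ _ := funext fun i => by
    simp [Cn.ev, Cn.cD, eval_finsetSum, Finset.sum_add_distrib]
  map_smul' _ _ := funext fun i => by
    simp [Cn.ev, Cn.cD, eval_finsetSum, mul_assoc, Finset.mul_sum]

theorem span_cD (h : S.LC δ G) (D : Derivation ℂ W W) (i : Fin S.M) (k : ℕ) (e : δ * S.w i < k) :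
    (S.cD D G i).coeff k = 0 := by
  rw [cD_coeff, coeff_eq_zero_of_natDegree_lt ((h.deg i).trans_lt e), map_zero]

theorem span_div (h : S.LC δ G) {s : W} (h1 : spEv G s D = 0) : ∃ u : Fin S.M → W[X],
    S.Tan G u ∧ (∀ i k, δ * S.w i < k + 1 → (u i).coeff k = 0) ∧
      ∀ i, S.cD D G i = (X - C s) * u i := by
  choose u hu using fun i => (dvd_iff_isRoot (p := S.cD D G i)).2 (congrFun h1 i)
  refine ⟨u, fun k P hP h0 => ?_, fun i k e => ?_, hu⟩
  · have := cD_tan h.on D k P hP h0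
    simp only [hu, mul_left_comm _ (X - C s), ← Finset.mul_sum] at this
    exact (mul_eq_zero.1 this).resolve_left (X_sub_C_ne_zero s)
  · rcases eq_or_ne (u i) 0 with h2 | h2
    · rw [h2, coeff_zero]
    have h3 := (cD_deg D G i).trans (h.deg i)
    rw [hu, natDegree_mul (X_sub_C_ne_zero s) h2, natDegree_X_sub_C] at h3
    exact coeff_eq_zero_of_natDegree_lt (by omega)

variable [IsAlgClosed W]

theorem span_sec (hS : S.Ok t n m) (h : S.LC δ G) (hu : S.Tan G u) (hu' : S.Tan G u') {a b : ℕ}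
    (h1 : ∀ i k, δ * S.w i < k + a → (u i).coeff k = 0)
    (h2 : ∀ i k, δ * S.w i < k + b → (u' i).coeff k = 0) (hab : δ < a + b) :
    S.om (cv G 0) (cv u 0) (cv u' 0) = 0 := by
  obtain ⟨q, h3, -, h4⟩ := om_poly hS h hu hu' (a := a) (b := b)
    (fun i k e => h1 i k (by exact_mod_cast e)) fun i k e => h2 i k (by exact_mod_cast e)
  have := h4 0
  rw [(ev_zero G).1, (ev_zero u).1, (ev_zero u').1, ← coeff_zero_eq_eval_zero,
    h3 0 (by omega)] at this
  exact this.symm

theorem span_van (hS : S.Ok t n m) (h : S.LC δ G) {b : ℕ} (hb : δ ≤ b + 1)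
    (hz : ∀ v, S.Tan (cv G 0) v → ∃ D : Derivation ℂ W W, (fun i => D (cv G 0 i)) = v ∧
      ∀ i k, δ * S.w i < k + b → (S.cD D G i).coeff k = 0)
    (hu : S.Tan G u) (h1 : ∀ i k, δ * S.w i < k + 1 → (u i).coeff k = 0) (h0 : cv u 0 = 0)
    (k : ℕ) : cv u k = 0 := by
  induction k using Nat.strong_induction_on with
  | _ k ih =>
    rcases k with _ | k
    · exact h0
    obtain ⟨u', h4, h5⟩ := gna_div hu ih
    have h6 : cv u (k + 1) = cv u' 0 := funext fun i => by
      simp only [cv, h5, zero_add]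
    have h7 := h4.ev 0
    rw [(ev_zero G).1, (ev_zero u').1] at h7
    rw [h6]
    refine om_nondeg hS h.cv_on.1 h.cv_on.2.1 h7 fun v hv => ?_
    obtain ⟨D, rfl, hD⟩ := hz v hv
    rw [← gna_cv]
    exact span_sec hS h (cD_tan h.on D) h4 hD (b := k + 2)
      (fun i j e => (h5 i j).trans (h1 i _ (by omega))) (by omega)

theorem span_ev (hS : S.Ok t n m) (h : S.LC δ G) {b : ℕ} (hb : δ ≤ b + 1)
    (hz : ∀ v, S.Tan (cv G 0) v → ∃ D : Derivation ℂ W W, (fun i => D (cv G 0 i)) = v ∧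
      ∀ i k, δ * S.w i < k + b → (S.cD D G i).coeff k = 0)
    (hr : (δ = 1 ∧ 3 * n + 3 ≤ rk (S.ends δ G)) ∨ 4 * n + 4 ≤ rk (S.ends δ G)) (s : W)
    (v : Fin S.M → W) (hv : S.Tan (S.ev G s) v) : ∃ D, spEv G s D = v := by
  rcases eq_or_ne s 0 with rfl | hs
  · obtain ⟨D, rfl, -⟩ := hz v ((ev_zero G).1 ▸ hv)
    exact ⟨D, (ev_zero _).1.trans (gna_cv D 0)⟩
  obtain ⟨k, E, h1, -, h2, -⟩ := gn_der finite_empty (Sum.elim (cv G 0) (S.top δ G))
  rw [empty_union, show rk (∅ : Set W) = 0 by simp [rk], Sum.elim_range] at h1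
  let T := Fintype.linearCombination W E
  let L := spEv G s ∘ₗ T
  let M := (gnEv (cv G 0) ∘ₗ T).domRestrict (LinearMap.ker L)
  have h3 : ∀ c : LinearMap.ker L, ∃ u : Fin S.M → W[X], S.Tan G u ∧
      (∀ i k, δ * S.w i < k + 1 → (u i).coeff k = 0) ∧ (∀ i, S.cD (T c) G i = (X - C s) * u i) ∧
      M c = (-s) • cv u 0 := fun c => by
    obtain ⟨u, a1, a2, a3⟩ := span_div h (s := s) (D := T c) c.2
    refine ⟨u, a1, a2, a3, funext fun i => (cD_coeff (T c) G i 0).symm.trans ?_⟩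
    simp [a3, cv]
  have h4 : LinearMap.ker M = ⊥ := LinearMap.ker_eq_bot'.2 fun c hc => by
    obtain ⟨u, a1, a2, a3, a4⟩ := h3 c
    have a5 := span_van hS h hb hz a1 a2
      ((smul_eq_zero.1 (a4.symm.trans hc)).resolve_left (neg_ne_zero.2 hs))
    have a6 : ∀ i k, T c ((G i).coeff k) = 0 := fun i k => by
      rw [← cD_coeff, a3, show u i = 0 from ext fun k => congrFun (a5 k) i, mul_zero, coeff_zero]
    refine Subtype.ext (funext (Fintype.linearIndependent_iff.1 h2 c ?_))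
    simp only [← map_smul, ← map_sum]
    exact funext (Sum.rec (fun i => a6 i _) fun i => a6 i _)
  have h5 := M.finrank_range_add_finrank_ker
  have h6 := L.finrank_range_add_finrank_ker
  have h7 : LinearMap.range M ≤ S.TanS (cv G 0) := by
    rintro _ ⟨c, rfl⟩
    exact h.cv_on.1.der _
  have h8 := Submodule.finrank_mono h7
  have h9 := hS.dim W _ (h.ev_on s) (h.prim s)
  rw [hS.dim W _ h.cv_on.1 h.cv_on.2.1] at h8
  rw [h4, finrank_bot] at h5
  rw [Module.finrank_fin_fun] at h6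
  have h10 : LinearMap.range L = S.TanS (S.ev G s) := by
    refine Submodule.eq_of_le_of_finrank_le
      (by rintro _ ⟨c, rfl⟩; exact (cD_tan h.on _).ev s) ?_
    rw [Cn.ends] at hr
    rcases hr with ⟨rfl, hr⟩ | hr
    · have := (om_dim hS h.cv_on.1 h.cv_on.2.1 h7 h7 (by
        rintro _ ⟨c, rfl⟩ _ ⟨c', rfl⟩
        obtain ⟨u, a1, a2, -, a4⟩ := h3 c
        obtain ⟨u', b1, b2, -, b4⟩ := h3 c'
        have a5 := span_sec hS h (u := (C (-s) : W[X]) • u) (u' := (C (-s) : W[X]) • u')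
          ((S.TanS G).smul_mem _ a1) ((S.TanS G).smul_mem _ b1) (a := 1) (b := 1)
          (fun i k e => by simp [a2 i k e]) (fun i k e => by simp [b2 i k e]) one_lt_two
        have a6 : ∀ u : Fin S.M → W[X], cv ((C (-s) : W[X]) • u) 0 = (-s) • cv u 0 := fun u =>
          funext fun i => by simp [cv]
        rwa [a6, a6, ← a4, ← b4] at a5)).1
      omega
    · omega
  obtain ⟨c, hc⟩ := h10.ge hv
  exact ⟨T c, hc⟩

theorem span_gen (hS : S.Ok t n m) {z y : Fin S.M → W} (h : S.On z) (h0 : z ≠ 0)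
    (hr : rk (range y) + (2 * n + 2) ≤ rk (range y ∪ range z)) (v : Fin S.M → W) (hv : S.Tan z v) :
    ∃ D : Derivation ℂ W W, (fun i => D (z i)) = v ∧ ∀ i, D (y i) = 0 := by
  obtain ⟨k, D, h1, h6, h2, -⟩ := gn_der (finite_range y) z
  have h3 := gn_le h2 fun i => Submodule.mem_map_of_mem (p := LinearMap.ker (gnEv y))
    (funext fun j => h6 i _ (subset_cl _ ⟨j, rfl⟩))
  have h4 := hS.dim W z h h0
  have h5 : (LinearMap.ker (gnEv y)).map (gnEv z) = S.TanS z :=
    Submodule.eq_of_le_of_finrank_le (by rintro _ ⟨D, -, rfl⟩; exact h.der D) (by omega)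
  obtain ⟨D', h7, rfl⟩ := h5.ge hv
  exact ⟨D', rfl, congrFun h7⟩

theorem span_all (hS : S.Ok t n m) (h : (δ = 1 ∧ S.FL n G) ∨ (δ = 2 ∧ S.FC n G)) :
    (∀ s v, S.Tan (S.ev G s) v → ∃ D, spEv G s D = v) ∧
      ∀ v, S.Tan (S.top δ G) v → ∃ D, gnEv (S.top δ G) D = v := by
  rcases h with ⟨rfl, h, hr⟩ | ⟨rfl, h, -, hr⟩
  · obtain ⟨l1, e1, e2, -⟩ := h.rev
    obtain ⟨k, -, a1, a2, -⟩ := gn_U hS h
    obtain ⟨k', -, b1, b2, -⟩ := gn_U hS l1
    have b3 := l1.cv_on
    rw [e1, e2] at b2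
    rw [e1] at b3
    rw [union_comm] at a2
    have hr' := hr
    rw [Cn.ends] at hr'
    exact ⟨span_ev hS h (b := 0) le_rfl (fun v hv =>
      (gn_gen hS h.cv_on.1 h.cv_on.2.1 (by omega) v hv).imp fun D hD => ⟨hD, span_cD h D⟩)
      (Or.inl ⟨rfl, hr⟩), gn_gen hS b3.1 b3.2.1 (by omega)⟩
  · have b3 := h.rev.1.cv_on
    rw [h.rev.2.1] at b3
    have a1 := rk_on hS h.cv_on.1
    have a2 := rk_on hS b3.1
    have a3 := rk_union_le (finite_range (cv G 0)) (finite_range (S.top 2 G))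
    have hr' := hr
    rw [Cn.ends] at hr'
    refine ⟨span_ev hS h (b := 1) le_rfl (fun v hv => (span_gen hS (y := S.top 2 G) h.cv_on.1
      h.cv_on.2.1 (by rw [union_comm]; omega) v hv).imp fun D hD => ⟨hD.1, fun i k e => ?_⟩)
      (Or.inr hr), gn_gen hS b3.1 b3.2.1 (by omega)⟩
    rcases (Nat.lt_succ_iff.1 e).eq_or_lt with rfl | e'
    · exact (cD_coeff D G i _).trans (hD.2 i)
    · exact span_cD h D i k e'

/-- C6: the deformations of a full curve span the tangent space at every point. -/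
theorem span_full (hS : S.Ok t n m) (h : (δ = 1 ∧ S.FL n G) ∨ (δ = 2 ∧ S.FC n G)) (hY : Y.Finite)
    (hi : rk Y + rk (cf G) ≤ rk (Y ∪ cf G)) : ∃ (r : ℕ) (D : Fin r → Derivation ℂ W W),
      (∀ j, (∀ a ∈ cl Y, D j a = 0) ∧ ∀ a ∈ cl (Y ∪ cf G), D j a ∈ cl (Y ∪ cf G)) ∧
      (∀ s v, S.Tan (S.ev G s) v →
        v ∈ Submodule.span W (range fun j => S.ev (S.cD (D j) G) s)) ∧
      ∀ v, S.Tan (S.top δ G) v → v ∈ Submodule.span W (range fun j => S.top δ (S.cD (D j) G)) := by
  have := (fre_cf_finite G).fintype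
  obtain ⟨k, D, h1, h2, h3, h4⟩ := gn_der hY ((↑) : cf G → W)
  rw [Subtype.range_coe] at h1 h4
  have key : ∀ D' : Derivation ℂ W W, ∃ c : Fin k → W, ∀ i j,
      (∑ l, c l • D l - D') ((G i).coeff j) = 0 := fun D' => by
    have h5 : gnEv ((↑) : cf G → W) D' ∈
        Submodule.span W (range fun l => gnEv ((↑) : cf G → W) (D l)) := by
      by_contra h5
      have h6 := rk_of_der finite_empty (y := ((↑) : cf G → W)) (Fin.cons D' D)
        (fun i => der_kill fun _ => False.elim) (by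
          have h7 := h3.finCons h5
          rwa [show Fin.cons (gnEv ((↑) : cf G → W) D') (fun l => gnEv ((↑) : cf G → W) (D l)) =
            fun i => gnEv ((↑) : cf G → W) ((Fin.cons D' D : Fin (k + 1) → _) i) from
            funext fun i => Fin.cases rfl (fun _ => rfl) i] at h7)
      rw [empty_union, Subtype.range_coe] at h6
      omega
    obtain ⟨c, hc⟩ := (Submodule.mem_span_range_iff_exists_fun W).1 h5
    simp only [← map_smul, ← map_sum] at hc
    exact ⟨c, fun i j => sub_eq_zero.2 (congrFun hc ⟨_, i, j, rfl⟩)⟩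
  obtain ⟨h5, h6⟩ := span_all hS h
  refine ⟨k, D, fun j => ⟨h2 j, der_mem ?_⟩, fun s v hv => ?_, fun v hv => ?_⟩
  · rintro a (ha | ha)
    · rw [h2 j a (subset_cl _ ha)]
      exact zero_mem _
    · exact h4 j ⟨a, ha⟩
  · obtain ⟨D', rfl⟩ := h5 s v hv
    obtain ⟨c, hc⟩ := key D'
    have h7 : spEv G s (∑ l, c l • D l - D') = 0 := funext fun i => by
      change eval s (S.cD _ G i) = 0
      rw [show S.cD _ G i = 0 from ext fun j => (cD_coeff _ G i j).trans (hc i j), eval_zero]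
    simp only [map_sub, map_sum, map_smul, sub_eq_zero] at h7
    exact (Submodule.mem_span_range_iff_exists_fun W).2 ⟨c, h7⟩
  · obtain ⟨D', rfl⟩ := h6 v hv
    obtain ⟨c, hc⟩ := key D'
    have h7 : gnEv (S.top δ G) (∑ l, c l • D l - D') = 0 := funext fun i => hc i _
    have h8 : ∀ j, S.top δ (S.cD (D j) G) = gnEv (S.top δ G) (D j) := fun j =>
      funext fun i => cD_coeff _ G i _
    simp only [map_sub, map_sum, map_smul, sub_eq_zero] at h7
    simp only [h8]
    exact (Submodule.mem_span_range_iff_exists_fun W).2 ⟨c, h7⟩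

end Vale.Agent.P292
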