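import Vale.Agent.P292.C.Basic
import Vale.Agent.P292.C.Gn
import Vale.Agent.P292.C.Rk
import Vale.Agent.P292.C.NP
import Vale.Agent.P292.C.Est
import Vale.Agent.P292.C.Def
import Vale.Agent.P292.C.Span
import Vale.Agent.P292.C.Good
import Vale.Agent.P292.C.Sm

/-! P292 block C: curves (interface; all statements are in the imported files). -/
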