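import Vale.Agent.P292.C.NEstB
import Vale.Agent.P276.E.Par

/-! P292 C/NEst. The node estimate, by averaging over roots of unity on the neck. -/

open Polynomial Set Matrix

noncomputable section

namespace Vale.Agent.P292

open Vale.Agent.P271 Vale.Agent.P276

variable {K : Type} [Field K] [Algebra ℂ K] {N n m : ℕ} {t : Fin (N + 1) → K} {S : Cn K N}
  {W κ : Type} [Field W] [Algebra ℂ W] [Field κ] [Algebra ℂ κ] {G : Fin S.M → W[X]}

/-- The nonconstant part of `sc (u / s) (ev G s)`. -/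
def nestP (S : Cn K N) (u : W) (G : Fin S.M → W[X]) (σ : ℂ) : Fin S.M → W := fun i =>
  nestT (S.w i) u (fun e => (G i).coeff (S.w i - 1 - e) * u ^ (S.w i - 1 - e))
    (fun e => (G i).coeff (S.w i + (e + 1)) * u ^ (S.w i - 1 - e)) σ

/-- The logarithmic derivative. -/
def nestL (S : Cn K N) (G : Fin S.M → W[X]) : Fin S.M → W[X] := fun i =>
  X * derivative (G i) - C (S.w i : W) * G i

omit [Field K] [Algebra ℂ K] [Algebra ℂ W] in
theorem nest_coeff (i : Fin S.M) (j : ℕ) :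
    (nestL S G i).coeff j = ((j : W) - S.w i) * (G i).coeff j := by
  rw [nestL, coeff_sub, coeff_C_mul]
  rcases j with _ | j
  · simp
  · rw [coeff_X_mul, coeff_derivative]
    push_cast
    ring

theorem nest_pt [IsAlgClosed W] (hS : S.Ok t n m) (h : S.LC 2 G) {u : W} (hu : u ≠ 0) {σ : ℂ}
    (hσ : σ ≠ 0) {Φ : Fin S.M → W}
    (hΦ : Φ = fun i => (G i).coeff (S.w i) * u ^ S.w i + u * nestP S u G σ i) :
    S.On Φ ∧ Φ ≠ 0 ∧ S.Tan Φ (nestP S u (nestL S G) σ) ∧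
      S.om Φ (S.eu Φ) (nestP S u (nestL S G) σ) = S.Av G := by
  have := charZero_of_injective_algebraMap (algebraMap ℂ W).injective
  have hs : algebraMap ℂ W σ ≠ 0 := (_root_.map_ne_zero _).2 hσ
  have e1 : Φ = S.sc (u * (algebraMap ℂ W σ)⁻¹) (S.ev G (algebraMap ℂ W σ)) :=
    hΦ.trans (funext fun i => (nest_sum (h.deg i) u hσ).symm)
  have e2 : nestP S u (nestL S G) σ = (algebraMap ℂ W σ * u⁻¹) • S.sc (u * (algebraMap ℂ W σ)⁻¹)
      (S.ev (fun i => derivative (G i)) (algebraMap ℂ W σ)) + (-u⁻¹) • S.eu Φ := by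
    funext i
    have h1 : (nestL S G i).natDegree ≤ 2 * S.w i := natDegree_le_iff_coeff_eq_zero.2 fun j hj => by
      rw [nest_coeff, coeff_eq_zero_of_natDegree_lt ((h.deg i).trans_lt hj), mul_zero]
    have h2 := nest_sum h1 u hσ
    rw [nest_coeff, sub_self, zero_mul, zero_mul, zero_add] at h2
    refine mul_left_cancel₀ hu (h2.symm.trans ?_)
    simp only [e1, nestL, Cn.sc, Cn.ev, Cn.eu, Pi.add_apply, Pi.smul_apply, smul_eq_mul, eval_sub,
      eval_mul, eval_X, eval_C]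
    field_simp
    ring
  have hρ := mul_ne_zero hu (inv_ne_zero hs)
  have h1 : S.On Φ := e1 ▸ (h.ev_on _).sc _
  have h2 : Φ ≠ 0 := e1 ▸ sc_ne hρ (h.prim _)
  have h3 := h.on.der'.ev (algebraMap ℂ W σ)
  have h4 := h3.sc (u * (algebraMap ℂ W σ)⁻¹)
  have h5 := om_sc hS (h.ev_on _) (h.prim _) (h.ev_on _).eu h3 hρ
  have h6 : S.sc (u * (algebraMap ℂ W σ)⁻¹) (S.eu (S.ev G (algebraMap ℂ W σ))) = S.eu Φ :=
    funext fun i => by
      simp only [e1, Cn.sc, Cn.eu]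
      ring
  rw [h6, av_const hS h, ← e1] at h5
  rw [← e1] at h4
  refine ⟨h1, h2, ?_, ?_⟩
  · rw [e2]
    exact (S.TanS Φ).add_mem ((S.TanS Φ).smul_mem _ h4) ((S.TanS Φ).smul_mem _ h1.eu)
  · rw [e2, om_right hS h1 h2 h1.eu h4 h1.eu, h5,
      CharZero.eq_neg_self_iff.1 (om_anti hS h1 h2 h1.eu h1.eu)]
    field_simp
    ring

theorem nest_main [IsAlgClosed W] (hS : S.Ok t n m) (h : S.LC 2 G) (P : Place ℂ W κ) {u : W}
    {R₁ R₂ : Fin S.M → κ[X]} (hu : u ≠ 0) (hu' : P.O.valuation u < 1) (h1 : P.RedP (dil u G) R₁)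
    (h2 : P.RedP (dil u (S.rev 2 G)) R₂) (h0 : S.top 1 R₁ ≠ 0) :
    ∃ r, P.Red (S.Av G / u) r ∧ (r = S.nom R₁ R₂ ∨ r = - S.nom R₁ R₂) := by
  have := charZero_of_injective_algebraMap (algebraMap ℂ κ).injective
  have hu0 : P.Red u 0 := Place.red_zero_iff.2 hu'
  have r0 : ∀ j : ℕ, P.Red (j : W) (j : κ) := fun j => by
    simpa only [map_natCast] using P.red_algebraMap (j : ℂ)
  have r1 : ∀ i k, P.Red ((G i).coeff k * u ^ k) ((R₁ i).coeff k) := fun i k => by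
    simpa only [coeff_dil, mul_comm] using h1 i k
  have r2 : ∀ i, ∀ e < S.w i, P.Red ((G i).coeff (S.w i + (e + 1)) * u ^ (S.w i - 1 - e))
      ((R₂ i).coeff (S.w i - 1 - e)) := fun i e he => by
    have h3 := h2 i (S.w i - 1 - e)
    rwa [coeff_dil, Cn.rev, coeff_reflect, revAt_le (by omega), mul_comm,
      show 2 * S.w i - (S.w i - 1 - e) = S.w i + (e + 1) by omega] at h3
  have eq : ∀ (R : Fin S.M → κ[X]) (i : Fin S.M),
      (R i).coeff (S.w i - 1 - 0) = cv (S.rev 1 R) 1 i := fun R i => by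
    rw [cv, Cn.rev, coeff_reflect, one_mul, revAt_le (hS.wpos i), Nat.sub_zero]
  have rz : P.RedV (fun i => (G i).coeff (S.w i) * u ^ S.w i) (S.top 1 R₁) := fun i => by
    simpa only [Cn.top, one_mul] using r1 i (S.w i)
  rw [Cn.nom]
  have rp : ∀ σ, P.RedV (nestP S u G σ) fun i => cv (S.rev 1 R₁) 1 i * algebraMap ℂ κ σ⁻¹ +
      cv (S.rev 1 R₂) 1 i * algebraMap ℂ κ σ := fun σ i =>
    nest_red P (hS.wpos i) hu0 (fun e _ => (r1 i _).1) (fun e he => (r2 i e he).1)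
      (eq R₁ i ▸ r1 i _) (eq R₂ i ▸ r2 i 0 (hS.wpos i)) σ
  have rv : ∀ σ, P.RedV (nestP S u (nestL S G) σ) fun i =>
      -cv (S.rev 1 R₁) 1 i * algebraMap ℂ κ σ⁻¹ + cv (S.rev 1 R₂) 1 i * algebraMap ℂ κ σ :=
    fun σ i => by
    simp only [nestP, nest_coeff, mul_assoc]
    refine nest_red P (hS.wpos i) hu0 (fun e _ => (((r0 _).sub (r0 _)).mul (r1 i _)).1)
      (fun e he => (((r0 _).sub (r0 _)).mul (r2 i e he)).1) ?_ ?_ σ
    · have h3 := ((r0 (S.w i - 1 - 0)).sub (r0 (S.w i))).mul (r1 i (S.w i - 1 - 0))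
      rwa [eq, Nat.sub_zero _, Nat.cast_pred (R := κ) (hS.wpos i), sub_sub_cancel_left,
        neg_one_mul] at h3
    · have h3 := ((r0 (S.w i + (0 + 1))).sub (r0 (S.w i))).mul (r2 i 0 (hS.wpos i))
      rwa [eq, Nat.cast_add (R := κ), add_sub_cancel_left, zero_add, Nat.cast_one (R := κ),
        one_mul] at h3
  generalize cv (S.rev 1 R₁) 1 = q₁ at rp rv
  generalize cv (S.rev 1 R₂) 1 = q₂ at rp rv
  generalize S.top 1 R₁ = q at rz h0
  have rΦ : ∀ σ, P.RedV (fun i => (G i).coeff (S.w i) * u ^ S.w i + u * nestP S u G σ i) q :=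
    fun σ i => by simpa only [zero_mul, add_zero] using (rz i).add (hu0.mul (rp σ i))
  have hq : S.On q := red_on P (nest_pt hS h hu one_ne_zero rfl).1 (rΦ 1)
  obtain ⟨Q, a, hQ, ha⟩ := hS.inv κ q hq h0
  obtain ⟨k, hk, hw⟩ : ∃ k, 2 < k ∧ ∀ i, S.w i < k := ⟨∑ i, S.w i + 3, by omega, fun i =>
    Nat.lt_add_of_pos_right (k := 3) (by omega) |>.trans_le' (Finset.single_le_sum
      (fun _ _ => Nat.zero_le _) (Finset.mem_univ i))⟩
  have hζ := Complex.isPrimitiveRoot_exp k (by omega)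
  generalize Complex.exp _ = ζ at hζ
  choose T hT hT' using fun σ j => nest_tay P hu0 rz (rp σ) (nestN S a j)
  have e1 : ∀ j ∈ Finset.range k, MvPolynomial.aeval (fun i => (G i).coeff (S.w i) * u ^ S.w i +
      u * nestP S u G (ζ ^ j) i) Q * S.Av G = ∑ l, MvPolynomial.aeval (fun i => (G i).coeff (S.w i) *
        u ^ S.w i) (nestN S a l) * nestP S u (nestL S G) (ζ ^ j) l +
      u * ∑ l, T (ζ ^ j) l * nestP S u (nestL S G) (ζ ^ j) l := fun j _ => by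
    obtain ⟨a1, a2, a3, a4⟩ := nest_pt hS h hu (pow_ne_zero j (hζ.ne_zero (by omega))) rfl
    have a5 := (Place.Red.aeval (rΦ (ζ ^ j)) Q).left_ne hQ
    rw [← a4, om_inv hS a1 a2 a1.eu a5 (ha W _ _ a1 a3), mul_div_cancel₀ _ a5, nest_dot,
      Finset.mul_sum, ← Finset.sum_add_distrib]
    exact Finset.sum_congr rfl fun l _ => by rw [hT]; ring
  have e2 := Finset.sum_congr rfl e1
  rw [Finset.sum_add_distrib, Finset.sum_comm, ← Finset.sum_mul, ← Finset.mul_sum,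
    Finset.sum_eq_zero (s := Finset.univ) fun (l : Fin S.M) _ => by
      rw [← Finset.mul_sum]
      exact mul_eq_zero_of_right _ (nest_avgT hζ (hw l) _ _ _), zero_add] at e2
  have b1 := Place.Red.sum (P := P) (Finset.range k) fun j _ => Place.Red.aeval (rΦ (ζ ^ j)) Q
  have b2 := Place.Red.sum (P := P) (Finset.range k) fun j _ =>
    Place.Red.sum (P := P) Finset.univ fun l _ => (hT' (ζ ^ j) l).mul (rv (ζ ^ j) l)
  have hk0 : (k : κ) ≠ 0 := Nat.cast_ne_zero.2 (by omega)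
  rw [Finset.sum_const, Finset.card_range, nsmul_eq_mul] at b1
  have b3 := b2.mul (b1.inv (mul_ne_zero hk0 hQ))
  rw [← div_eq_mul_inv, ← (div_eq_div_iff hu (b1.left_ne (mul_ne_zero hk0 hQ))).2
    ((mul_comm _ _).trans (e2.trans (mul_comm _ _)))] at b3
  have b4 : P.Red (S.Av G) 0 := by
    simpa only [mul_div_cancel₀ _ hu, zero_mul] using hu0.mul b3
  have c1 : ∀ σ : ℂ, σ ≠ 0 → S.Tan q ((-algebraMap ℂ κ σ⁻¹) • q₁ + algebraMap ℂ κ σ • q₂) ∧
      S.om q (S.eu q) ((-algebraMap ℂ κ σ⁻¹) • q₁ + algebraMap ℂ κ σ • q₂) = 0 := fun σ hσ => by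
    obtain ⟨a1, -, a3, a4⟩ := nest_pt hS h hu hσ rfl
    have a5 : P.RedV (nestP S u (nestL S G) σ)
        ((-algebraMap ℂ κ σ⁻¹) • q₁ + algebraMap ℂ κ σ • q₂) := fun i => by
      simpa only [Pi.add_apply, Pi.smul_apply, smul_eq_mul, neg_mul, mul_neg, mul_comm] using rv σ i
    have a6 := om_red hS P a1 a1.eu a3 (rΦ σ) h0 (w := S.eu q) (fun i => (r0 _).mul (rΦ σ i)) a5
    exact ⟨red_tan P a3 (rΦ σ) a5, (a4 ▸ a6).unique b4⟩
  obtain ⟨c2, c3⟩ := c1 1 one_ne_zero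
  obtain ⟨c4, c5⟩ := c1 2 two_ne_zero
  have c6 : ∀ (x y : κ) (v : Fin S.M → κ), v = x • ((-algebraMap ℂ κ 1⁻¹) • q₁ +
      algebraMap ℂ κ 1 • q₂) + y • ((-algebraMap ℂ κ 2⁻¹) • q₁ + algebraMap ℂ κ 2 • q₂) →
      S.Tan q v ∧ S.om q (S.eu q) v = 0 := by
    rintro x y v rfl
    exact ⟨(S.TanS q).add_mem ((S.TanS q).smul_mem _ c2) ((S.TanS q).smul_mem _ c4), by
      rw [om_right hS hq h0 hq.eu c2 c4, c3, c5, mul_zero, mul_zero, add_zero]⟩
  obtain ⟨d1, d2⟩ := c6 (-4 / 3) (2 / 3) q₁ (funext fun i => by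
    simp only [Pi.add_apply, Pi.smul_apply, smul_eq_mul, map_inv₀, map_one, map_ofNat]
    ring)
  obtain ⟨d3, d4⟩ := c6 (-1 / 3) (2 / 3) q₂ (funext fun i => by
    simp only [Pi.add_apply, Pi.smul_apply, smul_eq_mul, map_inv₀, map_one, map_ofNat]
    ring)
  refine ⟨_, b3, Or.inl ?_⟩
  rw [mul_inv_eq_iff_eq_mul₀ (mul_ne_zero hk0 hQ), mul_comm, mul_assoc,
    ← nest_key hS hq h0 hQ ha d1 d3 d2 d4, Finset.sum_comm, ← Finset.sum_sub_distrib,
    Finset.mul_sum]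
  refine Finset.sum_congr rfl fun l _ => ?_
  simp only [nestD, Finset.sum_mul]
  rw [Finset.sum_comm, ← Finset.sum_sub_distrib, Finset.mul_sum]
  refine Finset.sum_congr rfl fun i _ => ?_
  simp only [mul_assoc]
  rw [← Finset.mul_sum, nest_avg2 hζ hk]
  ring

end Vale.Agent.P292
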