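import Vale.Agent.P292.C.Basic

/-! P292 C/NEstA. The differential of the contact form at a point of the cone. -/

open Polynomial Set Matrix

noncomputable section

namespace Vale.Agent.P292

open Vale.Agent.P271 Vale.Agent.P276

variable {K : Type} [Field K] [Algebra ℂ K] {N n m : ℕ} {t : Fin (N + 1) → K} {S : Cn K N}
  {W : Type} [Field W] [Algebra ℂ W]

/-- The derivative of `P` at `z` in the direction `a`. -/
def nestD {τ : Type} [Fintype τ] (z a : τ → W) (P : MvPolynomial τ ℂ) : W :=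
  ∑ i, MvPolynomial.aeval z (MvPolynomial.pderiv i P) * a i

/-- A point over the dual numbers. -/
def nestPt {τ : Type} (z a : τ → W) : τ → DualNumber W := fun i => (z i, a i)

theorem nest_dual {τ : Type} [Fintype τ] (z a : τ → W) (P : MvPolynomial τ ℂ) :
    (MvPolynomial.aeval (nestPt z a) P).fst = MvPolynomial.aeval z P ∧
      (MvPolynomial.aeval (nestPt z a) P).snd = nestD z a P := by
  induction P using MvPolynomial.induction_on with
  | C c => simp [nestD, TrivSqZeroExt.algebraMap_eq_inl']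
  | add p q hp hq =>
    simp only [map_add, TrivSqZeroExt.fst_add, TrivSqZeroExt.snd_add, hp.1, hp.2, hq.1, hq.2, nestD,
      add_mul, Finset.sum_add_distrib, and_self]
  | mul_X p i hp =>
    rw [map_mul, map_mul, TrivSqZeroExt.fst_mul, DualNumber.snd_mul, hp.1, hp.2, nestD, nestD,
      bring_mul, bring_X, MvPolynomial.aeval_X, MvPolynomial.aeval_X]
    exact ⟨rfl, by rw [mul_comm (z i)]; rfl⟩

/-- The numerators of the contact form. -/
def nestN (S : Cn K N) (a : Matrix (Fin S.M) (Fin S.M) (MvPolynomial (Fin S.M) ℂ)) (j : Fin S.M) :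
    MvPolynomial (Fin S.M) ℂ := ∑ i, (S.w i : MvPolynomial (Fin S.M) ℂ) * MvPolynomial.X i * a i j

omit [Field K] [Algebra ℂ K] in
theorem nest_dot {R : Type} [CommRing R] [Algebra ℂ R]
    (a : Matrix (Fin S.M) (Fin S.M) (MvPolynomial (Fin S.M) ℂ)) (z δ : Fin S.M → R) :
    S.eu z ⬝ᵥ (a.map (MvPolynomial.aeval z) *ᵥ δ) =
      ∑ j, MvPolynomial.aeval z (nestN S a j) * δ j := by
  simp only [nestN, Cn.eu, dotProduct, mulVec, map_sum, map_mul, map_natCast, MvPolynomial.aeval_X,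
    Finset.mul_sum, Finset.sum_mul, map_apply]
  rw [Finset.sum_comm]
  exact Finset.sum_congr rfl fun i _ => Finset.sum_congr rfl fun j _ => by ring

theorem nest_ring (hS : S.Ok t n m) {q : MvPolynomial (Fin S.M) ℂ}
    {a : Matrix (Fin S.M) (Fin S.M) (MvPolynomial (Fin S.M) ℂ)} {R : Type} [CommRing R]
    [Algebra ℂ R] {z : Fin S.M → R} (h : S.On z)
    (ha : ∀ δ, S.Tan z δ → S.pm z *ᵥ (a.map (MvPolynomial.aeval z) *ᵥ δ) =
      MvPolynomial.aeval z q • δ) (ξ : Fin S.M → R) :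
    MvPolynomial.aeval z q * (∑ j, MvPolynomial.aeval z (nestN S a j) * (S.pm z *ᵥ ξ) j -
      MvPolynomial.aeval z q * (S.eu z ⬝ᵥ ξ)) = 0 := by
  have h1 := pm_dot hS z (a.map (MvPolynomial.aeval z) *ᵥ S.eu z)
    (a.map (MvPolynomial.aeval z) *ᵥ (S.pm z *ᵥ ξ))
  have h2 := pm_dot hS z (a.map (MvPolynomial.aeval z) *ᵥ S.eu z) ξ
  rw [ha _ h.eu, smul_dotProduct, smul_eq_mul] at h1 h2
  rw [ha _ (tan_pm hS h ξ), dotProduct_smul, smul_eq_mul, nest_dot] at h1
  linear_combination h1 - MvPolynomial.aeval z q * h2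

theorem nest_key (hS : S.Ok t n m) {q : MvPolynomial (Fin S.M) ℂ}
    {a : Matrix (Fin S.M) (Fin S.M) (MvPolynomial (Fin S.M) ℂ)} {z u v : Fin S.M → W}
    (h : S.On z) (h0 : z ≠ 0) (hq : MvPolynomial.aeval z q ≠ 0)
    (ha : ∀ (R : Type) [CommRing R] [Algebra ℂ R] (z' δ : Fin S.M → R), S.On z' → S.Tan z' δ →
      S.pm z' *ᵥ (a.map (MvPolynomial.aeval z') *ᵥ δ) = MvPolynomial.aeval z' q • δ)
    (hu : S.Tan z u) (hv : S.Tan z v) (hu' : S.om z (S.eu z) u = 0) (hv' : S.om z (S.eu z) v = 0) :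
    ∑ j, nestD z u (nestN S a j) * v j - ∑ j, nestD z v (nestN S a j) * u j =
      MvPolynomial.aeval z q * S.om z u v := by
  set ν : Fin S.M → W := fun j => MvPolynomial.aeval z (nestN S a j) with hν
  have e0 : ∀ ξ : Fin S.M → W, ∑ j, ν j * (S.pm z *ᵥ ξ) j =
      MvPolynomial.aeval z q * (S.eu z ⬝ᵥ ξ) := fun ξ => sub_eq_zero.1
    ((mul_eq_zero.1 (nest_ring hS h (fun δ => ha W z δ h) ξ)).resolve_left hq)
  have e1 : ∀ u ξ : Fin S.M → W, S.Tan z u → S.eu z ⬝ᵥ ξ = 0 →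
      ∑ j, nestD z u (nestN S a j) * (S.pm z *ᵥ ξ) j + bcl_G S z u ν ξ =
        MvPolynomial.aeval z q * (S.eu u ⬝ᵥ ξ) := fun u ξ hu hξ => by
    have h1 : S.On (nestPt z u) := fun k P hP hc => TrivSqZeroExt.ext
      ((nest_dual z u P).1.trans (h k P hP hc)) ((nest_dual z u P).2.trans (hu k P hP hc))
    have h2 := congrArg TrivSqZeroExt.snd
      (nest_ring hS h1 (fun δ => ha _ _ δ h1) fun i => TrivSqZeroExt.inl (ξ i))
    have h3 := e0 ξ
    have h4 : ∀ i, (nestPt z u i).fst = z i ∧ (nestPt z u i).snd = u i := fun i => ⟨rfl, rfl⟩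
    simp only [DualNumber.snd_mul, TrivSqZeroExt.snd_sub, TrivSqZeroExt.fst_sub,
      TrivSqZeroExt.fst_mul, TrivSqZeroExt.fst_sum, TrivSqZeroExt.snd_sum, (nest_dual z u _).1,
      (nest_dual z u _).2, mulVec, dotProduct, Cn.pm, of_apply, Cn.eu, TrivSqZeroExt.fst_inl,
      TrivSqZeroExt.snd_inl, TrivSqZeroExt.fst_natCast, TrivSqZeroExt.snd_natCast, (h4 _).1,
      (h4 _).2, TrivSqZeroExt.snd_zero, mul_zero, zero_mul, zero_add, add_zero,
      Finset.sum_add_distrib] at h2 h3 hξ ⊢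
    rw [h3, hξ] at h2
    have h5 : bcl_G S z u ν ξ = ∑ i, ν i * ∑ j, nestD z u (S.p i j) * ξ j := by
      refine Finset.sum_congr rfl fun i _ => ?_
      rw [Finset.mul_sum]
      exact Finset.sum_congr rfl fun j _ => mul_comm _ _
    rw [h5]
    refine mul_left_cancel₀ hq ?_
    linear_combination h2
  obtain ⟨ξ₁, rfl⟩ := (tan_iff hS h h0).1 hu
  obtain ⟨ξ₂, rfl⟩ := (tan_iff hS h h0).1 hv
  rw [om_pm hS h h0 h.eu] at hu' hv'
  have e2 : S.pm z *ᵥ ν = (-MvPolynomial.aeval z q) • S.eu z := by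
    refine dotProduct_eq _ _ fun ξ => ?_
    rw [pm_dot hS, smul_dotProduct, smul_eq_mul, neg_mul, ← e0]
    rfl
  have e3 : bcl_G S z (S.pm z *ᵥ ν) ξ₂ ξ₁ = -MvPolynomial.aeval z q * bcl_G S z (S.eu z) ξ₂ ξ₁ := by
    simp only [e2, bcl_G, Pi.smul_apply, smul_eq_mul, Finset.mul_sum, Finset.sum_mul]
    exact Finset.sum_congr rfl fun i _ => Finset.sum_congr rfl fun j _ =>
      Finset.sum_congr rfl fun l _ => by ring
  have c := bcl_cyc hS h ξ₁ ν ξ₂
  rw [e3, bcl_eu hS, bcl_anti hS z _ ξ₁ ν] at c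
  rw [om_pm hS h h0 hu]
  linear_combination e1 _ ξ₂ hu hv' - e1 _ ξ₁ hv hu' - c

end Vale.Agent.P292
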