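import Vale.Agent.P292.C.NEstA
import Vale.Agent.P276.C.RedQ

/-! P292 C/NEstB. Laurent expansions on the neck of a degenerating conic. -/

open Polynomial Set Matrix

noncomputable section

namespace Vale.Agent.P292

open Vale.Agent.P271 Vale.Agent.P276

variable {W κ : Type} [Field W] [Algebra ℂ W] [Field κ] [Algebra ℂ κ]

/-- The nonconstant part of a Laurent polynomial, divided by `u`. -/
def nestT (w : ℕ) (u : W) (c₁ c₂ : ℕ → W) (σ : ℂ) : W := ∑ e ∈ Finset.range w,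
  u ^ e * (c₁ e * algebraMap ℂ W (σ⁻¹ ^ (e + 1)) + c₂ e * algebraMap ℂ W (σ ^ (e + 1)))

theorem nest_sum {g : W[X]} {w : ℕ} (hg : g.natDegree ≤ 2 * w) (u : W) {σ : ℂ} (hσ : σ ≠ 0) :
    (u * (algebraMap ℂ W σ)⁻¹) ^ w * g.eval (algebraMap ℂ W σ) = g.coeff w * u ^ w + u *
      nestT w u (fun e => g.coeff (w - 1 - e) * u ^ (w - 1 - e))
        (fun e => g.coeff (w + (e + 1)) * u ^ (w - 1 - e)) σ := by
  have hs : algebraMap ℂ W σ ≠ 0 := (_root_.map_ne_zero _).2 hσ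
  rw [eval_eq_sum_range' (n := w + (w + 1)) (by omega), Finset.sum_range_add,
    Finset.sum_range_succ', ← Finset.sum_range_reflect, mul_add, mul_add, Finset.mul_sum,
    Finset.mul_sum, ← add_assoc, ← Finset.sum_add_distrib, add_comm, nestT, Finset.mul_sum]
  simp only [map_pow, map_inv₀, mul_pow, inv_pow]
  generalize algebraMap ℂ W σ = s at hs
  refine congrArg₂ (· + ·) (by rw [add_zero]; field_simp) (Finset.sum_congr rfl fun e he => ?_)
  obtain ⟨d, rfl⟩ := Nat.exists_eq_add_of_lt (Finset.mem_range.1 he)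
  rw [show e + d + 1 - 1 - e = d by omega]
  field_simp
  ring

theorem nest_red (P : Place ℂ W κ) {w : ℕ} (hw : 0 < w) {u : W} (hu : P.Red u 0) {c₁ c₂ : ℕ → W}
    (h1 : ∀ e < w, c₁ e ∈ P.O) (h2 : ∀ e < w, c₂ e ∈ P.O) {d₁ d₂ : κ} (h3 : P.Red (c₁ 0) d₁)
    (h4 : P.Red (c₂ 0) d₂) (σ : ℂ) :
    P.Red (nestT w u c₁ c₂ σ) (d₁ * algebraMap ℂ κ σ⁻¹ + d₂ * algebraMap ℂ κ σ) := by
  obtain ⟨w, rfl⟩ := Nat.exists_eq_succ_of_ne_zero hw.ne'
  rw [nestT, Finset.sum_range_succ']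
  have h5 : P.Red (∑ e ∈ Finset.range w, u ^ (e + 1) * (c₁ (e + 1) *
      algebraMap ℂ W (σ⁻¹ ^ (e + 1 + 1)) + c₂ (e + 1) * algebraMap ℂ W (σ ^ (e + 1 + 1))))
      (∑ _e ∈ Finset.range w, 0) := Place.Red.sum _ fun e he => by
    have he' : e + 1 < w + 1 := Nat.succ_lt_succ (Finset.mem_range.1 he)
    obtain ⟨y, hy⟩ := Place.exists_red_mem (P := P) (h1 _ he')
    obtain ⟨y', hy'⟩ := Place.exists_red_mem (P := P) (h2 _ he')
    have h6 := (hu.pow (e + 1)).mul ((hy.mul (Place.red_algebraMap (σ⁻¹ ^ (e + 1 + 1)))).add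
      (hy'.mul (Place.red_algebraMap (σ ^ (e + 1 + 1)))))
    rwa [zero_pow (Nat.succ_ne_zero e), zero_mul] at h6
  have h6 := h5.add ((h3.mul (Place.red_algebraMap σ⁻¹)).add (h4.mul (Place.red_algebraMap σ)))
  rw [Finset.sum_const_zero, zero_add] at h6
  rwa [pow_zero, one_mul, zero_add, pow_one, pow_one]

theorem nest_avg {ζ : ℂ} {k e : ℕ} (hζ : IsPrimitiveRoot ζ k) (h0 : e ≠ 0) (h1 : e < k) :
    ∑ j ∈ Finset.range k, (ζ ^ j) ^ e = 0 := by
  have h2 := geom_sum_mul (ζ ^ e) k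
  rw [← pow_mul, mul_comm e k, pow_mul, hζ.pow_eq_one, one_pow, sub_self] at h2
  rw [← (mul_eq_zero.1 h2).resolve_right (sub_ne_zero.2 (hζ.pow_ne_one_of_pos_of_lt h0 h1))]
  exact Finset.sum_congr rfl fun j _ => pow_right_comm ζ j e

theorem nest_avgT {ζ : ℂ} {k w : ℕ} (hζ : IsPrimitiveRoot ζ k) (h1 : w < k) (u : W)
    (c₁ c₂ : ℕ → W) : ∑ j ∈ Finset.range k, nestT w u c₁ c₂ (ζ ^ j) = 0 := by
  simp only [nestT]
  rw [Finset.sum_comm]
  refine Finset.sum_eq_zero fun e he => ?_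
  have he' : e + 1 < k := lt_of_le_of_lt (Finset.mem_range.1 he) h1
  have h2 := nest_avg hζ.inv (Nat.succ_ne_zero e) he'
  simp only [inv_pow ζ] at h2
  rw [← Finset.mul_sum, Finset.sum_add_distrib, ← Finset.mul_sum, ← Finset.mul_sum, ← map_sum,
    ← map_sum, nest_avg hζ (Nat.succ_ne_zero e) he', h2, map_zero, mul_zero, mul_zero, add_zero,
    mul_zero]

theorem nest_avg2 {ζ : ℂ} {k : ℕ} (hζ : IsPrimitiveRoot ζ k) (h1 : 2 < k) (a b c d : κ) :
    ∑ j ∈ Finset.range k, (a * algebraMap ℂ κ (ζ ^ j)⁻¹ + b * algebraMap ℂ κ (ζ ^ j)) *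
      (c * algebraMap ℂ κ (ζ ^ j)⁻¹ + d * algebraMap ℂ κ (ζ ^ j)) = k * (a * d + b * c) := by
  have h2 := congrArg (algebraMap ℂ κ) (nest_avg hζ.inv two_ne_zero h1)
  have h3 := congrArg (algebraMap ℂ κ) (nest_avg hζ two_ne_zero h1)
  simp only [inv_pow ζ] at h2
  rw [map_sum, map_zero] at h2 h3
  have h4 : ∀ j ∈ Finset.range k, (a * algebraMap ℂ κ (ζ ^ j)⁻¹ + b * algebraMap ℂ κ (ζ ^ j)) *
      (c * algebraMap ℂ κ (ζ ^ j)⁻¹ + d * algebraMap ℂ κ (ζ ^ j)) =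
      a * c * algebraMap ℂ κ ((ζ ^ j)⁻¹ ^ 2) + b * d * algebraMap ℂ κ ((ζ ^ j) ^ 2) +
        (a * d + b * c) := fun j _ => by
    have h5 : algebraMap ℂ κ (ζ ^ j)⁻¹ * algebraMap ℂ κ (ζ ^ j) = 1 := by
      rw [← map_mul, inv_mul_cancel₀ (pow_ne_zero j (hζ.ne_zero (by omega))), map_one]
    rw [map_pow _ (ζ ^ j)⁻¹, map_pow _ (ζ ^ j)]
    linear_combination (a * d + b * c) * h5
  rw [Finset.sum_congr rfl h4, Finset.sum_add_distrib, Finset.sum_add_distrib, ← Finset.mul_sum,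
    ← Finset.mul_sum, h2, h3, Finset.sum_const, Finset.card_range, nsmul_eq_mul, mul_zero,
    mul_zero, zero_add, zero_add]

theorem nest_tay (P : Place ℂ W κ) {τ : Type} [Fintype τ] {u : W} (hu : P.Red u 0) {z p : τ → W}
    {z' p' : τ → κ} (hz : P.RedV z z') (hp : P.RedV p p') (F : MvPolynomial τ ℂ) :
    ∃ T, MvPolynomial.aeval (fun i => z i + u * p i) F = MvPolynomial.aeval z F + u * T ∧
      P.Red T (nestD z' p' F) := by
  induction F using MvPolynomial.induction_on with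
  | C c => exact ⟨0, by simp, by simpa [nestD] using Place.red_zero⟩
  | add f g hf hg =>
    obtain ⟨T, h1, h2⟩ := hf
    obtain ⟨T', h1', h2'⟩ := hg
    refine ⟨T + T', by rw [map_add, map_add, h1, h1']; ring, ?_⟩
    simpa only [nestD, map_add, add_mul, Finset.sum_add_distrib] using h2.add h2'
  | mul_X f i hf =>
    obtain ⟨T, h1, h2⟩ := hf
    refine ⟨MvPolynomial.aeval z f * p i + (z i + u * p i) * T, ?_, ?_⟩
    · rw [map_mul, map_mul, h1, MvPolynomial.aeval_X, MvPolynomial.aeval_X]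
      ring
    · have h3 := ((Place.Red.aeval hz f).mul (hp i)).add (((hz i).add (hu.mul (hp i))).mul h2)
      rwa [nestD, bring_mul, bring_X, MvPolynomial.aeval_X, ← add_zero (z' i), ← zero_mul (p' i)]

end Vale.Agent.P292
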