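import Vale.Agent.P292.C.Int

/-! P292 C/Neck. Functions on the neck `x * y = c` of a degenerating conic.
`i2_aeval`: induction on `Q` (`coeff_mul`, `sum_mem`; constants lie in `O` by `Ov`, `IntermediateField.algebraMap_mem`). `ct_zero`: with `D = f.totalDegree`, the polynomial `∑ d ∈ f.support, monomial (D + d 1 - d 0) (coeff d f * c ^ d 1)` takes the value `s ^ D * eval _ f` at `s ≠ 0`, so it is zero (`eq_of_ne`); take the coefficient `D`. `neck`: apply `ct_zero` to `C A * f - g` (sum over a finite set that contains all supports, `Finset.sum_subset`) and split off the terms `d = 0` and `d = d11`; the other diagonal `d` have `2 ≤ d 1`. `coeff_d11`: induction on `g` by monomials (`pderiv_monomial`). Helper names start with `cnk_`. -/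

open Polynomial Set Matrix

set_option linter.unusedSectionVars false

noncomputable section

namespace Vale.Agent.P292

open Vale.Agent.P271 Vale.Agent.P276

variable {K : Type} [Field K] [Algebra ℂ K] {N n m : ℕ} {t : Fin (N + 1) → K} {S : Cn K N}
  {W W' κ : Type} [Field W] [Algebra ℂ W] [Field W'] [Algebra ℂ W'] [Field κ] [Algebra ℂ κ]
  {δ : ℕ} {a b : ℤ} {G R R₁ R₂ v v' : Fin S.M → W[X]} {O : ValuationSubring W} {A B Y : Set W}

/-- All coefficients are integral. -/
def I2 (O : ValuationSubring W) (f : MvPolynomial (Fin 2) W) : Prop := ∀ d, f.coeff d ∈ O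

/-- The exponent of `x * y`. -/
def d11 : Fin 2 →₀ ℕ := Finsupp.single 0 1 + Finsupp.single 1 1

theorem I2.add {f g : MvPolynomial (Fin 2) W} (hf : I2 O f) (hg : I2 O g) : I2 O (f + g) := by
  intro d
  rw [MvPolynomial.coeff_add]
  exact O.add_mem _ _ (hf d) (hg d)

theorem I2.neg {f : MvPolynomial (Fin 2) W} (hf : I2 O f) : I2 O (-f) := by
  intro d
  rw [MvPolynomial.coeff_neg]
  exact O.neg_mem _ (hf d)

theorem I2.mul {f g : MvPolynomial (Fin 2) W} (hf : I2 O f) (hg : I2 O g) : I2 O (f * g) := by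
  classical
  intro d
  rw [MvPolynomial.coeff_mul]
  exact sum_mem fun x _ => O.mul_mem _ _ (hf _) (hg _)

theorem i2_sum {σ : Type} (T : Finset σ) {f : σ → MvPolynomial (Fin 2) W}
    (hf : ∀ i ∈ T, I2 O (f i)) : I2 O (∑ i ∈ T, f i) := by
  intro d
  rw [MvPolynomial.coeff_sum]
  exact sum_mem fun i hi => hf i hi d

theorem i2_C {c : W} (hc : c ∈ O) : I2 O (MvPolynomial.C c) := by
  classical
  intro d
  rw [MvPolynomial.coeff_C]
  split_ifs
  · exact hc
  · exact O.zero_mem

theorem i2_X (j : Fin 2) : I2 O (MvPolynomial.X j) := by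
  classical
  intro d
  rw [MvPolynomial.coeff_X]
  split_ifs
  · exact O.one_mem
  · exact O.zero_mem

theorem cnk_pow (j : Fin 2) (i : ℕ) : I2 O (MvPolynomial.X j ^ i) := by
  induction i with
  | zero =>
    rw [pow_zero, ← MvPolynomial.C_1]
    exact i2_C O.one_mem
  | succ i ih =>
    rw [pow_succ]
    exact ih.mul (i2_X j)

theorem i2_pol {p : W[X]} (hp : ∀ k, p.coeff k ∈ O) (j : Fin 2) :
    I2 O (aeval (MvPolynomial.X j : MvPolynomial (Fin 2) W) p) := by
  rw [aeval_eq_sum_range]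
  refine i2_sum _ fun i _ => ?_
  rw [MvPolynomial.smul_eq_C_mul]
  exact (i2_C (hp i)).mul (cnk_pow j i)

theorem i2_aeval (hO : Ov ∅ O) {σ : Type} {Z : σ → MvPolynomial (Fin 2) W} (hZ : ∀ i, I2 O (Z i))
    (Q : MvPolynomial σ ℂ) : I2 O (MvPolynomial.aeval Z Q) := by
  induction Q using MvPolynomial.induction_on with
  | C a =>
    rw [MvPolynomial.aeval_C, MvPolynomial.algebraMap_apply]
    exact i2_C (hO _ (IntermediateField.algebraMap_mem _ a))
  | add p q hp hq =>
    rw [map_add]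
    exact hp.add hq
  | mul_X p i hp =>
    rw [map_mul, MvPolynomial.aeval_X]
    exact hp.mul (hZ i)

theorem ct_zero {f : MvPolynomial (Fin 2) W} {c : W}
    (h : ∀ s : W, s ≠ 0 → MvPolynomial.eval ![s⁻¹, c * s] f = 0) :
    ∑ d ∈ f.support with d 0 = d 1, f.coeff d * c ^ d 1 = 0 := by
  classical
  obtain ⟨D, hD⟩ : ∃ D : ℕ, ∀ d ∈ f.support, d 0 ≤ D :=
    ⟨f.support.sup fun d => d 0, fun d hd => Finset.le_sup (f := fun d : Fin 2 →₀ ℕ => d 0) hd⟩
  have hp : (∑ d ∈ f.support, monomial (D + d 1 - d 0) (f.coeff d * c ^ d 1) : W[X]) = 0 := by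
    refine eq_of_ne fun s hs => ?_
    have h1 := h s hs
    rw [MvPolynomial.eval_eq'] at h1
    rw [eval_zero, eval_finsetSum, ← mul_zero (s ^ D), ← h1, Finset.mul_sum]
    refine Finset.sum_congr rfl fun d hd => ?_
    have h2 : s ^ (D + d 1 - d 0) * s ^ d 0 = s ^ D * s ^ d 1 := by
      rw [← pow_add, ← pow_add, Nat.sub_add_cancel ((hD d hd).trans (Nat.le_add_right _ _))]
    have h3 : s ^ (D + d 1 - d 0) = s ^ D * s ^ d 1 * (s ^ d 0)⁻¹ := by
      rw [← h2, mul_assoc, mul_inv_cancel₀ (pow_ne_zero _ hs), mul_one]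
    rw [eval_monomial, Fin.prod_univ_two, h3]
    simp only [Matrix.cons_val_zero, Matrix.cons_val_one, inv_pow, mul_pow]
    ring
  have hc := congrArg (fun p : W[X] => p.coeff D) hp
  simp only [finsetSum_coeff, coeff_monomial, coeff_zero] at hc
  rw [Finset.sum_filter]
  refine Eq.trans (Finset.sum_congr rfl fun d hd => ?_) hc
  have := hD d hd
  by_cases h0 : d 0 = d 1
  · rw [if_pos h0, if_pos (by omega)]
  · rw [if_neg h0, if_neg (by omega)]

theorem cnk_ext {d : Fin 2 →₀ ℕ} (h0 : d 0 = 1) (h1 : d 1 = 1) : d = d11 := by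
  ext i
  fin_cases i
  · simp [d11, h0]
  · simp [d11, h1]

theorem cnk_split {f : MvPolynomial (Fin 2) W} (hf : I2 O f) {c : W} (hc : c ∈ O)
    {T : Finset (Fin 2 →₀ ℕ)} (h0 : 0 ∈ T) (h1 : d11 ∈ T) :
    ∃ e ∈ O, ∑ d ∈ T with d 0 = d 1, f.coeff d * c ^ d 1 =
      f.coeff 0 + c * f.coeff d11 + c ^ 2 * e := by
  classical
  have e0 : d11 0 = 1 := by simp [d11]
  have e1 : d11 1 = 1 := by simp [d11]
  have hne : d11 ≠ 0 := fun h => by
    rw [h] at e0
    exact zero_ne_one e0
  have m0 : (0 : Fin 2 →₀ ℕ) ∈ T.filter fun d => d 0 = d 1 := Finset.mem_filter.2 ⟨h0, rfl⟩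
  have m1 : d11 ∈ (T.filter fun d => d 0 = d 1).erase 0 :=
    Finset.mem_erase.2 ⟨hne, Finset.mem_filter.2 ⟨h1, e0.trans e1.symm⟩⟩
  refine ⟨∑ d ∈ ((T.filter fun d => d 0 = d 1).erase 0).erase d11, f.coeff d * c ^ (d 1 - 2),
    sum_mem fun d _ => O.mul_mem _ _ (hf d) (pow_mem hc _), ?_⟩
  rw [← Finset.add_sum_erase _ _ m0, ← Finset.add_sum_erase _ _ m1, e1, Finset.mul_sum,
    Finsupp.zero_apply, pow_zero, mul_one, pow_one, mul_comm (f.coeff d11), add_assoc]
  refine congrArg _ (congrArg _ (Finset.sum_congr rfl fun d hd => ?_))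
  obtain ⟨n1, hd⟩ := Finset.mem_erase.1 hd
  obtain ⟨n0, hd⟩ := Finset.mem_erase.1 hd
  have hq := (Finset.mem_filter.1 hd).2
  have h2 : 2 ≤ d 1 := by
    by_contra hn
    rcases (by omega : d 1 = 0 ∨ d 1 = 1) with h | h
    · refine n0 ?_
      ext i
      fin_cases i
      · simpa [h] using hq
      · simpa using h
    · exact n1 (cnk_ext (hq.trans h) h)
  rw [mul_left_comm, ← pow_add, Nat.add_sub_cancel' h2]

theorem neck {f g : MvPolynomial (Fin 2) W} (hf : I2 O f) (hg : I2 O g) {c A : W} (hc : c ∈ O)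
    (h : ∀ s : W, s ≠ 0 → A * MvPolynomial.eval ![s⁻¹, c * s] f =
      MvPolynomial.eval ![s⁻¹, c * s] g) :
    ∃ e ∈ O, ∃ e' ∈ O, A * (f.coeff 0 + c * e) = g.coeff 0 + c * g.coeff d11 + c ^ 2 * e' := by
  classical
  have h0 := ct_zero (f := MvPolynomial.C A * f - g) (c := c) fun s hs => by
    rw [map_sub, map_mul, MvPolynomial.eval_C, h s hs, sub_self]
  obtain ⟨T, hT0, hT1, hTf, hTg⟩ : ∃ T : Finset (Fin 2 →₀ ℕ), 0 ∈ T ∧ d11 ∈ T ∧ f.support ⊆ T ∧
      g.support ⊆ T :=
    ⟨insert 0 (insert d11 (f.support ∪ g.support)), by simp, by simp,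
      fun d hd => by simp only [Finset.mem_insert, Finset.mem_union, hd, true_or, or_true],
      fun d hd => by simp only [Finset.mem_insert, Finset.mem_union, hd, or_true]⟩
  have hsub : (MvPolynomial.C A * f - g).support ⊆ T := fun d hd => by
    by_contra hn
    have h1 : f.coeff d = 0 := MvPolynomial.notMem_support_iff.1 fun h => hn (hTf h)
    have h2 : g.coeff d = 0 := MvPolynomial.notMem_support_iff.1 fun h => hn (hTg h)
    rw [MvPolynomial.mem_support_iff, MvPolynomial.coeff_sub, MvPolynomial.coeff_C_mul, h1, h2,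
      mul_zero, sub_zero] at hd
    exact hd rfl
  rw [Finset.sum_subset (Finset.filter_subset_filter _ hsub) (fun d hd hn => by
    have h1 : d ∉ (MvPolynomial.C A * f - g).support := fun h =>
      hn (Finset.mem_filter.2 ⟨h, (Finset.mem_filter.1 hd).2⟩)
    rw [MvPolynomial.notMem_support_iff.1 h1, zero_mul])] at h0
  simp only [MvPolynomial.coeff_sub, MvPolynomial.coeff_C_mul, sub_mul, mul_assoc,
    Finset.sum_sub_distrib, ← Finset.mul_sum] at h0
  obtain ⟨e, he, h1⟩ := cnk_split hf hc hT0 hT1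
  obtain ⟨e', he', h2⟩ := cnk_split hg hc hT0 hT1
  refine ⟨f.coeff d11 + c * e, O.add_mem _ _ (hf _) (O.mul_mem _ _ hc he), e', he', ?_⟩
  rw [h1, h2] at h0
  linear_combination h0

theorem coeff_d11 (g : MvPolynomial (Fin 2) W) :
    g.coeff d11 = MvPolynomial.constantCoeff (MvPolynomial.pderiv 0 (MvPolynomial.pderiv 1 g)) := by
  classical
  induction g using MvPolynomial.induction_on' with
  | monomial d a =>
    rw [MvPolynomial.pderiv_monomial, MvPolynomial.pderiv_monomial,
      MvPolynomial.constantCoeff_monomial, MvPolynomial.coeff_monomial]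
    by_cases hd : d = d11
    · subst hd
      have h1 : d11 - Finsupp.single 1 1 = Finsupp.single 0 1 := by
        rw [d11, add_tsub_cancel_right]
      rw [if_pos rfl, h1, if_pos (tsub_self _)]
      simp [d11]
    · rw [if_neg hd]
      split_ifs with h
      · have h0 := DFunLike.congr_fun h 0
        have h1 := DFunLike.congr_fun h 1
        simp only [Finsupp.coe_tsub, Pi.sub_apply, Finsupp.single_eq_same, Finsupp.coe_zero,
          Pi.zero_apply, Finsupp.single_apply] at h0 h1
        simp at h0 h1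
        by_cases e1 : d 1 = 0
        · simp [e1]
        by_cases e0 : d 0 = 0
        · simp [e0]
        exact (hd (cnk_ext (by omega) (by omega))).elim
      · rfl
  | add p q hp hq => rw [MvPolynomial.coeff_add, map_add, map_add, map_add, hp, hq]

end Vale.Agent.P292
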