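import Vale.Agent.P292.C.Neck
import Vale.Agent.P292.C.Beta
import Vale.Agent.P292.C.PolB

/-! P292 C/NeckB (TASK). The conic on the neck. Let `H = dil u G`, `H' = dil u (rev 2 G)`, `p = lo H`, `p' = lo H'`, `x = s⁻¹`, `y = u ^ 2 * s`.
`neck_pt`: `s ^ (-w) * H (s) = p (x) + p' (y) - z`: split the sum over `k ≤ 2 w` at `w`; `coeff (w + j) H = u ^ (2 j) * coeff (w - j) H'` (`coeff_dil`, `coeff_reflect`). `neck_vec`: the same with the factor `k - w`. `neck_form`: `bt_om` at the point `sc s⁻¹ (ev H s)`, `om_right`, `om_eu_eu`, `om_sc`, `av_const` for `H` (`LC.dil`), `av_sc`; `MvPolynomial.eval` commutes with `aeval` (`MvPolynomial.comp_aeval_apply` for `(MvPolynomial.aeval ![..]).restrictScalars ℂ`).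
`coef11`: `coeff_d11`; `pderiv j` restricted to `ℂ` is a derivation (`der_aeval`, Leibniz), `constantCoeff` is a ring map that sends `Zp k` to `z k`; at the origin `Vp = 0`, `∂₀ Vp = - p₁`, `∂₁ Vp = p'₁`, `∂₀ ∂₁ Vp = 0`, `∂₀ Zp = p₁`, `∂₁ Zp = p'₁`. Helper names start with `cnb_`. -/

open Polynomial Set Matrix

set_option linter.unusedSectionVars false

noncomputable section

namespace Vale.Agent.P292

open Vale.Agent.P271 Vale.Agent.P276

variable {K : Type} [Field K] [Algebra ℂ K] {N n m : ℕ} {t : Fin (N + 1) → K} {S : Cn K N}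
  {W W' κ : Type} [Field W] [Algebra ℂ W] [Field W'] [Algebra ℂ W'] [Field κ] [Algebra ℂ κ]
  {δ : ℕ} {a b : ℤ} {G R R₁ R₂ v v' : Fin S.M → W[X]} {O : ValuationSubring W} {A B Y : Set W}

/-- The lower half of a conic in the parameter at the node. -/
def Cn.lo (S : Cn K N) (H : Fin S.M → W[X]) (k : Fin S.M) : W[X] :=
  ∑ j ∈ Finset.range (S.w k + 1), monomial j ((H k).coeff (S.w k - j))

/-- The point on the neck. -/
def Zp {σ : Type} (p p' : σ → W[X]) (k : σ) : MvPolynomial (Fin 2) W :=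
  aeval (MvPolynomial.X 0 : MvPolynomial (Fin 2) W) (p k) +
    aeval (MvPolynomial.X 1 : MvPolynomial (Fin 2) W) (p' k) + - MvPolynomial.C ((p k).coeff 0)

/-- The velocity on the neck. -/
def Vp {σ : Type} (p p' : σ → W[X]) (k : σ) : MvPolynomial (Fin 2) W :=
  - (MvPolynomial.X 0 * aeval (MvPolynomial.X 0 : MvPolynomial (Fin 2) W) (derivative (p k))) +
    MvPolynomial.X 1 * aeval (MvPolynomial.X 1 : MvPolynomial (Fin 2) W) (derivative (p' k))

theorem lo_coeff (H : Fin S.M → W[X]) (k : Fin S.M) (j : ℕ) :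
    (S.lo H k).coeff j = if j ≤ S.w k then (H k).coeff (S.w k - j) else 0 := by
  simp only [Cn.lo, finsetSum_coeff, coeff_monomial, Finset.sum_ite_eq', Finset.mem_range,
    Nat.lt_succ_iff]

theorem cnb_ev (x : Fin 2 → W) (j : Fin 2) (p : W[X]) :
    MvPolynomial.eval x (aeval (MvPolynomial.X j : MvPolynomial (Fin 2) W) p) = p.eval (x j) := by
  induction p using Polynomial.induction_on' with
  | add p q hp hq => rw [map_add, map_add, hp, hq, eval_add]
  | monomial k a => simp [aeval_monomial]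

theorem cnb_der {p : W[X]} {e : ℕ} (h : p.natDegree ≤ e) (x : W) :
    x * (derivative p).eval x = ∑ k ∈ Finset.range (e + 1), k * p.coeff k * x ^ k := by
  have h1 : (X * derivative p).natDegree ≤ e := natDegree_le_iff_coeff_eq_zero.2 fun k hk => by
    rw [cav_coeff, coeff_eq_zero_of_natDegree_lt (h.trans_lt hk), mul_zero]
  have h2 := eval_eq_sum_range' (Nat.lt_succ_of_le h1) x
  simpa only [eval_mul, eval_X, cav_coeff] using h2

theorem cnb_lo (H : Fin S.M → W[X]) (k : Fin S.M) (x : W) :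
    (S.lo H k).eval x = ∑ j ∈ Finset.range (S.w k + 1), (H k).coeff (S.w k - j) * x ^ j ∧
      x * (derivative (S.lo H k)).eval x =
        ∑ j ∈ Finset.range (S.w k + 1), j * ((H k).coeff (S.w k - j) * x ^ j) := by
  have h : (S.lo H k).natDegree ≤ S.w k := natDegree_le_iff_coeff_eq_zero.2 fun j hj => by
    rw [lo_coeff, if_neg hj.not_ge]
  rw [cnb_der h, eval_eq_sum_range' (Nat.lt_succ_of_le h)]
  refine ⟨Finset.sum_congr rfl fun j hj => ?_, Finset.sum_congr rfl fun j hj => ?_⟩ <;>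
    rw [lo_coeff, if_pos (Nat.lt_succ_iff.1 (Finset.mem_range.1 hj))]
  rw [mul_assoc]

theorem cnb_deg (hd : ∀ i, (G i).natDegree ≤ 2 * S.w i) (u : W) (k : Fin S.M) :
    (dil u G k).natDegree ≤ 2 * S.w k := natDegree_le_iff_coeff_eq_zero.2 fun j hj => by
  rw [coeff_dil, coeff_eq_zero_of_natDegree_lt ((hd k).trans_lt hj), mul_zero]

theorem cnb_split (G : Fin S.M → W[X]) (u : W) {s : W} (hs : s ≠ 0) (k : Fin S.M) (e : ℕ → W) :
    ∑ j ∈ Finset.range (2 * S.w k + 1), e j * (s⁻¹ ^ S.w k * ((dil u G k).coeff j * s ^ j)) =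
      ∑ j ∈ Finset.range (S.w k + 1), e (S.w k - j) * ((dil u G k).coeff (S.w k - j) * s⁻¹ ^ j) +
      ∑ j ∈ Finset.range (S.w k + 1), e (S.w k + j) *
        ((dil u (S.rev 2 G) k).coeff (S.w k - j) * (u ^ 2 * s) ^ j) -
      e (S.w k) * (dil u G k).coeff (S.w k) := by
  have h1 : ∀ F : ℕ → W, ∑ j ∈ Finset.range (2 * S.w k + 1), F j =
      ∑ j ∈ Finset.range (S.w k + 1), F (S.w k - j) +
        ∑ j ∈ Finset.range (S.w k + 1), F (S.w k + j) - F (S.w k) := fun F => by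
    rw [Finset.sum_flip, Finset.sum_range_succ F (S.w k), two_mul, add_assoc, Finset.sum_range_add]
    ring
  have h2 : ∀ i : ℕ, s⁻¹ ^ i * s ^ i = 1 := fun i => by
    rw [← mul_pow, inv_mul_cancel₀ hs, one_pow]
  rw [h1]
  refine congrArg₂ _ (congrArg₂ _ (Finset.sum_congr rfl fun j hj => ?_)
    (Finset.sum_congr rfl fun j hj => ?_)) ?_
  · obtain ⟨i, hi⟩ := Nat.exists_eq_add_of_le (Nat.lt_succ_iff.1 (Finset.mem_range.1 hj))
    rw [hi, Nat.add_sub_cancel_left]
    linear_combination e i * (dil u G k).coeff i * s⁻¹ ^ j * h2 i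
  · obtain ⟨i, hi⟩ := Nat.exists_eq_add_of_le (Nat.lt_succ_iff.1 (Finset.mem_range.1 hj))
    have h3 : (S.rev 2 G k).coeff (S.w k - j) = (G k).coeff (S.w k + j) := by
      rw [Cn.rev, coeff_reflect, revAt_le (by omega)]
      exact congrArg _ (by omega)
    rw [coeff_dil, coeff_dil, h3, hi, Nat.add_sub_cancel_left]
    linear_combination e (j + i + j) * (G k).coeff (j + i + j) * u ^ (j + i + j) * s ^ j * h2 (j + i)
  · linear_combination e (S.w k) * (dil u G k).coeff (S.w k) * h2 (S.w k)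

/-- Evaluation as a map of algebras over the complex numbers. -/
def cnbEv (x : Fin 2 → W) : MvPolynomial (Fin 2) W →ₐ[ℂ] W :=
  ⟨MvPolynomial.eval x, fun c => by simp [MvPolynomial.algebraMap_apply]⟩

theorem cnb_aeval (x : Fin 2 → W) {σ : Type} (Z : σ → MvPolynomial (Fin 2) W)
    (Q : MvPolynomial σ ℂ) : MvPolynomial.eval x (MvPolynomial.aeval Z Q) =
      MvPolynomial.aeval (fun i => MvPolynomial.eval x (Z i)) Q :=
  MvPolynomial.comp_aeval_apply Z (cnbEv x) Q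

theorem neck_pt (hd : ∀ i, (G i).natDegree ≤ 2 * S.w i) (u : W) {s : W} (hs : s ≠ 0) (k : Fin S.M) :
    MvPolynomial.eval ![s⁻¹, u ^ 2 * s] (Zp (S.lo (dil u G)) (S.lo (dil u (S.rev 2 G))) k) =
      S.sc s⁻¹ (S.ev (dil u G) s) k := by
  have h := cnb_split G u hs k fun _ => 1
  simp only [one_mul] at h
  rw [Zp, map_add, map_add, map_neg, cnb_ev, cnb_ev, MvPolynomial.eval_C, lo_coeff,
    if_pos (Nat.zero_le _), (cnb_lo _ k _).1, (cnb_lo _ k _).1, Cn.sc, Cn.ev,
    eval_eq_sum_range' (Nat.lt_succ_of_le (cnb_deg hd u k)), Finset.mul_sum, h, sub_eq_add_neg]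
  rfl

theorem neck_vec (hd : ∀ i, (G i).natDegree ≤ 2 * S.w i) (u : W) {s : W} (hs : s ≠ 0)
    (k : Fin S.M) :
    MvPolynomial.eval ![s⁻¹, u ^ 2 * s] (Vp (S.lo (dil u G)) (S.lo (dil u (S.rev 2 G))) k) =
      (s • S.sc s⁻¹ (S.ev (fun i => derivative (dil u G i)) s) +
        (-1 : W) • S.eu (S.sc s⁻¹ (S.ev (dil u G) s))) k := by
  have h := cnb_split G u hs k fun j => (j : W) - S.w k
  have h1 := cnb_der (cnb_deg hd u k) s
  have h2 := eval_eq_sum_range' (Nat.lt_succ_of_le (cnb_deg hd u k)) s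
  have h3 : ∑ j ∈ Finset.range (2 * S.w k + 1),
      ((j : W) - S.w k) * (s⁻¹ ^ S.w k * ((dil u G k).coeff j * s ^ j)) =
      s⁻¹ ^ S.w k * (s * (derivative (dil u G k)).eval s) -
        S.w k * (s⁻¹ ^ S.w k * (dil u G k).eval s) := by
    rw [h1, h2, Finset.mul_sum, Finset.mul_sum, Finset.mul_sum, ← Finset.sum_sub_distrib]
    exact Finset.sum_congr rfl fun j _ => by ring
  have h4 : ∑ j ∈ Finset.range (S.w k + 1), (((S.w k - j : ℕ) : W) - S.w k) *
      ((dil u G k).coeff (S.w k - j) * s⁻¹ ^ j) =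
      - ∑ j ∈ Finset.range (S.w k + 1), j * ((dil u G k).coeff (S.w k - j) * s⁻¹ ^ j) := by
    rw [← Finset.sum_neg_distrib]
    refine Finset.sum_congr rfl fun j hj => ?_
    rw [Nat.cast_sub (Nat.lt_succ_iff.1 (Finset.mem_range.1 hj))]
    ring
  simp only [h3, h4, Nat.cast_add, add_sub_cancel_left, sub_self, zero_mul, sub_zero] at h
  rw [Vp, map_add, map_neg, map_mul, map_mul, cnb_ev, cnb_ev, MvPolynomial.eval_X,
    MvPolynomial.eval_X, (cnb_lo _ k _).2, (cnb_lo _ k _).2]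
  refine h.symm.trans ?_
  simp only [Pi.add_apply, Pi.smul_apply, smul_eq_mul, Cn.sc, Cn.ev, Cn.eu]
  ring

theorem neck_form [IsAlgClosed W] (hS : S.Ok t n m) (h : S.LC 2 G) {q : MvPolynomial (Fin S.M) ℂ}
    {c : Matrix (Fin S.M) (Fin S.M) (MvPolynomial (Fin S.M) ℂ)} (hc : S.Ch q c) {u : W}
    (hu : u ≠ 0) {s : W} (hs : s ≠ 0) :
    u * S.Av G * MvPolynomial.eval ![s⁻¹, u ^ 2 * s]
      (MvPolynomial.aeval (Zp (S.lo (dil u G)) (S.lo (dil u (S.rev 2 G)))) q) =
    MvPolynomial.eval ![s⁻¹, u ^ 2 * s]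
      (∑ k, MvPolynomial.aeval (Zp (S.lo (dil u G)) (S.lo (dil u (S.rev 2 G)))) (S.bt c k) *
        Vp (S.lo (dil u G)) (S.lo (dil u (S.rev 2 G))) k) := by
  have hH := (h.dil hu).1
  have z0 := hH.ev_on s
  have z1 := z0.sc s⁻¹
  have z2 := sc_ne (inv_ne_zero hs) (hH.prim s)
  have t0 := hH.on.der'.ev s
  have t1 := t0.sc s⁻¹
  have h1 := bt_om hS hc z1 z2
    ((S.TanS _).add_mem ((S.TanS _).smul_mem s t1) ((S.TanS _).smul_mem (-1 : W) z1.eu))
  have h2 : S.eu (S.sc s⁻¹ (S.ev (dil u G) s)) = S.sc s⁻¹ (S.eu (S.ev (dil u G) s)) :=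
    funext fun i => mul_left_comm _ _ _
  have h3 := om_sc hS z0 (hH.prim s) z0.eu t0 (inv_ne_zero hs)
  rw [← h2, av_const hS hH, (av_sc hS h hu).1] at h3
  rw [om_right hS z1 z2 z1.eu t1 z1.eu, cav_self hS z1 z2 z1.eu, h3, mul_zero, add_zero,
    mul_inv_cancel_left₀ hs] at h1
  simp only [map_sum, map_mul, cnb_aeval, neck_pt h.deg u hs, neck_vec h.deg u hs]
  rw [mul_comm]
  exact h1

theorem cnb_zp {σ : Type} {p p' : σ → W[X]} (h : cv p' 0 = cv p 0) :
    (fun k => MvPolynomial.eval 0 (Zp p p' k)) = cv p 0 := funext fun k => by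
  have h1 : (p' k).coeff 0 = (p k).coeff 0 := congrFun h k
  rw [Zp, map_add, map_add, map_neg, cnb_ev, cnb_ev, MvPolynomial.eval_C, Pi.zero_apply,
    Pi.zero_apply, ← coeff_zero_eq_eval_zero, ← coeff_zero_eq_eval_zero, h1, add_neg_cancel_right]
  rfl

theorem cnb_one (j : Fin 2) (p : W[X]) : MvPolynomial.constantCoeff
    (aeval (MvPolynomial.X j : MvPolynomial (Fin 2) W) (derivative p)) = p.coeff 1 := by
  rw [← MvPolynomial.eval_zero, cnb_ev, Pi.zero_apply, ← coeff_zero_eq_eval_zero, coeff_derivative]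
  simp

theorem coef0 {σ : Type} {p p' : σ → W[X]} (h : cv p' 0 = cv p 0) (Q : MvPolynomial σ ℂ) :
    (MvPolynomial.aeval (Zp p p') Q).coeff 0 = MvPolynomial.aeval (cv p 0) Q := by
  rw [← cnb_zp h, ← cnb_aeval, MvPolynomial.eval_zero]
  rfl

theorem coef11 {σ : Type} [Fintype σ] {p p' : σ → W[X]} (h : cv p' 0 = cv p 0)
    (β : σ → MvPolynomial σ ℂ) :
    (∑ k, MvPolynomial.aeval (Zp p p') (β k) * Vp p p' k).coeff 0 = 0 ∧
      (∑ k, MvPolynomial.aeval (Zp p p') (β k) * Vp p p' k).coeff d11 =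
        dB β (cv p 0) (cv p 1) (cv p' 1) := by
  have v0 : ∀ k, MvPolynomial.eval 0 (Vp p p' k) = 0 := fun k => by simp [Vp]
  have v1 : ∀ k, MvPolynomial.eval 0 (MvPolynomial.pderiv 0 (Vp p p' k)) = - cv p 1 k :=
    fun k => by simp [Vp, cnb_one, cv]
  have v2 : ∀ k, MvPolynomial.pderiv 1 (Vp p p' k) = MvPolynomial.X 1 *
      aeval (MvPolynomial.X 1 : MvPolynomial (Fin 2) W) (derivative (derivative (p' k))) +
      aeval (MvPolynomial.X 1 : MvPolynomial (Fin 2) W) (derivative (p' k)) :=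
    fun k => by simp [Vp]
  have v3 : ∀ k, MvPolynomial.eval 0 (MvPolynomial.pderiv 1 (Vp p p' k)) = cv p' 1 k :=
    fun k => by simp [v2, cnb_one, cv]
  have v4 : ∀ k, MvPolynomial.pderiv 0 (MvPolynomial.pderiv 1 (Vp p p' k)) = 0 :=
    fun k => by simp [v2]
  have z0 : ∀ k, MvPolynomial.eval 0 (MvPolynomial.pderiv 0 (Zp p p' k)) = cv p 1 k :=
    fun k => by simp [Zp, cnb_one, cv]
  have z1 : ∀ k, MvPolynomial.eval 0 (MvPolynomial.pderiv 1 (Zp p p' k)) = cv p' 1 k :=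
    fun k => by simp [Zp, cnb_one, cv]
  have d : ∀ (j : Fin 2) (r : σ → W) (Q : MvPolynomial σ ℂ),
      (∀ k, MvPolynomial.eval 0 (MvPolynomial.pderiv j (Zp p p' k)) = r k) →
      MvPolynomial.eval 0 (MvPolynomial.pderiv j (MvPolynomial.aeval (Zp p p') Q)) =
        dd (cv p 0) r Q := fun j r Q hr => by
    have h1 := der_aeval ((MvPolynomial.pderiv j : Derivation W (MvPolynomial (Fin 2) W)
      (MvPolynomial (Fin 2) W)).restrictScalars ℂ) (Zp p p') Q
    refine (congrArg (MvPolynomial.eval 0) h1).trans ?_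
    rw [map_sum]
    refine Finset.sum_congr rfl fun k _ => ?_
    rw [map_mul, cnb_aeval, cnb_zp h]
    exact congrArg _ (hr k)
  rw [coeff_d11, ← MvPolynomial.eval_zero]
  refine ⟨?_, ?_⟩
  · change MvPolynomial.constantCoeff _ = 0
    rw [← MvPolynomial.eval_zero, map_sum]
    exact Finset.sum_eq_zero fun k _ => by rw [map_mul, v0, mul_zero]
  · rw [map_sum, map_sum, map_sum]
    refine Finset.sum_congr rfl fun k _ => ?_
    simp only [Derivation.leibniz, smul_eq_mul, map_add, map_mul, v0, v1, v3, v4, d 0 _ _ z0,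
      d 1 _ _ z1, map_zero]
    ring

end Vale.Agent.P292
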