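import Vale.Agent.P292.C.Un
import Vale.Agent.P276.H.DegB

/-! P292 C/ObsA (TASK). Linear algebra for the obstruction bound.
`skew_minor`: the rows `τ` are combinations of the rows `I`: `A[τ,·] = T * A[I,·]`; so `det A[τ,τ] = det T * det A[I,τ]`, `det A[τ,I] = det T * det A[I,I]`, and `det A[τ,I] = det A[I,τ]` since `A` is skew of even size.
`exists_rows`: the rows of `pm z` span `TanS z` (`tan_iff`, `hS.alt`), of dimension `2 n + 2`; extract a basis (`exists_linearIndependent`, reindex); the projection to the `e0` coordinates is injective on it (`hS.pinj`).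
`gcd_sq`: the ideal spanned by the `p i` has a generator `g₀`, which divides `g`; `b ∣ (p i * p j) ^ 2`-type argument, or compare root multiplicities: at each root some `p i` has the multiplicity of `g`. Helper names start with `coa_`. -/

open Polynomial Set Matrix

set_option linter.unusedSectionVars false

noncomputable section

namespace Vale.Agent.P292

open Vale.Agent.P271 Vale.Agent.P276

variable {K : Type} [Field K] [Algebra ℂ K] {N n m : ℕ} {t : Fin (N + 1) → K} {S : Cn K N}
  {W W' κ : Type} [Field W] [Algebra ℂ W] [Field W'] [Algebra ℂ W'] [Field κ] [Algebra ℂ κ]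
  {δ : ℕ} {a b : ℤ} {G R R₁ R₂ v v' : Fin S.M → W[X]} {O : ValuationSubring W} {A B Y : Set W}

theorem skew_minor {F σ : Type} [Field F] [Fintype σ] {A : Matrix σ σ F} (hA : ∀ i j, A j i = - A i j)
    {k : ℕ} {I τ : Fin (2 * k + 1 + 1) → σ}
    (hI : ∀ i, A i ∈ Submodule.span F (range fun l => A (I l))) :
    (Matrix.of fun i l => A (I l) (τ i)).det ^ 2 =
      (Matrix.of fun i l => A (I i) (I l)).det * (Matrix.of fun i l => A (τ i) (τ l)).det := by
  choose c hc using fun i => (Submodule.mem_span_range_iff_exists_fun F).1 (hI i)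
  have h1 : ∀ i j, A i j = ∑ l, c i l * A (I l) j := fun i j => by
    rw [← congrFun (hc i) j, Finset.sum_apply]
    rfl
  have e1 : (Matrix.of fun i l => A (τ i) (τ l)) =
      (Matrix.of fun i l => c (τ i) l) * (Matrix.of fun i l => A (I l) (τ i))ᵀ := by
    ext i j
    rw [Matrix.of_apply, h1, Matrix.mul_apply]
    rfl
  have e2 : -(Matrix.of fun i l => A (I l) (τ i)) =
      (Matrix.of fun i l => c (τ i) l) * (Matrix.of fun i l => A (I i) (I l)) := by
    ext i j
    rw [Matrix.neg_apply, Matrix.of_apply, ← hA, h1, Matrix.mul_apply]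
    rfl
  have e3 := congrArg Matrix.det e2
  rw [Matrix.det_neg, Fintype.card_fin, Matrix.det_mul,
    Even.neg_one_pow ⟨k + 1, by ring⟩, one_mul] at e3
  rw [e1, Matrix.det_mul, Matrix.det_transpose, sq]
  nth_rewrite 1 [e3]
  ring

theorem exists_rows (hS : S.Ok t n m) {z : Fin S.M → W} (h : S.On z) (h0 : z ≠ 0) :
    ∃ I : Fin (2 * n + 1 + 1) → Fin S.M,
      (∀ i, S.pm z i ∈ Submodule.span W (range fun l => S.pm z (I l))) ∧
      LinearIndependent W fun l j => S.pm z (I l) (S.e0 j) := by
  have h1 : Submodule.span W (range fun i => (S.pm z i : Fin S.M → W)) = S.TanS z := by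
    refine le_antisymm (Submodule.span_le.2 ?_) fun d hd => ?_
    · rintro _ ⟨i, rfl⟩
      exact hS.tanp W z h i
    · obtain ⟨ξ, rfl⟩ := (tan_iff hS h h0).1 hd
      refine (Submodule.mem_span_range_iff_exists_fun W).2 ⟨fun j => -ξ j, funext fun i => ?_⟩
      rw [Finset.sum_apply, Matrix.mulVec, dotProduct]
      refine Finset.sum_congr rfl fun j _ => ?_
      rw [Pi.smul_apply, smul_eq_mul, pm_alt hS z i j]
      ring
  obtain ⟨ι, e, he, h2, h3⟩ := exists_linearIndependent' W fun i => (S.pm z i : Fin S.M → W)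
  have := Finite.of_injective e he
  have := Fintype.ofFinite ι
  have h4 : Fintype.card ι = 2 * n + 1 + 1 := by
    rw [← finrank_span_eq_card h3, h2, h1, hS.dim W z h h0]
  let q := (Fintype.equivFinOfCardEq h4).symm
  have h5 : (range fun l => (S.pm z (e (q l)) : Fin S.M → W)) =
      range ((fun i => (S.pm z i : Fin S.M → W)) ∘ e) :=
    q.surjective.range_comp ((fun i => (S.pm z i : Fin S.M → W)) ∘ e)
  refine ⟨fun l => e (q l), fun i => ?_, ?_⟩
  · rw [h5, h2]
    exact Submodule.subset_span ⟨i, rfl⟩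
  · refine (h3.comp q q.injective).map (f := LinearMap.funLeft W W S.e0) ?_
    refine Submodule.disjoint_def.2 fun d hd hk => hS.pinj W z d h h0 ?_ hk
    have h6 : d ∈ S.TanS z := by
      rw [← h1, ← h2, ← h5]
      exact hd
    exact h6

theorem gcd_sq [IsAlgClosed W] {σ : Type} [Fintype σ] {p : σ → W[X]} {b g : W[X]}
    (h : ∀ i, b ∣ p i ^ 2) (hg : ∀ q, q ∣ g ↔ ∀ i, q ∣ p i) (h0 : g ≠ 0) :
    b.natDegree ≤ 2 * g.natDegree := by
  obtain ⟨g₀, hg₀⟩ := (IsPrincipalIdealRing.principal (Ideal.span (range p))).principal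
  have h1 : g₀ ∣ g := (hg g₀).2 fun i => Ideal.mem_span_singleton.1 <| by
    have : p i ∈ Ideal.span (range p) := Ideal.subset_span ⟨i, rfl⟩
    rw [hg₀] at this
    exact this
  have h2 : g₀ ∈ Ideal.span (range p) := by
    rw [hg₀]
    exact Submodule.mem_span_singleton_self g₀
  obtain ⟨c, hc⟩ := Ideal.mem_span_range_iff_exists_fun.1 h2
  have h3 : ∀ i j, b ∣ p i * p j := fun i j => by
    rw [← IsIntegrallyClosed.pow_dvd_pow_iff two_ne_zero, mul_pow, sq b]
    exact mul_dvd_mul (h i) (h j)
  have h4 : b ∣ g₀ ^ 2 := by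
    rw [← hc, sq, Finset.sum_mul_sum]
    refine Finset.dvd_sum fun i _ => Finset.dvd_sum fun j _ => ?_
    rw [mul_mul_mul_comm]
    exact (h3 i j).mul_left _
  rw [← natDegree_pow]
  exact natDegree_le_of_dvd (h4.trans (pow_dvd_pow_of_dvd h1 2)) (pow_ne_zero 2 h0)

theorem deg_wt {P : MvPolynomial (Fin S.M) ℂ} {k : ℕ} (hP : P.IsWeightedHomogeneous S.w k)
    (hd : ∀ i, (G i).natDegree ≤ δ * S.w i) : (MvPolynomial.aeval G P).natDegree ≤ δ * k := by
  rw [P.as_sum, map_sum]
  refine natDegree_sum_le_of_forall_le _ _ fun d hd' => ?_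
  rw [MvPolynomial.aeval_monomial, ← hP (MvPolynomial.mem_support_iff.1 hd'), Finsupp.weight_apply,
    Finsupp.sum, Finset.mul_sum, Polynomial.algebraMap_apply]
  refine (natDegree_C_mul_le _ _).trans ((natDegree_prod_le _ _).trans
    (Finset.sum_le_sum fun i _ => natDegree_pow_le.trans ?_))
  rw [smul_eq_mul, mul_left_comm]
  exact Nat.mul_le_mul_left _ (hd i)

end Vale.Agent.P292
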