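import Vale.Agent.P292.C.Rev

/-! P292 C/OmP (task). Helper names start with `comp_`. The form along a curve.
`sat_pol`: the set of `c : W[X]` with `∃ ξ, pm G *ᵥ ξ = c • v` is an ideal; `hS.inv W (ev G a)` gives the element `aeval G q` that does not vanish at `a`; `unit_of_loc`. `om_pol0`: `q = v ⬝ᵥ ξ` with `ξ` from `sat_pol` for `v'`; `pm (f ∘ G) *ᵥ (f ∘ ξ) = f ∘ v'`, `om_pm`, `Cn.On.map`, `Cn.Tan.map`. `rev_sec`: `u i = reflect (δ * w i - a).toNat (v i)`; if `δ * w i - a < 0` then `v i = 0`; `ev_reflect`, `tan_of_ev`, `ev_rev`, `Cn.Tan.sc`, `TanS` is a submodule. `om_poly`: `q` from `om_pol0` with `f = (aeval s).restrictScalars ℂ`, `q'` the same for `rev δ G` and the two `rev_sec`; `q'(s) = s ^ (δ - a - b) * q (s⁻¹)` by `om_left`, `om_right` (second coefficient `0`), `om_sc`; `deg_of_rev`; `coeff_mem` with `om_mem`, `cl_le`. -/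

open Polynomial Set Matrix

set_option linter.unusedSectionVars false

noncomputable section

namespace Vale.Agent.P292

open Vale.Agent.P271 Vale.Agent.P276

variable {K : Type} [Field K] [Algebra ℂ K] {N n m : ℕ} {t : Fin (N + 1) → K} {S : Cn K N}
  {W : Type} [Field W] [Algebra ℂ W]

variable {W' κ : Type} [Field W'] [Algebra ℂ W'] [Field κ] [Algebra ℂ κ] {δ : ℕ}
  {G R₁ R₂ : Fin S.M → W[X]} {O : ValuationSubring W} {A Y : Set W}

/-- Evaluation as a map of complex algebras. -/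
def comp_ev (a : W) : W[X] →ₐ[ℂ] W := (aeval a).restrictScalars ℂ

theorem comp_ev_apply (a : W) (p : W[X]) : comp_ev a p = p.eval a := congrFun (coe_aeval_eq_eval a) p

theorem comp_mem {α : Type} {F : α → W[X]} {B : Set W} (h : cf F ⊆ B) (k : ℕ) :
    range (fun i => (F i).eval (k : W)) ⊆ cl B := by
  rintro _ ⟨i, rfl⟩
  simp only [eval_eq_sum_range]
  exact sum_mem fun j _ => mul_mem (subset_cl _ (h ⟨i, j, rfl⟩)) (pow_mem (natCast_mem _ k) j)

theorem sat_pol [IsAlgClosed W] (hS : S.Ok t n m) (h : S.On G) (hp : ∀ a, S.ev G a ≠ 0)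
    {v : Fin S.M → W[X]} (hv : S.Tan G v) : ∃ ξ : Fin S.M → W[X], S.pm G *ᵥ ξ = v := by
  obtain ⟨ξ, hξ⟩ := unit_of_loc ((LinearMap.range (S.pm G).mulVecLin).comap
    (LinearMap.toSpanSingleton W[X] _ v)) fun a => by
      obtain ⟨q, A, hq, hA⟩ := hS.inv W (S.ev G a) (h.ev a) (hp a)
      refine ⟨MvPolynomial.aeval G q, ⟨_, hA W[X] G v h hv⟩, ?_⟩
      rw [← comp_ev_apply, MvPolynomial.comp_aeval_apply]
      simp only [comp_ev_apply]
      exact hq
  exact ⟨ξ, hξ.trans (one_smul _ v)⟩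

theorem om_pol0 [IsAlgClosed W] (hS : S.Ok t n m) (h : S.On G) (hp : ∀ a, S.ev G a ≠ 0)
    {v v' : Fin S.M → W[X]} (hv : S.Tan G v) (hv' : S.Tan G v') :
    ∃ q : W[X], ∀ (V : Type) [Field V] [Algebra ℂ V] (f : W[X] →ₐ[ℂ] V), (fun i => f (G i)) ≠ 0 →
      f q = S.om (fun i => f (G i)) (fun i => f (v i)) fun i => f (v' i) := by
  obtain ⟨ξ, rfl⟩ := sat_pol hS h hp hv'
  refine ⟨v ⬝ᵥ ξ, fun V _ _ f h0 => ?_⟩
  have e : (fun i => f ((S.pm G *ᵥ ξ) i)) = S.pm (fun i => f (G i)) *ᵥ fun i => f (ξ i) :=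
    funext fun i => by simp only [mulVec, dotProduct, map_sum, map_mul, pm_map]
  rw [e, om_pm hS (h.map f) h0 (hv.map f)]
  simp only [dotProduct, map_sum, map_mul]

theorem rev_sec (h : S.LC δ G) {v : Fin S.M → W[X]} (hv : S.Tan G v) {a : ℤ}
    (h1 : ∀ i (k : ℕ), (δ * S.w i : ℤ) < k + a → (v i).coeff k = 0) :
    ∃ u : Fin S.M → W[X], S.Tan (S.rev δ G) u ∧
      ∀ s : W, s ≠ 0 → S.ev u s = s ^ (-a) • S.sc (s ^ δ) (S.ev v s⁻¹) := by
  have hu : ∀ s : W, s ≠ 0 → S.ev (fun i => reflect ((δ * S.w i : ℤ) - a).toNat (v i)) s =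
      s ^ (-a) • S.sc (s ^ δ) (S.ev v s⁻¹) := fun s hs => funext fun i => by
    simp only [Cn.ev, Cn.sc, Pi.smul_apply, smul_eq_mul]
    rcases lt_or_ge (δ * S.w i : ℤ) a with h2 | h2
    · rw [show v i = 0 from ext fun k => h1 i k (by omega), reflect_zero, eval_zero, eval_zero,
        mul_zero, mul_zero]
    · rw [ev_reflect (natDegree_le_iff_coeff_eq_zero.2 fun k hk => h1 i k (by omega)) hs,
        ← mul_assoc, ← pow_mul, ← zpow_natCast, ← zpow_natCast, ← zpow_add₀ hs,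
        Int.toNat_of_nonneg (sub_nonneg.2 h2), Nat.cast_mul, neg_add_eq_sub]
  refine ⟨_, tan_of_ev fun s hs => ?_, hu⟩
  rw [ev_rev h.deg hs, hu s hs]
  exact (S.TanS _).smul_mem _ ((hv.ev s⁻¹).sc _)

/-- C2: the form on two sections along a curve is a polynomial. -/
theorem om_poly [IsAlgClosed W] (hS : S.Ok t n m) (h : S.LC δ G) {v v' : Fin S.M → W[X]}
    (hv : S.Tan G v) (hv' : S.Tan G v') {a b : ℤ}
    (h1 : ∀ i (k : ℕ), (δ * S.w i : ℤ) < k + a → (v i).coeff k = 0)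
    (h2 : ∀ i (k : ℕ), (δ * S.w i : ℤ) < k + b → (v' i).coeff k = 0) :
    ∃ q : W[X], (∀ k : ℕ, (δ : ℤ) < k + a + b → q.coeff k = 0) ∧
      (∀ k, q.coeff k ∈ cl (cf G ∪ cf v ∪ cf v')) ∧
        ∀ s, q.eval s = S.om (S.ev G s) (S.ev v s) (S.ev v' s) := by
  have key : ∀ {G v v' : Fin S.M → W[X]}, S.LC δ G → S.Tan G v → S.Tan G v' →
      ∃ q : W[X], ∀ s, q.eval s = S.om (S.ev G s) (S.ev v s) (S.ev v' s) := fun h hv hv' => by
    obtain ⟨q, hq⟩ := om_pol0 hS h.on h.prim hv hv'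
    refine ⟨q, fun s => ?_⟩
    have := hq W (comp_ev s) (by simp only [comp_ev_apply]; exact h.prim s)
    simp only [comp_ev_apply] at this
    exact this
  obtain ⟨q, hq⟩ := key h hv hv'
  obtain ⟨u, u1, u2⟩ := rev_sec h hv h1
  obtain ⟨u', u1', u2'⟩ := rev_sec h hv' h2
  obtain ⟨q', hq'⟩ := key h.rev.1 u1 u1'
  refine ⟨q, fun k hk => deg_of_rev (q' := q') (c := δ - a - b) (fun s hs => ?_) (by omega),
    coeff_mem _ fun k => ?_, hq⟩
  · have z1 := h.ev_on s⁻¹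
    have z2 := h.prim s⁻¹
    have r := pow_ne_zero δ hs
    have t1 := (hv.ev s⁻¹).sc (s ^ δ)
    have t2 := (hv'.ev s⁻¹).sc (s ^ δ)
    have e1 := om_left (S.sc (s ^ δ) (S.ev G s⁻¹)) (S.sc (s ^ δ) (S.ev v s⁻¹)) 0
      (s ^ (-b) • S.sc (s ^ δ) (S.ev v' s⁻¹)) (s ^ (-a)) 0
    have e2 := om_right hS (z1.sc _) (sc_ne r z2) t1 t2 t2 (s ^ (-b)) 0
    rw [zero_smul, add_zero, zero_mul, add_zero] at e1 e2
    rw [hq', ev_rev h.deg hs, u2 s hs, u2' s hs, e1, e2,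
      om_sc hS z1 z2 (hv.ev _) (hv'.ev _) r, hq, sub_eq_add_neg, sub_eq_add_neg, zpow_add₀ hs,
      zpow_add₀ hs, zpow_natCast]
    ring
  · rw [hq]
    exact cl_le (union_subset (union_subset
      (comp_mem (subset_union_left.trans subset_union_left) k)
      (comp_mem (subset_union_right.trans subset_union_left) k)) (comp_mem subset_union_right k))
      (om_mem hS (h.ev_on _) (h.prim _) (hv.ev _) (hv'.ev _))

end Vale.Agent.P292
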