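import Vale.Agent.P292.C.Est
import Vale.Agent.P292.C.NP
import Vale.Agent.P292.C.Rk
import Vale.Agent.P292.C.Basic

/-! P292 C/Rig: integrality of the contact constant of a conic, rigidity. -/

open Polynomial Set Matrix

set_option linter.unusedSectionVars false

noncomputable section

namespace Vale.Agent.P292

open Vale.Agent.P271 Vale.Agent.P276

variable {K : Type} [Field K] [Algebra ℂ K] {N n m : ℕ} {t : Fin (N + 1) → K} {S : Cn K N}
  {W : Type} [Field W] [Algebra ℂ W]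

variable {W' κ : Type} [Field W'] [Algebra ℂ W'] [Field κ] [Algebra ℂ κ] {δ : ℕ}
  {G R₁ R₂ : Fin S.M → W[X]} {O : ValuationSubring W} {A Y : Set W}

theorem crg_add (z v v' w : Fin S.M → W) : S.om z (v + v') w = S.om z v w + S.om z v' w := by
  simpa using om_left z v v' w 1 1

theorem crg_smul (z v w : Fin S.M → W) (a : W) : S.om z (a • v) w = a * S.om z v w := by
  simpa using om_left z v v w a 0

theorem crg_zero (z w : Fin S.M → W) : S.om z 0 w = 0 := by
  simpa using crg_smul z 0 w 0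

theorem crg_span (hS : S.Ok t n m) {x v : Fin S.M → W} (hx : S.On x) (h0 : x ≠ 0) (hA : A.Finite)
    (h2 : rk A + (2 * n + 1) ≤ rk (A ∪ pj (x ∘ S.e0))) (hv : S.Tan x v)
    (h3 : S.om x (S.eu x) v = 0)
    (h4 : ∀ D : Derivation ℂ W W, (∀ a ∈ cl A, D a = 0) → S.om x (fun i => D (x i)) v = 0) :
    v = 0 := by
  have := charZero_of_injective_algebraMap (algebraMap ℂ W).injective
  obtain ⟨D, d1, d2⟩ := li_der_pj hA (e0_ne hS hx h0) h2
  have hd : ((m * (n + 1) : ℕ) : W) ≠ 0 :=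
    Nat.cast_ne_zero.2 (mul_ne_zero hS.fano.pos.ne' n.succ_ne_zero)
  let u : Fin (2 * n + 1 + 1) → Fin S.M → W :=
    Fin.cons (((m * (n + 1) : ℕ) : W)⁻¹ • S.eu x) fun i j => D i (x j)
  have hu : LinearIndependent W u := by
    refine LinearIndependent.of_comp (LinearMap.funLeft W W S.e0) ?_
    have e : LinearMap.funLeft W W S.e0 ∘ u =
        (Fin.cons (x ∘ S.e0) fun i j => D i ((x ∘ S.e0) j) :
          Fin (2 * n + 1 + 1) → Fin (N + 1) → W) := by
      funext i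
      refine Fin.cases (funext fun j => ?_) (fun i => rfl) i
      change ((m * (n + 1) : ℕ) : W)⁻¹ * ((S.w (S.e0 j) : W) * x (S.e0 j)) = x (S.e0 j)
      rw [hS.we0, inv_mul_cancel_left₀ hd]
    rw [e]
    exact d2
  have h5 : ∀ i, u i ∈ S.TanS x ∧ S.om x (u i) v = 0 := fun i =>
    Fin.cases ⟨(S.TanS x).smul_mem _ hx.eu, (crg_smul _ _ _ _).trans (by rw [h3, mul_zero])⟩
      (fun i => ⟨hx.der (D i), h4 _ (d1 i)⟩) i
  have h6 : Submodule.span W (range u) = S.TanS x :=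
    Submodule.eq_of_le_of_finrank_le (Submodule.span_le.2 (range_subset_iff.2 fun i => (h5 i).1))
      (by rw [hS.dim W x hx h0, finrank_span_eq_card hu, Fintype.card_fin])
  refine om_nondeg hS hx h0 hv fun v' hv' => ?_
  have h7 : v' ∈ Submodule.span W (range u) := h6 ▸ hv'
  clear hv'
  induction h7 using Submodule.span_induction with
  | mem _ h => obtain ⟨i, rfl⟩ := h; exact (h5 i).2
  | zero => exact crg_zero _ _
  | add a b _ _ ha hb => rw [crg_add, ha, hb, add_zero]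
  | smul c a _ ha => rw [crg_smul, ha, mul_zero]

variable [IsAlgClosed W]

theorem crg_lead (hS : S.Ok t n m) (h : S.LC δ G) {v H : Fin S.M → W[X]} (hv : S.Tan G v)
    (hH : S.Tan G H) {k : ℕ} (e : ∀ i, derivative (G i) = X ^ k * H i)
    (h0 : ∀ j : ℕ, S.om (S.ev G j) (S.ev v j) (S.ev (fun i => derivative (G i)) j) = 0) :
    S.om (cv G 0) (cv v 0) (cv H 0) = 0 := by
  have := charZero_of_injective_algebraMap (algebraMap ℂ W).injective
  obtain ⟨q, hq⟩ := om_pol0 hS h.on h.prim hv hH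
  have h1 : ∀ s, q.eval s = S.om (S.ev G s) (S.ev v s) (S.ev H s) := fun s =>
    hq W (cbasEv s) (h.prim s)
  have h2 : q = 0 := by
    refine eq_zero_of_infinite_isRoot q (infinite_of_injective_forall_mem
      (f := fun j : ℕ => ((j + 1 : ℕ) : W))
      (fun a b hab => Nat.succ_injective (Nat.cast_injective hab)) fun j => ?_)
    have h3 := h0 (j + 1)
    have h4 : S.ev (fun i => derivative (G i)) ((j + 1 : ℕ) : W) =
        ((j + 1 : ℕ) : W) ^ k • S.ev H ((j + 1 : ℕ) : W) + (0 : W) • S.ev H ((j + 1 : ℕ) : W) := by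
      funext i
      change (derivative (G i)).eval _ = _
      rw [e, eval_mul, eval_pow, eval_X, zero_smul, add_zero]
      rfl
    rw [h4, om_right hS (h.on.ev _) (h.prim _) (hv.ev _) (hH.ev _) (hH.ev _), zero_mul, add_zero,
      ← h1] at h3
    exact (mul_eq_zero.1 h3).resolve_left (pow_ne_zero _ (Nat.cast_ne_zero.2 j.succ_ne_zero))
  rw [← (ev_zero G).1, ← (ev_zero v).1, ← (ev_zero H).1, ← h1, h2, eval_zero]

theorem crg_ne (hS : S.Ok t n m) (h : S.LC 2 G) (hA : A.Finite) (h1 : range (S.top 2 G) ⊆ cl A)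
    (h2 : rk A + (2 * n + 1) ≤ rk (A ∪ pj (cv G 0 ∘ S.e0))) : S.Av G ≠ 0 := by
  classical
  have := charZero_of_injective_algebraMap (algebraMap ℂ W).injective
  intro h0
  have hex : ∃ k, ∃ i, (derivative (G i)).coeff k ≠ 0 := by
    obtain ⟨i, hi⟩ := Function.ne_iff.1 h.top
    have hw := hS.wpos i
    refine ⟨2 * S.w i - 1, i, ?_⟩
    rw [coeff_derivative, show 2 * S.w i - 1 + 1 = 2 * S.w i by omega]
    exact mul_ne_zero hi (Nat.cast_add_one_ne_zero _)
  have hdv : ∀ i, X ^ Nat.find hex ∣ derivative (G i) := fun i =>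
    X_pow_dvd_iff.2 fun d hd => by
      by_contra h3
      exact Nat.find_min hex hd ⟨i, h3⟩
  choose H e using hdv
  have hH : S.Tan G H := fun k P hP hc => by
    have h3 := h.on.der' k P hP hc
    refine (mul_eq_zero.1 (?_ : X ^ Nat.find hex * _ = 0)).resolve_left (pow_ne_zero _ X_ne_zero)
    rw [Finset.mul_sum, ← h3]
    refine Finset.sum_congr rfl fun i _ => (mul_left_comm _ _ _).trans ?_
    exact congrArg (_ * ·) (e i).symm
  have hH0 : cv H 0 ≠ 0 := fun h3 => by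
    obtain ⟨i, hi⟩ := Nat.find_spec hex
    refine hi ?_
    rw [e]
    exact (congrArg _ (zero_add _).symm).trans ((coeff_X_pow_mul _ _ 0).trans (congrFun h3 i))
  have hT : S.Tan (cv G 0) (cv H 0) := by
    rw [← (ev_zero G).1, ← (ev_zero H).1]
    exact hH.ev 0
  refine hH0 (crg_span hS h.cv_on.1 h.cv_on.2.1 hA h2 hT ?_ fun D hD => ?_)
  · have h3 := crg_lead hS h h.on.eu hH e fun j => by rw [ev_eu, av_const hS h, h0]
    rwa [← (ev_zero (S.eu G)).1, ev_eu, (ev_zero G).1] at h3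
  · have h3 := crg_lead hS h (cD_tan h.on D) hH e fun j => by
      obtain ⟨k1, k2, k3, -, k5, -⟩ := h.sh (j : W)
      have k6 := dA hS k1 D
      have k7 : (fun i => D (S.top 2 G i)) = 0 := funext fun i => hD _ (h1 ⟨i, rfl⟩)
      have k8 : (fun i => D (S.ev G j i)) = S.ev (S.cD D G) j := funext fun i => by
        rw [der_ev, D.map_natCast, zero_mul, add_zero]
      rw [(av_con hS h).2, h0, map_zero, mul_zero, k2, k3, k5, k7, crg_zero, sub_zero, k8] at k6
      exact k6.symm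
    rwa [← (ev_zero (S.cD D G)).1, ev_cD_zero] at h3

theorem con_ne (hS : S.Ok t n m) (h : S.LC 2 G) (hA : A.Finite)
    (h1 : pj (S.top 2 G ∘ S.e0) ⊆ cl A)
    (h2 : rk A + (2 * n + 1) ≤ rk (A ∪ pj (cv G 0 ∘ S.e0))) : S.Av G ≠ 0 := by
  obtain ⟨ρ, hρ, h3⟩ := exists_unit_sc hS (on_rev h.on h.deg).2 h.top
  obtain ⟨k1, k2, k3, -⟩ := h.scP hρ
  have h4 := crg_ne hS k1 hA (k3 ▸ h3.trans (cl_le h1)) (by rw [k2, pj_sc_e0 hS hρ]; exact h2)
  rw [(av_sc hS h hρ).2.1] at h4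
  exact right_ne_zero_of_mul h4

theorem crg_or (hS : S.Ok t n m) (h : S.LC 2 G) (hO : Ov ∅ O) (h0 : PV O (cv G 0))
    (h1 : PV O (S.top 2 G)) : (∀ a ∈ cf G, a ∈ O) ∨ ∃ u : W, u ≠ 0 ∧ O.valuation u < 1 ∧
      S.Av G / u ∈ O ∧ ∀ i, u * (G i).coeff 1 ∈ O := by
  obtain ⟨κ, i1, i2, i3, P, rfl⟩ := exists_pl hO
  rcases np_ql hS h P h0 h1 with h2 | ⟨u, R₁, R₂, k1, k2, k3, k4, -, k6, -⟩
  · exact Or.inl h2
  · obtain ⟨r, hr, -⟩ := node_est hS h P k1 k2 k3 k4 k6.top0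
    refine Or.inr ⟨u, k1, k2, hr.1, fun i => ?_⟩
    have k8 := (k3 i 1).1
    rwa [coeff_dil, pow_one] at k8

theorem xi_int (hS : S.Ok t n m) (h : S.LC 2 G) (hO : Ov ∅ O) (h0 : PV O (cv G 0))
    (h1 : PV O (S.top 2 G)) : S.Av G ∈ O ∧ ∀ i, S.Av G * (G i).coeff 1 ∈ O := by
  rcases crg_or hS h hO h0 h1 with h2 | ⟨u, k1, k2, k3, k4⟩
  · have h3 : S.Av G ∈ O := om_int hS hO h.cv_on.1 h0 h.cv_on.1.eu h.cv_on.2.2
      (fun i => mul_mem (natCast_mem O _) (h0.1 i)) fun i => h2 _ ⟨i, 1, rfl⟩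
    exact ⟨h3, fun i => mul_mem h3 (h2 _ ⟨i, 1, rfl⟩)⟩
  · refine ⟨?_, fun i => ?_⟩
    · rw [← div_mul_cancel₀ (S.Av G) k1]
      exact mul_mem k3 ((O.valuation_le_one_iff u).1 k2.le)
    · rw [← div_mul_cancel₀ (S.Av G) k1, mul_assoc]
      exact mul_mem k3 (k4 i)

theorem con_rigid (hS : S.Ok t n m) (h : S.LC 2 G) (h0 : S.Av G ≠ 0) :
    cf G ⊆ cl (S.ends 2 G) := by
  have hp : ∀ O, Ov (S.ends 2 G) O → PV O (cv G 0) ∧ PV O (S.top 2 G) := fun O hO =>
    ⟨hO.pv (subset_union_left.trans (subset_cl _)) h.cv_on.2.1,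
      hO.pv (subset_union_right.trans (subset_cl _)) h.top⟩
  have h1 : S.Av G ∈ cl (S.ends 2 G) := mem_cl_of_val fun O hO =>
    (xi_int hS h hO.empty (hp O hO).1 (hp O hO).2).1
  refine fun a ha => mem_cl_of_val fun O hO => ?_
  rcases crg_or hS h hO.empty (hp O hO).1 (hp O hO).2 with h2 | ⟨u, k1, k2, k3, -⟩
  · exact h2 a ha
  · have k4 := hO.val_one h1 h0
    rw [← div_mul_cancel₀ (S.Av G) k1, map_mul, mul_comm] at k4
    exact absurd k4 (mul_lt_one_of_lt_of_le k2 ((O.valuation_le_one_iff _).2 k3)).ne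

end Vale.Agent.P292
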