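import Vale.Agent.P292.C.Rev

/-! P292 C/Slope (task). Helper names start with `cslo_`. Consequences of `free`.
`gcd_one`: take a primitive `q`-th root of unity `ζ` in `ℂ` (`Complex.isPrimitiveRoot_exp`), mapped to `W`; `sc ζ z = z`, so `ζ = 1` by `hS.free`, so `q = 1`. `exists_exp`: let `g` be the gcd of the `w i` with `z i ≠ 0` (`g ≠ 0` by `wpos`), `g = 1` by `gcd_one`; Bezout (`Finset.gcd_eq_sum_mul` in `ℤ`, or induction), reduce the coefficients modulo `d` (`Int.emod`, `toNat`). `exists_slope`: choose `i₀` with `G i₀ ≠ 0` that maximises `natDegree (G i) / w i` in `ℚ`, write it as `p / q` in lowest terms; `H i = expand W q (G i)` is `On` (`Cn.On.map`), has degree at most `p * w i`, so `top p H` is `On` (`on_rev`), nonzero at `i₀`, and nonzero at `i` only if `q ∣ p * w i` (`coeff_expand`), so `q ∣ w i`; `gcd_one` gives `q = 1`. -/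

open Polynomial Set Matrix

set_option linter.unusedSectionVars false

noncomputable section

namespace Vale.Agent.P292

open Vale.Agent.P271 Vale.Agent.P276

variable {K : Type} [Field K] [Algebra ℂ K] {N n m : ℕ} {t : Fin (N + 1) → K} {S : Cn K N}
  {W : Type} [Field W] [Algebra ℂ W]

variable {W' κ : Type} [Field W'] [Algebra ℂ W'] [Field κ] [Algebra ℂ κ] {δ : ℕ}
  {G R₁ R₂ : Fin S.M → W[X]} {O : ValuationSubring W} {A Y : Set W}

theorem gcd_one (hS : S.Ok t n m) {z : Fin S.M → W} (h : S.On z) (h0 : z ≠ 0) {q : ℕ} (hq : q ≠ 0)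
    (h1 : ∀ i, z i ≠ 0 → q ∣ S.w i) : q = 1 := by
  obtain ⟨ζ, hζ⟩ : ∃ ζ : W, IsPrimitiveRoot ζ q :=
    ⟨_, (Complex.isPrimitiveRoot_exp q hq).map_of_injective (algebraMap ℂ W).injective⟩
  have e := hS.free W z ζ h h0 (funext fun i => by
    show ζ ^ S.w i * z i = z i
    by_cases hi : z i = 0
    · rw [hi, mul_zero]
    · rw [(hζ.pow_eq_one_iff_dvd _).2 (h1 i hi), one_mul])
  exact Nat.dvd_one.1 ((hζ.pow_eq_one_iff_dvd 1).1 (by rw [pow_one, e]))

theorem exists_exp (hS : S.Ok t n m) {z : Fin S.M → W} (h : S.On z) (h0 : z ≠ 0) {d : ℕ}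
    (hd : d ≠ 0) : ∃ e : Fin S.M → ℕ, (∀ i, z i = 0 → e i = 0) ∧
      ∑ i, e i * S.w i ≡ 1 [MOD d] := by
  classical
  obtain ⟨g, hg⟩ := Finset.gcd_eq_sum_mul (Finset.univ.filter fun i => ¬ z i = 0)
    fun i => (S.w i : ℤ)
  have h1 : ∀ i, z i ≠ 0 → ((Finset.univ.filter fun i => ¬ z i = 0).gcd
      fun i => (S.w i : ℤ)).natAbs ∣ S.w i := fun i hi =>
    Int.natAbs_dvd_natAbs.2 (Finset.gcd_dvd (f := fun i => (S.w i : ℤ)) (by simpa using hi))
  obtain ⟨j, hj⟩ := Function.ne_iff.1 h0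
  have h2 := gcd_one hS h h0 (ne_zero_of_dvd_ne_zero (hS.wpos j).ne' (h1 j hj)) h1
  generalize ((Finset.univ.filter fun i => ¬ z i = 0).gcd fun i => (S.w i : ℤ)) = c at hg h2
  have h3 : c * c = 1 := by rw [← Int.natAbs_mul_self, h2]; rfl
  have := NeZero.mk hd
  refine ⟨fun i => if z i = 0 then 0 else ((g i * c : ℤ) : ZMod d).val, fun i hi => if_pos hi,
    (ZMod.natCast_eq_natCast_iff _ _ _).1 ?_⟩
  nth_rewrite 1 [hg] at h3
  have h4 := congrArg (Int.cast : ℤ → ZMod d) h3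
  rw [Finset.sum_mul, Finset.sum_filter] at h4
  push_cast at h4 ⊢
  rw [← h4]
  refine Finset.sum_congr rfl fun i _ => ?_
  by_cases hi : z i = 0
  · simp [hi]
  · rw [if_neg hi, if_pos hi, ZMod.natCast_zmod_val]
    ring

theorem exists_slope (hS : S.Ok t n m) (h : S.On G) (h0 : G ≠ 0) :
    ∃ δ : ℕ, (∀ i, (G i).natDegree ≤ δ * S.w i) ∧ S.top δ G ≠ 0 := by
  classical
  obtain ⟨j, hj⟩ := Function.ne_iff.1 h0
  obtain ⟨i₀, hi₀, hm⟩ := Finset.exists_max_image (Finset.univ.filter fun i => G i ≠ 0)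
    (fun i => ((G i).natDegree : ℚ) / S.w i) ⟨j, by simpa using hj⟩
  rw [Finset.mem_filter_univ] at hi₀
  obtain ⟨p, q, hc, hp, hq⟩ := Nat.exists_coprime (G i₀).natDegree (S.w i₀)
  have hg : 0 < Nat.gcd (G i₀).natDegree (S.w i₀) := Nat.gcd_pos_of_pos_right _ (hS.wpos i₀)
  generalize Nat.gcd (G i₀).natDegree (S.w i₀) = g at hp hq hg
  have hq0 : 0 < q := Nat.pos_of_mul_pos_right (hq ▸ hS.wpos i₀)
  have h1 : ∀ i, (G i).natDegree * q ≤ p * S.w i := fun i => by
    by_cases hi : G i = 0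
    · simp [hi]
    have h2 := hm i (by simpa using hi)
    rw [div_le_div_iff₀ (by exact_mod_cast hS.wpos i) (by exact_mod_cast hS.wpos i₀), hp, hq] at h2
    have h3 : (G i).natDegree * (q * g) ≤ p * g * S.w i := by exact_mod_cast h2
    exact Nat.le_of_mul_le_mul_right (by nlinarith) hg
  have h2 := (on_rev (δ := p) (h.map ((expand W q).restrictScalars ℂ)) fun i =>
    (natDegree_expand q (G i)).le.trans (h1 i)).2
  have h3 : p * S.w i₀ = (G i₀).natDegree * q := by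
    rw [hp, hq]
    ring
  have h4 : q = 1 := gcd_one hS h2 (fun e => hi₀ (leadingCoeff_eq_zero.1 (by
    have h5 : (expand W q (G i₀)).coeff (p * S.w i₀) = 0 := congrFun e i₀
    rwa [h3, coeff_expand_mul hq0] at h5))) hq0.ne' fun i hi => hc.symm.dvd_of_dvd_mul_left (by
      by_contra h5
      exact hi ((coeff_expand hq0 (G i) _).trans (if_neg h5)))
  subst h4
  refine ⟨p, fun i => (mul_one _).ge.trans (h1 i), fun e => hi₀ (leadingCoeff_eq_zero.1 ?_)⟩
  have h5 : (G i₀).coeff (p * S.w i₀) = 0 := congrFun e i₀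
  rwa [h3, mul_one] at h5

end Vale.Agent.P292
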