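import Vale.Agent.P292.C.Dg
import Vale.Agent.P292.C.Slope
import Vale.Agent.P276.E.RkA

/-! P292 C/Un (TASK). Scaling. `on_sh`, `on_dil`, `on_scP`: `on_of_ev` or `On.map`. `om_eu_eu`: `om_right`, `om_anti`. `exists_unit_sc`: `e0_ne` gives `j`; `ρ ^ d = (z (e0 j))⁻¹`; the `e0` part of `sc ρ z` lies in `pj`; `sub_cl_e0`. Helper names start with `cun_`. -/

open Polynomial Set Matrix

set_option linter.unusedSectionVars false

noncomputable section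

namespace Vale.Agent.P292

open Vale.Agent.P271 Vale.Agent.P276

variable {K : Type} [Field K] [Algebra ℂ K] {N n m : ℕ} {t : Fin (N + 1) → K} {S : Cn K N}
  {W W' κ : Type} [Field W] [Algebra ℂ W] [Field W'] [Algebra ℂ W'] [Field κ] [Algebra ℂ κ]
  {δ : ℕ} {a b : ℤ} {G R R₁ R₂ v v' : Fin S.M → W[X]} {O : ValuationSubring W} {A B Y : Set W}

theorem sc_sc (ρ ρ' : W) (z : Fin S.M → W) : S.sc ρ (S.sc ρ' z) = S.sc (ρ * ρ') z := by
  funext i
  simp only [Cn.sc, mul_pow, mul_assoc]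

theorem sc_e0 (hS : S.Ok t n m) (ρ : W) (z : Fin S.M → W) :
    S.sc ρ z ∘ S.e0 = fun j => ρ ^ (m * (n + 1)) * (z ∘ S.e0) j := by
  funext j
  simp only [Cn.sc, Function.comp_apply, hS.we0]

theorem on_sh (h : S.On G) (a : W) : S.On (S.sh a G) := by
  exact h.map ((taylorAlgHom a).restrictScalars ℂ)

theorem on_dil (h : S.On G) (r : W) : S.On (dil r G) := by
  have h3 := h.map ((aeval (C 0 + C r * X) : W[X] →ₐ[W] W[X]).restrictScalars ℂ)
  have h4 : (fun i => ((aeval (C 0 + C r * X) : W[X] →ₐ[W] W[X]).restrictScalars ℂ) (G i)) =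
      dil r G := funext fun i => comp_eq_aeval.symm
  exact h4 ▸ h3

theorem on_scP (h : S.On G) (ρ : W) : S.On (S.scP ρ G) := by
  have h1 : S.scP ρ G = S.sc (C ρ) G := funext fun i => by
    simp only [Cn.scP, Cn.sc, map_pow]
  rw [h1]
  exact h.sc _

theorem om_eu_eu (hS : S.Ok t n m) {z : Fin S.M → W} (h : S.On z) (h0 : z ≠ 0) (c : W) :
    S.om z (S.eu z) (c • S.eu z) = 0 := by
  have : CharZero W := charZero_of_injective_algebraMap (algebraMap ℂ W).injective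
  have h1 := om_anti hS h h0 h.eu h.eu
  have h2 : S.om z (S.eu z) (S.eu z) = 0 := by
    have h3 : 2 * S.om z (S.eu z) (S.eu z) = 0 := by linear_combination h1
    exact (mul_eq_zero.1 h3).resolve_left two_ne_zero
  have h4 := om_right hS h h0 h.eu h.eu h.eu c 0
  rwa [zero_smul, add_zero, h2, mul_zero, mul_zero, add_zero] at h4

theorem exists_unit_sc [IsAlgClosed W] (hS : S.Ok t n m) {z : Fin S.M → W} (h : S.On z)
    (h0 : z ≠ 0) : ∃ ρ : W, ρ ≠ 0 ∧ range (S.sc ρ z) ⊆ cl (pj (z ∘ S.e0)) := by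
  obtain ⟨j, hj⟩ := Function.ne_iff.1 (e0_ne hS h h0)
  have hd : 0 < m * (n + 1) := Nat.mul_pos hS.fano.pos n.succ_pos
  obtain ⟨ρ, hρ⟩ := IsAlgClosed.exists_pow_nat_eq ((z ∘ S.e0) j)⁻¹ hd
  refine ⟨ρ, fun e => inv_ne_zero hj (by rw [← hρ, e, zero_pow hd.ne']),
    (sub_cl_e0 hS (h.sc ρ)).trans (cl_le ?_)⟩
  rintro _ ⟨i, rfl⟩
  refine subset_cl _ ⟨i, j, ?_⟩
  rw [sc_e0 hS, hρ, div_eq_inv_mul]

theorem pj_sc_e0 (hS : S.Ok t n m) {ρ : W} (hρ : ρ ≠ 0) (z : Fin S.M → W) :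
    pj (S.sc ρ z ∘ S.e0) = pj (z ∘ S.e0) := by
  rw [sc_e0 hS]
  exact pj_smul (pow_ne_zero _ hρ) _

theorem lc_of [IsAlgClosed W] (hS : S.Ok t n m) (h : S.On G) (h0 : Curve0 t (G ∘ S.e0))
    (hd : deg0 (G ∘ S.e0) = δ * (m * (n + 1))) : S.LC δ G := by
  have h1 : ∀ a, S.ev G a ≠ 0 := fun a => by
    obtain ⟨j, hj⟩ := h0.2 a
    exact Function.ne_iff.2 ⟨S.e0 j, hj⟩
  have h2 : G ≠ 0 := fun e => h1 0 (by
    rw [e]
    funext i
    simp [Cn.ev])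
  obtain ⟨δ', h3, h4⟩ := exists_slope hS h h2
  have h5 : S.LC δ' G := ⟨h, h3, h1, h4⟩
  have h6 := (h5.curve0 hS).2
  rw [hd] at h6
  rwa [Nat.eq_of_mul_eq_mul_right (Nat.mul_pos hS.fano.pos n.succ_pos) h6]

end Vale.Agent.P292
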